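import Vale.Agent.P153.F.X.Flip
import Vale.Agent.P153.F.PL.Moment

/-!
P153-F, block X (triangular lattice): the input `MomJ` of the counting lemma from the logarithmic
growth of second moments (`LogT`), the flip and the moment bound of the plane measure.
-/

namespace Vale.Agent.P153.F.X

open Finset MeasureTheory
open Vale.Agent.P153

/-- Logarithmic growth of the second moments. -/
def LogT (P : Measure (Pt → ℤ)) : Prop :=
  ∃ (w : ℤ → (Pt →₀ ℝ)) (K : ℝ) (s₁ : ℤ), 0 ≤ K ∧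
    (∀ s, s₁ ≤ s → massT (w s) = 1 ∧ (∀ v, 0 ≤ w s v) ∧ ∀ v ∈ (w s).support, v ∈ bx 0 s) ∧
    ∀ j : ℕ, ∃ s₀ : ℤ, ∀ s, s₀ ≤ s → ∃ b : Pt →₀ ℝ, massT b = 1 ∧ (∀ v, 0 ≤ b v) ∧
      (∀ v ∈ b.support, v ∉ bx 0 (2 * (4 ^ j * s))) ∧
      ∫ φ, evT (w s - b) φ ^ 2 ∂P ≤ K * (j + 1)

theorem evT_lin (w : Pt →₀ ℝ) (φ : Pt → ℤ) : evT w φ = PL.lin w.support w φ := rfl

/-- All moments of neutral functionals of the plane measure. -/
theorem plane_mom {P : Measure (Pt → ℤ)} (hP : GFF.Plane P) {w : Pt →₀ ℝ} (hw : massT w = 0)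
    {A V : ℝ} (hA : ∑ v ∈ w.support, |w v| ≤ A) (hV : ∫ φ, evT w φ ^ 2 ∂P ≤ V) (n : ℕ) :
    ∫⁻ φ, ENNReal.ofReal ((2 * evT w φ) ^ (2 * n)) ∂P ≤
      ENNReal.ofReal (4 ^ n * (81 ^ n * PL.Ck n * (V + A ^ 2) ^ n)) := by
  have := hP.prob
  have hw' : ∑ v ∈ w.support, w v = 0 := hw
  have hm := PL.moment n hP.lip hP.lim hw'
  obtain ⟨M, hM⟩ := PL.lin_bdd hP.lip hw'
  have hX := PL.measurable_lin w.support w
  have hXi : Integrable (fun φ => (2 * evT w φ) ^ (2 * n)) P := by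
    refine Integrable.mono' (integrable_const ((2 * M) ^ (2 * n)))
      ((hX.const_mul 2).pow_const _).aestronglyMeasurable ?_
    filter_upwards [hM] with φ hφ
    rw [evT_lin, norm_pow, Real.norm_eq_abs, abs_mul, abs_two]
    exact pow_le_pow_left₀ (by positivity) (by linarith) _
  have h00 : ∀ φ : Pt → ℤ, 0 ≤ (2 * evT w φ) ^ (2 * n) := fun φ => by
    rw [pow_mul]
    positivity
  rw [← ofReal_integral_eq_lintegral_ofReal hXi (Filter.Eventually.of_forall h00)]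
  refine ENNReal.ofReal_le_ofReal ?_
  have e : ∀ φ : Pt → ℤ, (2 * evT w φ) ^ (2 * n) = 4 ^ n * PL.lin w.support w φ ^ (2 * n) := by
    intro φ
    rw [mul_pow, evT_lin, pow_mul (2 : ℝ) 2 n]
    norm_num
  simp only [e]
  rw [integral_const_mul]
  refine mul_le_mul_of_nonneg_left (hm.trans ?_) (by positivity)
  have hc := PL.ck_nonneg n
  refine mul_le_mul_of_nonneg_left ?_ (by positivity)
  have h0 : 0 ≤ ∫ φ, PL.lin w.support w φ ^ 2 ∂P := integral_nonneg fun φ => sq_nonneg _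
  have hA0 : 0 ≤ ∑ v ∈ w.support, |w v| := Finset.sum_nonneg fun v _ => abs_nonneg _
  refine pow_le_pow_left₀ (by positivity) (add_le_add hV ?_) n
  exact pow_le_pow_left₀ hA0 hA 2

theorem massT_sub (a b : Pt →₀ ℝ) : massT (a - b) = massT a - massT b := by
  unfold massT
  exact Finsupp.sum_sub_index fun _ _ _ => rfl

/-- The total variation of a difference of two probability weights. -/
theorem tv_sub {a b : Pt →₀ ℝ} (ha : massT a = 1) (hb : massT b = 1) (ha0 : ∀ v, 0 ≤ a v)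
    (hb0 : ∀ v, 0 ≤ b v) : ∑ v ∈ (a - b).support, |(a - b) v| ≤ 2 := by
  classical
  have key : ∀ (c : Pt →₀ ℝ) (S : Finset Pt), (∀ v, 0 ≤ c v) → ∑ v ∈ S, c v ≤ massT c := by
    intro c S hc
    have h1 : ∑ v ∈ S, c v = ∑ v ∈ S ∩ c.support, c v := by
      refine (Finset.sum_subset Finset.inter_subset_left fun v hv hv' => ?_).symm
      by_contra h
      exact hv' (Finset.mem_inter.2 ⟨hv, Finsupp.mem_support_iff.2 h⟩)
    rw [h1]
    exact Finset.sum_le_sum_of_subset_of_nonneg Finset.inter_subset_right fun v _ _ => hc v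
  calc ∑ v ∈ (a - b).support, |(a - b) v| ≤ ∑ v ∈ (a - b).support, (a v + b v) := by
        refine Finset.sum_le_sum fun v _ => ?_
        rw [Finsupp.sub_apply, abs_le]
        have := ha0 v
        have := hb0 v
        constructor <;> linarith
    _ = ∑ v ∈ (a - b).support, a v + ∑ v ∈ (a - b).support, b v := Finset.sum_add_distrib
    _ ≤ 1 + 1 := add_le_add ((key a _ ha0).trans ha.le) ((key b _ hb0).trans hb.le)
    _ = 2 := by norm_num

/-- **MomJ.** -/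
theorem momJ_of {P : Measure (Pt → ℤ)} (hP : GFF.Plane P) (hL : LogT P) : MomJ P := by
  obtain ⟨w, K, s₁, hK, hw, hj⟩ := hL
  have hc := PL.ck_nonneg 2
  refine ⟨w, 3 * (4 ^ 2 * (81 ^ 2 * PL.Ck 2 * (K + 4) ^ 2)), s₁, by positivity,
    fun s hs => (hw s hs).1, fun j => ?_⟩
  obtain ⟨s₀, h0⟩ := hj j
  refine ⟨max (max s₀ s₁) 1, fun s hs => ?_⟩
  have hs0 : s₀ ≤ s := ((le_max_left _ _).trans (le_max_left _ _)).trans hs
  have hs1 : s₁ ≤ s := ((le_max_right _ _).trans (le_max_left _ _)).trans hs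
  have hs2 : 1 ≤ s := (le_max_right _ _).trans hs
  obtain ⟨b, hb1, hb2, hb3, hb4⟩ := h0 s hs0
  obtain ⟨hw1, hw2, hw3⟩ := hw s hs1
  have hs3 : 1 ≤ 4 ^ j * s := one_le_sc hs2 j
  have hle : s ≤ 4 ^ j * s := by
    have h4 : (1 : ℤ) ≤ 4 ^ j := one_le_pow₀ (by norm_num)
    nlinarith
  have hm0 : massT (w s - b) = 0 := by rw [massT_sub, hw1, hb1, sub_self]
  have e : w s + -b = w s - b := (sub_eq_add_neg _ _).symm
  have h1 := (momT (gb_of_plane hP) (p := 0) hs3 (a := w s) (b := -b)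
    (fun v hv => ?_) (fun v hv => ?_) (by rw [e]; exact hm0) 2).1
  · rw [e] at h1
    have h2 := plane_mom hP hm0 (tv_sub hw1 hb1 hw2 hb2) hb4 2
    refine h1.trans ((mul_le_mul_right h2 3).trans ?_)
    have e3 : (3 : ENNReal) = ENNReal.ofReal 3 := by norm_num
    rw [e3, ← ENNReal.ofReal_mul (by norm_num)]
    refine ENNReal.ofReal_le_ofReal ?_
    have h5 : (K * (j + 1) + 2 ^ 2) ^ 2 ≤ (K + 4) ^ 2 * (j + 1) ^ 2 := by
      rw [← mul_pow]
      refine pow_le_pow_left₀ (by positivity) ?_ 2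
      have : (0 : ℝ) ≤ j := Nat.cast_nonneg j
      nlinarith
    calc 3 * (4 ^ 2 * (81 ^ 2 * PL.Ck 2 * (K * (j + 1) + 2 ^ 2) ^ 2))
        ≤ 3 * (4 ^ 2 * (81 ^ 2 * PL.Ck 2 * ((K + 4) ^ 2 * (j + 1) ^ 2))) := by
          refine mul_le_mul_of_nonneg_left ?_ (by norm_num)
          refine mul_le_mul_of_nonneg_left ?_ (by norm_num)
          exact mul_le_mul_of_nonneg_left h5 (by positivity)
      _ = _ := by ring
  · obtain ⟨q1, q2⟩ := hw3 v hv
    exact ⟨q1.trans hle, q2.trans hle⟩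
  · rw [Finsupp.support_neg] at hv
    exact hb3 v hv

/-- **COUNT on T**, from the logarithmic growth. -/
theorem s_cnt_of {P : Measure (Pt → ℤ)} (hP : GFF.Plane P) (hrsw : S_rsw P) (hL : LogT P) :
    S_cnt P := by
  have := hP.prob
  exact s_cnt hP.shift hrsw (momJ_of hP hL)

end Vale.Agent.P153.F.X
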