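import Vale.Agent.P153.F.RSW.AcT
import Vale.Agent.P153.F.RSW.CovUp
import Vale.Agent.P153.F.X.MomJ

/-!
P153-F, block X (triangular lattice): logarithmic growth of the second moments of the smeared
differences of the plane measure (`LogT`), and the counting leaf `S_cnt`.
-/

namespace Vale.Agent.P153.F.X

open MeasureTheory Filter Topology
open Vale.Agent.P153.GFF
open Vale.Agent.P153.F.RSW.AC (bw dif second phi psi seq_lim row_var supp_ax mass_bw ev_bw smear_sub
  smear_scale dif_test cov_dif_up phi_cont phi_compact psi_smooth psi_compact phi_nonneg)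

/-- Second moments of the smeared field, with the constant. -/
theorem second_le {P : Measure (Pt → ℤ)} {κ : ℝ} (hP : Plane P) (hS : SpecOut P κ)
    {f : ℝ × ℝ → ℝ} (hf : Test f) :
    ∀ᶠ δ : ℝ in 𝓝[>] 0, ∫ φ, (smear φ δ f) ^ 2 ∂P ≤ 2 * (κ / √3 * gffCov f f) + 1 := by
  obtain ⟨K, hK⟩ := hf.csts
  obtain ⟨A, hA0, hA⟩ := growth (grow_row hS)
  obtain ⟨m, C, k0, hspec⟩ := hS
  set E1 : ℝ → ℝ := fun δ => ∫ φ, (smear φ δ f - rowS δ f φ) ^ 2 ∂P with hE1
  set E2 : ℝ → ℝ := fun δ => ∫ φ, (rowS δ f φ) ^ 2 ∂P with hE2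
  have l1 : Tendsto E1 (𝓝[>] 0) (𝓝 0) := seq_lim fun δ h1 h2 h3 =>
    (close hP (dec hspec) hA0 hA hK δ h1 h2 h3).1
  have l2 : Tendsto E2 (𝓝[>] 0) (𝓝 (κ / √3 * gffCov f f)) := seq_lim fun δ h1 h2 h3 => by
    have hD := disc hK hf.2.2 δ h1 h2 h3
    have h4 := TwoPt.p1 _ _ _ _ _ _ hspec _ _ _ _ hD
    rw [sig_ft hf] at h4
    refine h4.congr fun n => ?_
    exact (row_var hP hD n).1.symm
  have l3 : Tendsto (fun δ => 2 * E1 δ + 2 * E2 δ) (𝓝[>] 0)
      (𝓝 (2 * 0 + 2 * (κ / √3 * gffCov f f))) := (l1.const_mul 2).add (l2.const_mul 2)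
  have h5 := l3.eventually_le_const (u := 2 * (κ / √3 * gffCov f f) + 1) (by linarith)
  have h6 : ∀ᶠ δ : ℝ in 𝓝[>] 0, 0 < δ ∧ δ ≤ 1 := by
    filter_upwards [Ioc_mem_nhdsGT (zero_lt_one' ℝ)] with x hx
    exact hx
  filter_upwards [h5, h6] with δ hδ hδ'
  refine le_trans ?_ hδ
  have h1 : ∀ n : ℕ, 0 < δ / ((n : ℝ) + 1) := fun n => div_pos hδ'.1 (by positivity)
  have h2 : ∀ n : ℕ, δ / ((n : ℝ) + 1) ≤ 1 := fun n => by
    rw [div_le_one (by positivity)]
    have : (0 : ℝ) ≤ n := by positivity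
    linarith [hδ'.2]
  have h3 : Tendsto (fun n : ℕ => δ / ((n : ℝ) + 1)) atTop (𝓝 0) := by
    have := (tendsto_one_div_add_atTop_nhds_zero_nat (𝕜 := ℝ)).const_mul δ
    rw [mul_zero] at this
    refine this.congr fun n => ?_
    ring
  have i1 : Integrable (fun φ => (smear φ δ f - rowS δ f φ) ^ 2) P := by
    have h4 := (close hP (dec hspec) hA0 hA hK _ h1 h2 h3).2 0
    simpa using h4
  have i2 : Integrable (fun φ => (rowS δ f φ) ^ 2) P := by
    have h4 := (row_var hP (disc hK hf.2.2 _ h1 h2 h3) 0).2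
    simpa [rowS] using h4
  calc ∫ φ, (smear φ δ f) ^ 2 ∂P
      ≤ ∫ φ, (2 * (smear φ δ f - rowS δ f φ) ^ 2 + 2 * (rowS δ f φ) ^ 2) ∂P := by
        refine integral_mono_of_nonneg (Eventually.of_forall fun φ => sq_nonneg _)
          ((i1.const_mul 2).add (i2.const_mul 2)) (Eventually.of_forall fun φ => ?_)
        simp only
        nlinarith [sq_nonneg (smear φ δ f - 2 * rowS δ f φ)]
    _ = 2 * E1 δ + 2 * E2 δ := by
        rw [integral_add (i1.const_mul 2) (i2.const_mul 2), integral_const_mul, integral_const_mul]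

theorem bw_nonneg (c : ℝ × ℝ) (s : ℕ) (v : Pt) : 0 ≤ bw c s v := by
  unfold bw
  rw [Finsupp.onFinset_apply]
  split_ifs
  · unfold GFF.wt
    refine mul_nonneg (sq_nonneg _) (integral_nonneg fun u => ?_)
    exact mul_nonneg (ker_nonneg _) (phi_nonneg _ _)
  · exact le_rfl

theorem evT_sub (a b : Pt →₀ ℝ) (h : Hg) : evT (a - b) h = evT a h - evT b h := by
  unfold evT
  exact Finsupp.sum_sub_index fun v x y => by ring

/-- **Logarithmic growth of the second moments.** -/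
theorem logT {P : Measure (Pt → ℤ)} {κ : ℝ} (hP : Plane P) (hS : SpecOut P κ) (hκ : 0 ≤ κ) :
    LogT P := by
  obtain ⟨a, ha0, ha⟩ := cov_dif_up
  have hc0 : 0 ≤ κ / √3 := by positivity
  have hlog4 : 0 ≤ (Real.pi)⁻¹ * Real.log 4 :=
    mul_nonneg (by positivity) (Real.log_nonneg (by norm_num))
  refine ⟨fun s => bw (0, 0) s.toNat, 2 * (κ / √3 * (a + (Real.pi)⁻¹ * Real.log 4)) + 1, 20,
    by positivity, fun s hs => ?_, fun j => ?_⟩
  · have hn : 20 ≤ s.toNat := by omega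
    refine ⟨mass_bw _ (by omega), bw_nonneg _ _, fun v hv => ?_⟩
    obtain ⟨h1, h2⟩ := supp_ax 0 hn hv
    rw [mul_zero, sub_zero] at h2
    have e : ((s.toNat : ℕ) : ℝ) = (s : ℝ) := by
      exact_mod_cast Int.toNat_of_nonneg (by omega : (0 : ℤ) ≤ s)
    rw [e] at h1 h2
    have h3 : |v.1| < s := by exact_mod_cast h2
    have h4 : |v.2| < s := by exact_mod_cast h1
    constructor
    · simpa using h3.le
    · simpa using h4.le
  · have hl1 : (1 : ℝ) ≤ 4 ^ j := one_le_pow₀ (by norm_num)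
    have hl0 : (0 : ℝ) < 4 ^ j := by positivity
    have h2 := second_le hP hS (dif_test hl0)
    have t1 : Tendsto (fun s : ℕ => 1 / (s : ℝ)) atTop (𝓝[>] 0) := by
      rw [tendsto_nhdsWithin_iff]
      refine ⟨tendsto_one_div_atTop_nhds_zero_nat, ?_⟩
      filter_upwards [eventually_gt_atTop 0] with s hs
      have : (0 : ℝ) < s := by exact_mod_cast hs
      exact one_div_pos.2 this
    obtain ⟨s0, hs0⟩ := Filter.eventually_atTop.1 (t1.eventually h2)
    refine ⟨max s0 20, fun s hs => ?_⟩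
    obtain ⟨n, rfl⟩ : ∃ n : ℕ, s = n := ⟨s.toNat, by omega⟩
    have hn0 : s0 ≤ n := by omega
    have hn : 20 ≤ n := by omega
    have hN : 20 ≤ 4 ^ j * n := by
      have : 1 ≤ 4 ^ j := Nat.one_le_pow _ _ (by norm_num)
      nlinarith
    have hnpos : 0 < n := by omega
    have hNpos : 0 < 4 ^ j * n := by omega
    refine ⟨bw (3, 0) (4 ^ j * n), mass_bw _ hNpos, bw_nonneg _ _, fun v hv => ?_, ?_⟩
    · obtain ⟨-, h3⟩ := supp_ax 3 hN hv
      intro hb
      have hb1 : |v.1 - 0| ≤ 2 * (4 ^ j * (n : ℤ)) := hb.1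
      rw [abs_lt] at h3
      rw [sub_zero, abs_le] at hb1
      have hb2 : (v.1 : ℝ) ≤ 2 * (4 ^ j * (n : ℝ)) := by exact_mod_cast hb1.2
      have h4 := h3.1
      push_cast at h4
      linarith
    · have e : ∀ φ : Pt → ℤ, evT (bw (0, 0) ((n : ℤ)).toNat - bw (3, 0) (4 ^ j * n)) φ =
          smear φ (1 / n) (dif (4 ^ j)) := by
        intro φ
        have hs1 : (0 : ℝ) < 1 / n := by positivity
        have e1 : (1 : ℝ) / ((4 ^ j * n : ℕ) : ℝ) = 1 / n / (4 ^ j) := by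
          push_cast
          field_simp
        have e2 := smear_sub φ hs1 (phi_cont (0, 0)) (phi_compact _)
          (psi_smooth (4 ^ j) (3, 0)).continuous (psi_compact hl0 _)
        have e3 : evT (bw (0, 0) n) φ = smear φ (1 / n) (phi (0, 0)) := ev_bw _ hnpos φ
        have e4 : evT (bw (3, 0) (4 ^ j * n)) φ = smear φ (1 / ((4 ^ j * n : ℕ) : ℝ)) (phi (3, 0)) :=
          ev_bw _ hNpos φ
        rw [Int.toNat_natCast, evT_sub, e3, e4, e1, ← smear_scale φ hl0, ← e2]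
        rfl
      simp only
      simp_rw [e]
      refine (hs0 n hn0).trans ?_
      have h5 := ha (4 ^ j) hl1
      rw [Real.log_pow] at h5
      have h6 := mul_le_mul_of_nonneg_left h5 hc0
      have hj : (0 : ℝ) ≤ j := Nat.cast_nonneg j
      have h7 : a + (Real.pi)⁻¹ * (j * Real.log 4) ≤ (a + (Real.pi)⁻¹ * Real.log 4) * (j + 1) := by
        nlinarith [mul_nonneg ha0 hj]
      have h8 := mul_le_mul_of_nonneg_left h7 hc0
      nlinarith

/-- **COUNT on T.** -/
theorem s_cnt_T {P : Measure (Pt → ℤ)} {κ : ℝ} (hP : Plane P) (hS : SpecOut P κ) (hκ : 0 ≤ κ)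
    (hrsw : S_rsw P) : S_cnt P := s_cnt_of hP hrsw (logT hP hS hκ)

end Vale.Agent.P153.F.X
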