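import Vale.Agent.P153.F.Top.Stmt
import Vale.Agent.P153.F.RSW.Defs
import Vale.Agent.P153.F.Mu

/-!
P153-F, block X (triangular lattice; mirror of `P145.X.Stmt`): objects and statements between the
percolation input and the interface `F/Top/Stmt.lean`.

Coordinates: the vertex `x` of the triangular lattice is the point `2 x` of the fine lattice of
`F/RSW/Defs.lean`; the edge between `x` and `y` is its midpoint `x + y`.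
-/

namespace Vale.Agent.P153.F.X

open Filter Topology Set MeasureTheory
open Vale.Agent.P153
open Vale.Agent.P153.F.RSW (Ann)
open Vale.Agent.P153.F.Top (Om Cone EE hv hvl ze dp c1 c2)
open Vale.Agent.P145.PT (TestOn)

/-- The midpoints of the edges with `|h| = 1` at both ends. -/
def bl (h : Hg) : Set Pt := {w | ∃ x y, Adj x y ∧ w = x + y ∧ |h x| = 1 ∧ |h y| = 1}

/-- Circuit of edges in the annulus with centre `p` and radii `r`, `2 r`. -/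
def Zr (p : Pt) (r : ℤ) (B : Set Pt) : Prop := Ann p.1 p.2 r (B ∩ RSW.Mid)

/-- Edges with both ends in `F`. -/
def iE (F : Set Pt) : Set Pt := {w | ∃ x ∈ F, ∃ y ∈ F, Adj x y ∧ w = x + y}

/-- Edges with an end in `F`. -/
def tE (F : Set Pt) : Set Pt := {w | ∃ x ∈ F, ∃ y, Adj x y ∧ w = x + y}

/-- A step which is not blocked by `B`. -/
def stp (B : Set Pt) (x y : Pt) : Prop := Adj x y ∧ x + y ∉ B

/-- The vertices joined to `S` by paths avoiding `B` are in `T`. -/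
def Conf (B : Set Pt) (S T : Set Pt) : Prop :=
  ∀ x ∈ S, ∀ y, Relation.ReflTransGen (stp B) x y → y ∈ T

/-- The vertices in the box (parallelogram) `[p - r, p + r]`. -/
def bx (p : Pt) (r : ℤ) : Set Pt := {x | |x.1 - p.1| ≤ r ∧ |x.2 - p.2| ≤ r}

/-- `g` depends only on finitely many edges, in `A`. -/
def LocS (A : Set Pt) (g : Set Pt → ℝ) : Prop :=
  ∃ Λ : Finset Pt, (∀ w ∈ Λ, w ∈ A) ∧ ∀ B B' : Set Pt, (∀ w ∈ Λ, w ∈ B ↔ w ∈ B') → g B = g B'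

/-- Nonnegative local function of the set of blocked edges which vanishes on the empty set. -/
structure Fn (A : Set Pt) (g : Set Pt → ℝ) : Prop where
  nonneg : ∀ B, 0 ≤ g B
  loc : LocS A g
  pin : g ∅ = 0

/-- The real heights. -/
noncomputable def vm (h : Hg) : Om := fun v => (h v : ℝ)

/-- `A` depends only on the heights of the vertices of `V`. -/
def On (V : Set Pt) (A : Om → ℝ) : Prop := ∀ ω ω' : Om, (∀ v ∈ V, ω v = ω' v) → A ω = A ω'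

/-- `∫ g(bl) A(heights) dmuT`. -/
noncomputable def II (P : Measure (Pt → ℤ)) (g : Set Pt → ℝ) (A : Om → ℝ) : ℝ :=
  ∫ h, g (bl h) * A (vm h) ∂(muT P)

open Classical in
/-- Indicator of a property of sets of edges. -/
noncomputable def ind (Q : Set Pt → Prop) : Set Pt → ℝ := fun B => if Q B then 1 else 0

/-! ### Positive association in the plane -/

/-- Integrability. -/
def S_int (P : Measure (Pt → ℤ)) : Prop :=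
  ∀ (g : Set Pt → ℝ) (A : Om → ℝ), LocS univ g → g ∅ = 0 → Top.Alg A →
    Integrable (fun h => g (bl h) * A (vm h)) (muT P)

/-- LOW. -/
def S_low (P : Measure (Pt → ℤ)) : Prop :=
  ∀ (F : Finset Pt) (Θ : Set Pt → ℝ) (A : Om → ℝ), Fn (tE (F : Set Pt))ᶜ Θ → Cone A →
    ze F A * II P Θ (fun _ => 1) ≤ II P Θ A

/-- UP. -/
def S_up (P : Measure (Pt → ℤ)) : Prop :=
  ∀ (F F' : Finset Pt) (g : Set Pt → ℝ) (A : Om → ℝ), F ⊆ F' → Fn (tE (F : Set Pt))ᶜ g →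
    Monotone g → (∀ B, g B ≠ 0 → Conf B (F' : Set Pt)ᶜ (F : Set Pt)ᶜ) → Cone A →
    On (F : Set Pt) A → II P g A ≤ ze F' A * II P g (fun _ => 1)

/-- EXT: the cluster of the box `bx p r` is explored from inside. -/
def S_ext (P : Measure (Pt → ℤ)) : Prop :=
  ∀ (p : Pt) (r : ℤ) (X Θ a : Set Pt → ℝ) (A : Om → ℝ), 1 ≤ r →
    Fn univ X → Monotone X → (∀ B, X B ≠ 0 → Conf B (bx p r) (bx p (2 * r))) →
    Fn (iE (bx p r)) Θ →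
    (∀ B, 0 ≤ a B) → LocS (tE (bx p (3 * r)))ᶜ a → Antitone a →
    Cone A → On (bx p (2 * r))ᶜ A →
    II P (fun B => X B * a B) A * II P Θ (fun _ => 1) ≤
      II P X (fun _ => 1) * II P (fun B => Θ B * a B) A

/-! ### Circuits -/

/-- RSW: circuits at level `0` exist with positive mass at all scales. -/
def S_rsw (P : Measure (Pt → ℤ)) : Prop :=
  ∃ c₁ : ℝ, 0 < c₁ ∧ ∃ r₀ : ℤ, 1 ≤ r₀ ∧ ∀ r, r₀ ≤ r → ∀ p : Pt,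
    c₁ ≤ II P (ind (Zr p r)) (fun _ => 1) ∧ II P (ind (Zr p r)) (fun _ => 1) ≤ 2

/-- A circuit confines the box inside (deterministic). -/
def S_conf : Prop := ∀ (p : Pt) (r : ℤ) (B : Set Pt), 1 ≤ r → Zr p r B →
  Conf B (bx p r) (bx p (2 * r))

/-- Locality of `Zr` (deterministic). -/
def S_loc : Prop := ∀ (p : Pt) (r : ℤ), 1 ≤ r →
  Monotone (ind (Zr p r)) ∧
    Fn {w | w ∈ iE (bx p (2 * r)) ∧ w ∉ iE (bx p (r - 1))} (ind (Zr p r))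

/-- MOM: moments near a circuit, uniformly in the scale. -/
def S_mom (P : Measure (Pt → ℤ)) : Prop :=
  ∀ (K : ℝ) (k : ℕ), 0 < K → ∃ C : ℝ, ∃ s₀ : ℤ, 1 ≤ s₀ ∧ ∀ s, s₀ ≤ s → ∀ (p : Pt)
    (u : Pt →₀ ℝ), (∀ v, 0 ≤ u v ∧ u v ≤ K / (s : ℝ) ^ 2) →
    (∀ v, u v ≠ 0 → |((v.1 - p.1 : ℤ) : ℝ)| ≤ K * s ∧ |((v.2 - p.2 : ℤ) : ℝ)| ≤ K * s) →
    II P (ind (Zr p s)) (fun ω => (u.sum fun v a => a * ω v) ^ (2 * k)) ≤ C

/-- COUNT: at one of the first `n` scales, given a circuit at level `0`, there is another one at a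
larger scale, except with relative probability `η`. -/
def S_cnt (P : Measure (Pt → ℤ)) : Prop :=
  ∀ η : ℝ, 0 < η → ∀ N : ℕ, ∃ n : ℕ, N ≤ n ∧ ∃ s₀ : ℤ, 1 ≤ s₀ ∧ ∀ s, s₀ ≤ s → ∃ j < n,
    ∀ p : Pt,
      II P (ind fun B => Zr p (4 ^ j * s) B ∧ ∀ i, j + 4 ≤ i → i ≤ 2 * n → ¬ Zr p (4 ^ i * s) B)
        (fun _ => 1) ≤ η * II P (ind (Zr p (4 ^ j * s))) (fun _ => 1)

/-- GAP (from `S_ext`, `S_cnt`, `S_conf`, `S_loc`). -/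
def S_gap (P : Measure (Pt → ℤ)) : Prop :=
  ∀ η : ℝ, 0 < η → ∀ N : ℕ, ∃ n : ℕ, N ≤ n ∧ ∃ s₀ : ℤ, 1 ≤ s₀ ∧ ∀ s, s₀ ≤ s → ∃ j < n,
    ∀ (p : Pt) (X : Set Pt → ℝ), Fn univ X → Monotone X →
      (∀ B, X B ≠ 0 → Zr p (4 ^ (j + 1) * s) B) →
      II P (fun B => X B * ind (fun B => ∀ i, j + 4 ≤ i → i ≤ 2 * n → ¬ Zr p (4 ^ i * s) B) B)
        (fun _ => 1) ≤ η * II P X (fun _ => 1)

/-- POS: the full grid of circuits, all at level `0`, together with a big one. -/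
def S_pos (P : Measure (Pt → ℤ)) : Prop :=
  ∀ N : ℕ, ∃ c : ℝ, 0 < c ∧ ∃ s₀ : ℤ, 1 ≤ s₀ ∧ ∀ s, s₀ ≤ s → ∀ (y₀ : Pt) (m : ℤ), 1 ≤ m →
    |y₀.1| + 2 * m ≤ N → |y₀.2| + 2 * m ≤ N →
    c ≤ II P (ind fun B => (∀ y : Pt, |y.1| ≤ N → |y.2| ≤ N → Zr (s * y.1, s * y.2) s B) ∧
      Zr (s * y₀.1, s * y₀.2) (m * s) B) (fun _ => 1)

/-- Moments given a monotone event which contains a circuit (from `S_ext`). -/
def S_emom (P : Measure (Pt → ℤ)) : Prop :=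
  ∀ (p : Pt) (s : ℤ) (X : Set Pt → ℝ) (A : Om → ℝ), 1 ≤ s → Fn univ X → Monotone X →
    (∀ B, X B ≠ 0 → Zr p (4 * s) B) → Cone A → On (bx p (8 * s))ᶜ A →
    II P X A * II P (ind (Zr p s)) (fun _ => 1) ≤
      II P X (fun _ => 1) * II P (ind (Zr p s)) A

/-- MM: moments of the heights given a macroscopic circuit at level `0`. -/
def S_mm (P : Measure (Pt → ℤ)) (δ : ℕ → ℝ) : Prop := ∀ R : ℝ, 1 ≤ R → ∀ k : ℕ,
  ∃ C : ℝ, 0 ≤ C ∧ ∀ f : ℝ × ℝ → ℝ, TestOn (Metric.ball 0 R) f → ∀ ε : ℝ, 0 < ε →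
    ∀ᶠ n in atTop, ∀ (p : Pt) (s : ℤ), |δ n * p.1| ≤ R → |δ n * p.2| ≤ R →
      R⁻¹ ≤ δ n * s → δ n * s ≤ R →
        II P (ind (Zr p s)) (fun ω => hv (δ n) f ω ^ (2 * k)) ≤ C * ((∫ z, f z ^ 2) + ε) ^ k

/-! ### Geometry -/

/-- The regions of the pinwheel of the triangle `a ≤ q₁`, `b ≤ q₂`, `q₁ + q₂ ≤ c`. -/
def Kq (a b c e : ℝ) (i : Fin 3) : Set (ℝ × ℝ) :=
  {z | (i = 0 ∧ c1 z ≤ a - e) ∨ (i = 1 ∧ a ≤ c1 z ∧ c + e ≤ c1 z + c2 z) ∨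
    (i = 2 ∧ a ≤ c1 z ∧ c1 z + c2 z ≤ c ∧ c2 z ≤ b - e)}

/-- The ends of the edges of `A` are in the region `K`. -/
def FinT (δ : ℝ) (A : Set Pt) (K : Set (ℝ × ℝ)) : Prop :=
  ∀ w ∈ A, ∀ x y : Pt, Adj x y → w = x + y → dp δ x ∈ K

/-- The scales: `sc ε δ i = 4 ^ i ⌊ε / δ⌋`. -/
noncomputable def sc (ε δ : ℝ) (i : ℕ) : ℤ := 4 ^ i * ⌊ε / δ⌋

/-- The centre `y`, for the spacing `w`. -/
def ce (w : ℤ) (y : Pt) : Pt := (w * y.1, w * y.2)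

/-- SHELL: the net `Y` of circuits and the closing circuits at the centres `Q`. -/
def S_geom : Prop := ∀ D₁ D₂ : Set (ℝ × ℝ), IsOpen D₁ → IsOpen D₂ → Bornology.IsBounded D₂ →
  closure D₁ ⊆ D₂ → ∀ a b c : ℝ, a + b < c → Top.ccell a b c ⊆ D₁ →
  ∃ N₀ : ℕ, ∀ m : ℕ, ∃ ε₀ : ℝ, 0 < ε₀ ∧ ∀ ε : ℝ, 0 < ε → ε ≤ ε₀ → ∃ N : ℕ, ∃ e : ℝ, 0 < e ∧
  ∀ j : ℕ, j + 4 ≤ m → ∀ᶠ δ in 𝓝[>] (0 : ℝ), ∃ Y Q : Finset Pt, Q ⊆ Y ∧ Q.card ≤ N₀ ∧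
    (∀ y ∈ Y, |y.1| ≤ N ∧ |y.2| ≤ N) ∧
    (∀ y ∈ Y, iE (bx (ce (sc ε δ (j + 1)) y) (2 * sc ε δ (j + 1))) ⊆
        (tE (Top.Vs δ D₁ : Set Pt))ᶜ ∧
      ∃ i, FinT δ (iE (bx (ce (sc ε δ (j + 1)) y) (2 * sc ε δ (j + 1)))) (Kq a b c e i)) ∧
    (∀ y ∈ Q, iE (bx (ce (sc ε δ (j + 1)) y) (2 * sc ε δ m)) ⊆ (tE (Top.Vs δ D₁ : Set Pt))ᶜ) ∧
    ∀ B : Set Pt, (∀ y ∈ Y, Zr (ce (sc ε δ (j + 1)) y) (sc ε δ (j + 1)) B) →
      (∀ y ∈ Q, ∃ i, j + 4 ≤ i ∧ i ≤ m ∧ Zr (ce (sc ε δ (j + 1)) y) (sc ε δ i) B) →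
      Conf B (Top.Vs δ D₂ : Set Pt)ᶜ (Top.Vs δ D₁ : Set Pt)ᶜ

/-- FAR: a big circuit far away on the left, at a centre of the same net; `R` does not depend on
the spacing. -/
def S_far : Prop := ∀ (D : Set (ℝ × ℝ)) (a : ℝ), Bornology.IsBounded D →
  ∃ R : ℝ, 1 ≤ R ∧ D ⊆ Metric.ball 0 R ∧ ∀ (m : ℕ) (ε : ℝ), 0 < ε → 4 ^ (m + 2) * ε ≤ 1 →
  ∃ N : ℕ, ∀ j : ℕ, j ≤ m → ∀ᶠ δ in 𝓝[>] (0 : ℝ), ∃ (y : Pt) (l : ℤ), 1 ≤ l ∧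
    |y.1| + 8 * l ≤ N ∧ |y.2| + 8 * l ≤ N ∧
    |δ * ((ce (sc ε δ (j + 1)) y).1 : ℝ)| ≤ R ∧ |δ * ((ce (sc ε δ (j + 1)) y).2 : ℝ)| ≤ R ∧
    R⁻¹ ≤ δ * ((l * sc ε δ (j + 1) : ℤ) : ℝ) ∧ δ * ((l * sc ε δ (j + 1) : ℤ) : ℝ) ≤ R ∧
    FinT δ (iE (bx (ce (sc ε δ (j + 1)) y) (8 * (l * sc ε δ (j + 1))))) {z | c1 z ≤ a - 1} ∧
    ∀ v : Pt, dp δ v ∈ D → v ∈ (bx (ce (sc ε δ (j + 1)) y) (8 * (l * sc ε δ (j + 1))))ᶜ

end Vale.Agent.P153.F.X
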