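import Vale.Agent.P153.F.Gh.Lim
import Vale.Agent.P153.F.X.Stmt

/-!
# P153-F, block X (triangular lattice): LOW and EXT
-/

namespace Vale.Agent.P153.F.X

open Finset Filter Topology MeasureTheory Relation Vale.Agent.P153
open Vale.Agent.P153.GFF (Ht Pat hexa LocLim)
open Vale.Agent.P153.F.Gh
open Vale.Agent.P153.F.Top (Om Cone ze vh)
open scoped Classical

namespace LE

variable {D : Finset Pt}

/-! ### Blocked edges of the graph with a ghost -/

/-- The blocked edges. -/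
def blW (a : Option {x // x ∈ D} → ℤ) : Set Pt :=
  {w | ∃ x y, ∃ hx : x ∈ D, ∃ hy : y ∈ D, Adj x y ∧ w = x + y ∧ a (some ⟨x, hx⟩) ≤ 1 ∧
    a (some ⟨y, hy⟩) ≤ 1}

theorem blW_anti {a a' : Option {x // x ∈ D} → ℤ} (h : a ≤ a') : blW a' ⊆ blW a := by
  rintro w ⟨x, y, hx, hy, h1, h2, h3, h4⟩
  exact ⟨x, y, hx, hy, h1, h2, (h _).trans h3, (h _).trans h4⟩

theorem adj_cases {x y : Pt} (h : Adj x y) :
    (y.1 = x.1 + 1 ∧ y.2 = x.2) ∨ (y.1 = x.1 - 1 ∧ y.2 = x.2) ∨ (y.1 = x.1 ∧ y.2 = x.2 + 1) ∨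
      (y.1 = x.1 ∧ y.2 = x.2 - 1) ∨ (y.1 = x.1 + 1 ∧ y.2 = x.2 - 1) ∨
      (y.1 = x.1 - 1 ∧ y.2 = x.2 + 1) := by
  unfold Adj at h
  simp only [Set.mem_insert_iff, Set.mem_singleton_iff, Prod.mk.injEq] at h
  omega

/-- The edge is determined by its midpoint. -/
theorem edge_eq {x y x' y' : Pt} (h : Adj x y) (h' : Adj x' y') (he : x + y = x' + y') :
    (x' = x ∧ y' = y) ∨ (x' = y ∧ y' = x) := by
  have h1 := adj_cases h
  have h2 := adj_cases h'
  have e1 : x.1 + y.1 = x'.1 + y'.1 := congrArg Prod.fst he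
  have e2 : x.2 + y.2 = x'.2 + y'.2 := congrArg Prod.snd he
  have key : (x'.1 = x.1 ∧ x'.2 = x.2 ∧ y'.1 = y.1 ∧ y'.2 = y.2) ∨
      (x'.1 = y.1 ∧ x'.2 = y.2 ∧ y'.1 = x.1 ∧ y'.2 = x.2) := by omega
  rcases key with ⟨k1, k2, k3, k4⟩ | ⟨k1, k2, k3, k4⟩
  · exact Or.inl ⟨Prod.ext k1 k2, Prod.ext k3 k4⟩
  · exact Or.inr ⟨Prod.ext k1 k2, Prod.ext k3 k4⟩

/-- The ends of the edges with midpoint in `Λ`. -/
noncomputable def eb (Λ : Finset Pt) : Finset Pt :=
  Λ.biUnion fun w => Finset.Icc ((w.1 - 1) / 2) ((w.1 + 1) / 2) ×ˢ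
    Finset.Icc ((w.2 - 1) / 2) ((w.2 + 1) / 2)

theorem mem_eb {Λ : Finset Pt} {w x y : Pt} (hw : w ∈ Λ) (h : Adj x y) (he : w = x + y) :
    x ∈ eb Λ ∧ y ∈ eb Λ := by
  have h1 := adj_cases h
  have e1 : w.1 = x.1 + y.1 := congrArg Prod.fst he
  have e2 : w.2 = x.2 + y.2 := congrArg Prod.snd he
  unfold eb
  rw [Finset.mem_biUnion, Finset.mem_biUnion]
  constructor
  · refine ⟨w, hw, ?_⟩
    rw [Finset.mem_product, Finset.mem_Icc, Finset.mem_Icc]
    omega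
  · refine ⟨w, hw, ?_⟩
    rw [Finset.mem_product, Finset.mem_Icc, Finset.mem_Icc]
    omega

theorem bl_congr {Λ B : Finset Pt} (hB : eb Λ ⊆ B) {h h' : Hg} (hh : ∀ x ∈ B, h x = h' x)
    {w : Pt} (hw : w ∈ Λ) : w ∈ bl h ↔ w ∈ bl h' := by
  constructor
  · rintro ⟨x, y, h1, h2, h3, h4⟩
    obtain ⟨h5, h6⟩ := mem_eb hw h1 h2
    exact ⟨x, y, h1, h2, by rw [← hh x (hB h5)]; exact h3, by rw [← hh y (hB h6)]; exact h4⟩
  · rintro ⟨x, y, h1, h2, h3, h4⟩
    obtain ⟨h5, h6⟩ := mem_eb hw h1 h2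
    exact ⟨x, y, h1, h2, by rw [hh x (hB h5)]; exact h3, by rw [hh y (hB h6)]; exact h4⟩

/-- The blocked edges of heights with a ghost. -/
theorem bl_ex1 {M : ℤ} {S : Set (Option {x // x ∈ D})} {H : Option {x // x ∈ D} → ℤ}
    (hH : H ∈ (gD D).Om M S) {Λ : Finset Pt} (hΛ : eb Λ ⊆ D) {w : Pt} (hw : w ∈ Λ) :
    w ∈ bl (ex1 H) ↔ w ∈ blW (Gh.ab H) := by
  obtain ⟨-, ⟨hpar, -⟩, -⟩ := (gD D).mem_Om.1 hH
  constructor
  · rintro ⟨x, y, h1, h2, h3, h4⟩
    obtain ⟨h5, h6⟩ := mem_eb hw h1 h2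
    rw [ex1_in (hΛ h5)] at h3
    rw [ex1_in (hΛ h6)] at h4
    exact ⟨x, y, hΛ h5, hΛ h6, h1, h2, h3.le, h4.le⟩
  · rintro ⟨x, y, hx, hy, h1, h2, h3, h4⟩
    refine ⟨x, y, h1, h2, ?_, ?_⟩
    · rw [ex1_in hx]
      exact (gD D).eq_b_of ((gD D).even_abs (hpar _)) (abs_nonneg _) h3
    · rw [ex1_in hy]
      exact (gD D).eq_b_of ((gD D).even_abs (hpar _)) (abs_nonneg _) h4

/-- The box. -/
noncomputable def bL (L : ℕ) : Finset Pt :=
  Finset.Icc (-(L : ℤ)) L ×ˢ Finset.Icc (-(L : ℤ)) L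

theorem mem_bL {L : ℕ} {x : Pt} : x ∈ bL L ↔ (-(L : ℤ) ≤ x.1 ∧ x.1 ≤ L) ∧
    (-(L : ℤ) ≤ x.2 ∧ x.2 ≤ L) := by
  unfold bL
  rw [Finset.mem_product, Finset.mem_Icc, Finset.mem_Icc]

theorem exists_bL (S : Finset Pt) : ∃ L : ℕ, S ⊆ bL L := by
  refine ⟨∑ x ∈ S, (x.1.natAbs + x.2.natAbs), fun x hx => ?_⟩
  have h := Finset.single_le_sum (f := fun x : Pt => x.1.natAbs + x.2.natAbs)
    (fun x _ => Nat.zero_le _) hx
  rw [mem_bL]
  omega

theorem bL_nonempty (L : ℕ) : (bL L).Nonempty := ⟨(0, 0), by rw [mem_bL]; simp⟩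

theorem row_bdd {L : ℕ} {h : Hg} (hh : ∀ x ∈ bL L, ∀ y ∈ bL L, Adj x y → |h x - h y| ≤ 2)
    (x : Pt) (hx : x ∈ bL L) (k : ℕ) (hk : (x.1 + k, x.2) ∈ bL L) :
    |h (x.1 + (k : ℤ), x.2) - h x| ≤ 2 * k := by
  induction k with
  | zero => simp
  | succ k ih =>
    rw [mem_bL] at hx hk
    push_cast at hk
    have h1 : ((x.1 + (k : ℤ), x.2) : Pt) ∈ bL L := by
      rw [mem_bL]
      simp only at hk ⊢
      omega
    have h2 := hh _ h1 (x.1 + ((k + 1 : ℕ) : ℤ), x.2)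
      (by rw [mem_bL]; dsimp only; push_cast; omega) (adj_right x k)
    have h3 := ih h1
    rw [abs_le] at h2 h3 ⊢
    push_cast at h2 h3 ⊢
    omega

theorem adj_up (x : Pt) (k : ℕ) : Adj (x.1, x.2 + (k : ℤ)) (x.1, x.2 + ((k + 1 : ℕ) : ℤ)) := by
  unfold Adj
  simp

theorem col_bdd {L : ℕ} {h : Hg} (hh : ∀ x ∈ bL L, ∀ y ∈ bL L, Adj x y → |h x - h y| ≤ 2)
    (x : Pt) (hx : x ∈ bL L) (k : ℕ) (hk : (x.1, x.2 + (k : ℤ)) ∈ bL L) :
    |h (x.1, x.2 + (k : ℤ)) - h x| ≤ 2 * k := by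
  induction k with
  | zero => simp
  | succ k ih =>
    rw [mem_bL] at hx hk
    push_cast at hk
    have h1 : ((x.1, x.2 + (k : ℤ)) : Pt) ∈ bL L := by
      rw [mem_bL]
      simp only at hk ⊢
      omega
    have h2 := hh _ h1 (x.1, x.2 + ((k + 1 : ℕ) : ℤ))
      (by rw [mem_bL]; dsimp only; push_cast; omega) (adj_up x k)
    have h3 := ih h1
    rw [abs_le] at h2 h3 ⊢
    push_cast at h2 h3 ⊢
    omega

/-- Heights in the box differ by at most `8 L`. -/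
theorem box_bdd {L : ℕ} {h : Hg} (hh : ∀ x ∈ bL L, ∀ y ∈ bL L, Adj x y → |h x - h y| ≤ 2)
    {x y : Pt} (hx : x ∈ bL L) (hy : y ∈ bL L) : |h x - h y| ≤ 8 * L := by
  have row : ∀ x y : Pt, x ∈ bL L → y ∈ bL L → x.2 = y.2 → x.1 ≤ y.1 → |h y - h x| ≤ 4 * L := by
    intro x y hx hy h2 h1
    obtain ⟨k, hk⟩ := Int.le.dest h1
    have e : y = (x.1 + (k : ℤ), x.2) := Prod.ext hk.symm h2.symm
    rw [e] at hy ⊢
    have := row_bdd hh x hx k hy
    rw [mem_bL] at hx hy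
    simp only at hy
    refine this.trans ?_
    omega
  have col : ∀ x y : Pt, x ∈ bL L → y ∈ bL L → x.1 = y.1 → x.2 ≤ y.2 → |h y - h x| ≤ 4 * L := by
    intro x y hx hy h1 h2
    obtain ⟨k, hk⟩ := Int.le.dest h2
    have e : y = (x.1, x.2 + (k : ℤ)) := Prod.ext h1.symm hk.symm
    rw [e] at hy ⊢
    have := col_bdd hh x hx k hy
    rw [mem_bL] at hx hy
    simp only at hy
    refine this.trans ?_
    omega
  have hz : ((y.1, x.2) : Pt) ∈ bL L := by
    rw [mem_bL] at hx hy ⊢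
    exact ⟨hy.1, hx.2⟩
  have h1 : |h x - h (y.1, x.2)| ≤ 4 * L := by
    rcases le_total x.1 y.1 with h | h
    · rw [abs_sub_comm]; exact row x (y.1, x.2) hx hz rfl h
    · exact row (y.1, x.2) x hz hx rfl h
  have h2 : |h (y.1, x.2) - h y| ≤ 4 * L := by
    rcases le_total x.2 y.2 with h | h
    · rw [abs_sub_comm]; exact col (y.1, x.2) y hz hy rfl h
    · exact col y (y.1, x.2) hy hz rfl h
  have h3 := abs_sub_le (h x) (h (y.1, x.2)) (h y)
  linarith

/-- Product of real heights. -/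
def pv (v : List Pt) (h : Hg) : ℝ := (v.map fun x => (h x : ℝ)).prod

theorem pv_congr {v : List Pt} {h h' : Hg} (hh : ∀ x ∈ v, h x = h' x) : pv v h = pv v h' := by
  unfold pv
  congr 1
  exact List.map_congr_left fun x hx => by rw [hh x hx]

/-- The functions of the statements are local. -/
theorem lcl_of {g g' : Set Pt → ℝ} {Λ Λ' : Finset Pt} (hg : g ∅ = 0)
    (hΛ : ∀ B B' : Set Pt, (∀ w ∈ Λ, w ∈ B ↔ w ∈ B') → g B = g B')
    (hΛ' : ∀ B B' : Set Pt, (∀ w ∈ Λ', w ∈ B ↔ w ∈ B') → g' B = g' B') {v : List Pt} {L : ℕ}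
    (h1 : eb Λ ⊆ bL L) (h2 : eb Λ' ⊆ bL L) (h3 : ∀ x ∈ v, x ∈ bL L) :
    Lcl (bL L) (1 + 8 * L) fun h => g (bl h) * (g' (bl h) * pv v h) := by
  refine ⟨fun h h' hh => ?_, fun h hodd hlip hne => ?_⟩
  · rw [hΛ (bl h) (bl h') fun w hw => bl_congr h1 hh hw,
      hΛ' (bl h) (bl h') fun w hw => bl_congr h2 hh hw, pv_congr fun x hx => hh x (h3 x hx)]
  · have hg' : g (bl h) ≠ 0 := left_ne_zero_of_mul hne
    have hex : ∃ w ∈ Λ, w ∈ bl h := by
      by_contra hcon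
      push Not at hcon
      apply hg'
      rw [← hg]
      exact hΛ _ _ fun w hw => ⟨fun h' => absurd h' (hcon w hw), fun h' => absurd h' (by simp)⟩
    obtain ⟨w, hw, x, y, hxy, he, hx, -⟩ := hex
    have hxB := h1 (mem_eb hw hxy he).1
    intro z hz
    have h4 := box_bdd hlip hz hxB
    have h5 := abs_sub_abs_le_abs_sub (h z) (h x)
    rw [hx] at h5
    linarith

/-- Vertices as sites. -/
noncomputable def tW (D : Finset Pt) (x : Pt) : Option {x // x ∈ D} :=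
  if h : x ∈ D then some ⟨x, h⟩ else none

theorem tW_in {x : Pt} (h : x ∈ D) : tW D x = some ⟨x, h⟩ := dif_pos h

theorem pv_ex1 {v : List Pt} (hv : ∀ x ∈ v, x ∈ D) (H : Option {x // x ∈ D} → ℤ) :
    pv v (ex1 H) = mon (v.map (tW D)) H := by
  unfold pv mon
  rw [List.map_map]
  congr 1
  refine List.map_congr_left fun x hx => ?_
  show ((ex1 H x : ℤ) : ℝ) = ((H (tW D x) : ℤ) : ℝ)
  rw [ex1_in (hv x hx), tW_in (hv x hx)]

theorem fn_ex1 {g g' : Set Pt → ℝ} {Λ Λ' : Finset Pt}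
    (hΛ : ∀ B B' : Set Pt, (∀ w ∈ Λ, w ∈ B ↔ w ∈ B') → g B = g B')
    (hΛ' : ∀ B B' : Set Pt, (∀ w ∈ Λ', w ∈ B ↔ w ∈ B') → g' B = g' B') {v : List Pt}
    (h1 : eb Λ ⊆ D) (h2 : eb Λ' ⊆ D) (h3 : ∀ x ∈ v, x ∈ D) {M : ℤ}
    {S : Set (Option {x // x ∈ D})} {H : Option {x // x ∈ D} → ℤ} (hH : H ∈ (gD D).Om M S) :
    g (bl (ex1 H)) * (g' (bl (ex1 H)) * pv v (ex1 H)) =
      g (blW (Gh.ab H)) * (g' (blW (Gh.ab H)) * mon (v.map (tW D)) H) := by
  rw [hΛ _ _ fun w hw => bl_ex1 hH h1 hw, hΛ' _ _ fun w hw => bl_ex1 hH h2 hw, pv_ex1 h3]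

/-! ### EXT -/

theorem disj_of_conf {p : Pt} {r : ℤ} (hD : ∀ x ∈ bx p (2 * r), x ∈ D ∧ ∀ y, Adj x y → y ∈ D)
    {a : Option {x // x ∈ D} → ℤ} (hc : Conf (blW a) (bx p r) (bx p (2 * r))) :
    Disjoint ((gD D).cl {u | ∃ x ∈ bx p r, ∃ h : x ∈ D, u = some ⟨x, h⟩} a)
      {u | ∃ x, x ∉ bx p (2 * r) ∧ ∃ h : x ∈ D, u = some ⟨x, h⟩} := by
  rw [Set.disjoint_left]
  rintro u ⟨u₀, ⟨x₀, hx₀, hx₀D, rfl⟩, hp⟩ ⟨z, hz, hzD, rfl⟩
  have key : ∀ u, ReflTransGen ((gD D).op a) (some ⟨x₀, hx₀D⟩) u →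
      ∃ x, ∃ h : x ∈ D, u = some ⟨x, h⟩ ∧ ReflTransGen (stp (blW a)) x₀ x := by
    intro u hu
    induction hu with
    | refl => exact ⟨x₀, hx₀D, rfl, ReflTransGen.refl⟩
    | @tail s t _ hst ih =>
      obtain ⟨x, hx, rfl, hpx⟩ := ih
      have hxb : x ∈ bx p (2 * r) := hc x₀ hx₀ x hpx
      obtain ⟨h1, h2⟩ := hst
      rcases t with _ | ⟨y, hy⟩
      · obtain ⟨w, hw1, hw2⟩ := h1
        exact absurd ((hD x hxb).2 w hw1) hw2
      · refine ⟨y, hy, rfl, hpx.tail ⟨h1, ?_⟩⟩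
        rintro ⟨x', y', hx', hy', h3, h4, h5, h6⟩
        rcases edge_eq h1 h3 h4 with ⟨rfl, rfl⟩ | ⟨rfl, rfl⟩
        · exact h2 ⟨h5, h6⟩
        · exact h2 ⟨h6, h5⟩
  obtain ⟨x, hx, he, hpx⟩ := key _ hp
  have hxz : x = z := by
    have := Option.some.inj he
    exact (congrArg Subtype.val this).symm
  subst hxz
  exact hz (hc x₀ hx₀ x hpx)

/-- EXT for products of heights. -/
theorem ext_mon {P : Measure (Pt → ℤ)} (hP : GFF.Plane P) (p : Pt) (r : ℤ)
    {X Θ a : Set Pt → ℝ} (hX : Fn Set.univ X) (hXm : Monotone X)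
    (hXc : ∀ B, X B ≠ 0 → Conf B (bx p r) (bx p (2 * r))) (hΘ : Fn (iE (bx p r)) Θ)
    (ha0 : ∀ B, 0 ≤ a B) (ha : LocS (tE (bx p (3 * r)))ᶜ a) (haa : Antitone a) (hr : 1 ≤ r)
    {v : List Pt} (hv : ∀ x ∈ v, x ∉ bx p (2 * r)) :
    (∫ h, X (bl h) * (a (bl h) * pv v h) ∂(muT P)) * (∫ h, Θ (bl h) ∂(muT P)) ≤
      (∫ h, X (bl h) ∂(muT P)) * ∫ h, Θ (bl h) * (a (bl h) * pv v h) ∂(muT P) := by
  obtain ⟨Λ₁, -, hΛ₁⟩ := hX.loc
  obtain ⟨Λ₂, hΛ₂', hΛ₂⟩ := hΘ.loc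
  obtain ⟨Λ₃, hΛ₃', hΛ₃⟩ := ha
  obtain ⟨L, hL⟩ := exists_bL (eb Λ₁ ∪ eb Λ₂ ∪ eb Λ₃ ∪ v.toFinset)
  have hb1 : eb Λ₁ ⊆ bL L := fun x hx => hL (by simp [hx])
  have hb2 : eb Λ₂ ⊆ bL L := fun x hx => hL (by simp [hx])
  have hb3 : eb Λ₃ ⊆ bL L := fun x hx => hL (by simp [hx])
  have hb4 : ∀ x ∈ v, x ∈ bL L := fun x hx => hL (by simp [hx])
  have c1 : ∀ B B' : Set Pt, (∀ w ∈ (∅ : Finset Pt), w ∈ B ↔ w ∈ B') →
      (fun _ : Set Pt => (1 : ℝ)) B = (fun _ : Set Pt => (1 : ℝ)) B' := fun _ _ _ => rfl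
  have e0 : eb (∅ : Finset Pt) ⊆ bL L := by simp [eb]
  have l1 := lcl_of hX.pin hΛ₁ hΛ₃ (v := v) hb1 hb3 hb4
  have l2 := lcl_of hΘ.pin hΛ₂ c1 (v := []) hb2 e0 (by simp)
  have l3 := lcl_of hX.pin hΛ₁ c1 (v := []) hb1 e0 (by simp)
  have l4 := lcl_of hΘ.pin hΛ₂ hΛ₃ (v := v) hb2 hb3 hb4
  have hnil : ∀ h : Hg, pv [] h = 1 := fun _ => rfl
  have hnil' : ∀ (E : Finset Pt) (H : Option {x // x ∈ E} → ℤ), mon (([] : List Pt).map (tW E)) H = 1 :=
    fun _ _ => rfl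
  have key := mul_le_lim hP (bL_nonempty L) l1 l2 l3 l4 ?_
  · simpa only [hnil, mul_one] using key
  obtain ⟨L', hL'⟩ := exists_bL (Finset.Icc (p.1 - 2 * r) (p.1 + 2 * r) ×ˢ
    Finset.Icc (p.2 - 2 * r) (p.2 + 2 * r))
  obtain ⟨n₁, hn₁⟩ := A.GibbsPf.large (bL L)
  obtain ⟨n₂, hn₂⟩ := A.GibbsPf.large (bL L')
  filter_upwards [eventually_ge_atTop n₁, eventually_ge_atTop n₂] with n h1 h2
  filter_upwards [eventually_ge_atTop 1] with M hM
  have hBD : bL L ⊆ hexa n := fun x hx => (hn₁ n h1 x hx).1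
  have hbox : ∀ x ∈ bx p (2 * r), x ∈ hexa n ∧ ∀ y, Adj x y → y ∈ hexa n := by
    intro x hx
    refine hn₂ n h2 x (hL' ?_)
    have hx' : |x.1 - p.1| ≤ 2 * r ∧ |x.2 - p.2| ≤ 2 * r := hx
    rw [abs_le, abs_le] at hx'
    rw [Finset.mem_product, Finset.mem_Icc, Finset.mem_Icc]
    omega
  set O : Set (Option {x // x ∈ hexa n}) := {u | ∃ x ∈ bx p r, ∃ h : x ∈ hexa n, u = some ⟨x, h⟩}
    with hO
  set I : Set (Option {x // x ∈ hexa n}) :=
    {u | ∃ x, x ∉ bx p (2 * r) ∧ ∃ h : x ∈ hexa n, u = some ⟨x, h⟩} with hI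
  have key := (gD (hexa n)).ext_le (M := M) hM (O := O) (I := I) (X := fun a => X (blW a))
    (Θ := fun a => Θ (blW a)) (fun _ => hX.nonneg _) (fun _ _ h => hXm (blW_anti h))
    (fun a hne => disj_of_conf hbox (hXc _ hne)) (fun _ => hΘ.nonneg _)
    (by
      intro a₁ a₂ h12
      refine hΛ₂ _ _ fun w hw => ?_
      obtain ⟨x, hx, y, hy, hxy, he⟩ := hΛ₂' w hw
      have hin : ∀ z (hz : z ∈ hexa n), z ∈ bx p r → a₁ (some ⟨z, hz⟩) = a₂ (some ⟨z, hz⟩) := by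
        intro z hz hzb
        refine h12 _ fun h' => ?_
        exact h'.1 ⟨z, hzb, hz, rfl⟩
      have hends : ∀ x' y' : Pt, Adj x' y' → w = x' + y' → x' ∈ bx p r ∧ y' ∈ bx p r := by
        intro x' y' h3 h4
        rcases edge_eq hxy h3 (he.symm.trans h4) with ⟨rfl, rfl⟩ | ⟨rfl, rfl⟩
        · exact ⟨hx, hy⟩
        · exact ⟨hy, hx⟩
      constructor
      · rintro ⟨x', y', hx', hy', h3, h4, h5, h6⟩
        obtain ⟨h7, h8⟩ := hends x' y' h3 h4
        exact ⟨x', y', hx', hy', h3, h4, by rw [← hin x' hx' h7]; exact h5,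
          by rw [← hin y' hy' h8]; exact h6⟩
      · rintro ⟨x', y', hx', hy', h3, h4, h5, h6⟩
        obtain ⟨h7, h8⟩ := hends x' y' h3 h4
        exact ⟨x', y', hx', hy', h3, h4, by rw [hin x' hx' h7]; exact h5,
          by rw [hin y' hy' h8]; exact h6⟩)
    (B := fun b => a (blW b)) (fun _ => ha0 _) (fun _ _ h => haa (blW_anti h))
    (v.map (tW (hexa n)))
    (by
      intro H H' hHH
      have hout : ∀ z (hz : z ∈ hexa n), z ∉ bx p (2 * r) → H (some ⟨z, hz⟩) = H' (some ⟨z, hz⟩) :=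
        fun z hz hzb => hHH _ ⟨z, hzb, hz, rfl⟩
      have hends : ∀ w ∈ Λ₃, ∀ x' y' : Pt, Adj x' y' → w = x' + y' →
          x' ∉ bx p (2 * r) ∧ y' ∉ bx p (2 * r) := by
        intro w hw x' y' h3 h4
        have h5 := hΛ₃' w hw
        have hsub : ∀ z, z ∈ bx p (2 * r) → z ∈ bx p (3 * r) := by
          intro z hz
          have hz' : |z.1 - p.1| ≤ 2 * r ∧ |z.2 - p.2| ≤ 2 * r := hz
          exact ⟨hz'.1.trans (by linarith), hz'.2.trans (by linarith)⟩
        constructor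
        · intro h6
          exact h5 ⟨x', hsub _ h6, y', h3, h4⟩
        · intro h6
          exact h5 ⟨y', hsub _ h6, x', h3.symm, by rw [h4, add_comm]⟩
      have e1 : a (blW (Gh.ab H)) = a (blW (Gh.ab H')) := by
        refine hΛ₃ _ _ fun w hw => ?_
        constructor
        · rintro ⟨x', y', hx', hy', h3, h4, h5, h6⟩
          obtain ⟨h7, h8⟩ := hends w hw x' y' h3 h4
          refine ⟨x', y', hx', hy', h3, h4, ?_, ?_⟩
          · unfold Gh.ab at h5 ⊢; rw [← hout x' hx' h7]; exact h5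
          · unfold Gh.ab at h6 ⊢; rw [← hout y' hy' h8]; exact h6
        · rintro ⟨x', y', hx', hy', h3, h4, h5, h6⟩
          obtain ⟨h7, h8⟩ := hends w hw x' y' h3 h4
          refine ⟨x', y', hx', hy', h3, h4, ?_, ?_⟩
          · unfold Gh.ab at h5 ⊢; rw [hout x' hx' h7]; exact h5
          · unfold Gh.ab at h6 ⊢; rw [hout y' hy' h8]; exact h6
      have e2 : mon (v.map (tW (hexa n))) H = mon (v.map (tW (hexa n))) H' := by
        unfold mon
        rw [List.map_map, List.map_map]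
        congr 1
        refine List.map_congr_left fun x hx => ?_
        show ((H (tW (hexa n) x) : ℤ) : ℝ) = ((H' (tW (hexa n) x) : ℤ) : ℝ)
        rw [tW_in (hBD (hb4 x hx)), hout x _ (hv x hx)]
      show a (blW (Gh.ab H)) * mon _ H = a (blW (Gh.ab H')) * mon _ H'
      rw [e1, e2])
  have e0' : eb (∅ : Finset Pt) ⊆ hexa n := by simp [eb]
  have t1 : ∀ H ∈ (gD (hexa n)).Om M Set.univ, X (bl (ex1 H)) * (a (bl (ex1 H)) * pv v (ex1 H)) =
      X (blW (Gh.ab H)) * (a (blW (Gh.ab H)) * mon (v.map (tW (hexa n))) H) := fun H hH =>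
    fn_ex1 hΛ₁ hΛ₃ (hb1.trans hBD) (hb3.trans hBD) (fun x hx => hBD (hb4 x hx)) hH
  have t2 : ∀ H ∈ (gD (hexa n)).Om M Set.univ,
      Θ (bl (ex1 H)) * ((fun _ : Set Pt => (1 : ℝ)) (bl (ex1 H)) * pv [] (ex1 H)) =
      Θ (blW (Gh.ab H)) := fun H hH => by
    rw [fn_ex1 hΛ₂ c1 (hb2.trans hBD) e0' (by simp) hH, hnil', mul_one, mul_one]
  have t3 : ∀ H ∈ (gD (hexa n)).Om M Set.univ,
      X (bl (ex1 H)) * ((fun _ : Set Pt => (1 : ℝ)) (bl (ex1 H)) * pv [] (ex1 H)) =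
      X (blW (Gh.ab H)) := fun H hH => by
    rw [fn_ex1 hΛ₁ c1 (hb1.trans hBD) e0' (by simp) hH, hnil', mul_one, mul_one]
  have t4 : ∀ H ∈ (gD (hexa n)).Om M Set.univ, Θ (bl (ex1 H)) * (a (bl (ex1 H)) * pv v (ex1 H)) =
      Θ (blW (Gh.ab H)) * (a (blW (Gh.ab H)) * mon (v.map (tW (hexa n))) H) := fun H hH =>
    fn_ex1 hΛ₂ hΛ₃ (hb2.trans hBD) (hb3.trans hBD) (fun x hx => hBD (hb4 x hx)) hH
  rw [Finset.sum_congr rfl t1, Finset.sum_congr rfl t2, Finset.sum_congr rfl t3,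
    Finset.sum_congr rfl t4]
  exact key

/-! ### LOW -/

/-- Sites of `F`. -/
def FD (D F : Finset Pt) : Set (Option {x // x ∈ D}) := {u | ∃ x ∈ F, ∃ h : x ∈ D, u = some ⟨x, h⟩}

theorem some_mem_FD {F : Finset Pt} {x : Pt} (hx : x ∈ D) :
    (some ⟨x, hx⟩ : Option {x // x ∈ D}) ∈ FD D F ↔ x ∈ F := by
  constructor
  · rintro ⟨y, hy, hyD, he⟩
    have := congrArg Subtype.val (Option.some.inj he)
    have e : x = y := this
    rw [e]; exact hy
  · intro h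
    exact ⟨x, h, hx, rfl⟩

/-- Exchange of the heights on `U`. -/
noncomputable def swA (U : Finset Pt) (H : Option {x // x ∈ D} → ℤ) (g : Hg) :
    Option {x // x ∈ D} → ℤ
  | none => H none
  | some x => if x.1 ∈ U then g x.1 else H (some x)

/-- Exchange of the heights on `U`. -/
noncomputable def swB (U : Finset Pt) (H : Option {x // x ∈ D} → ℤ) : Hg :=
  fun x => if x ∈ U then ex1 H x else 1

theorem free_eq {F : Finset Pt} (hD : ∀ x ∈ clo F, x ∈ D ∧ ∀ y, Adj x y → y ∈ D) {M : ℤ}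
    (hM : 1 + 2 * (#F : ℤ) ≤ M) {G : Hg → ℝ}
    (hG : ∀ h h' : Hg, (∀ x ∈ clo F, h x = h' x) → G h = G h') :
    (∑ H ∈ (gD D).Om M (FD D F), G (ex1 H)) * (#(FreeF F (clo F)) : ℝ) =
      (#((gD D).Om M (FD D F)) : ℝ) * ∑ g ∈ FreeF F (clo F), G g := by
  set U := clo F with hU
  have hFU : ∀ x ∈ F, x ∈ U := sub_clo F
  have hmem : ∀ p ∈ (gD D).Om M (FD D F) ×ˢ FreeF F U,
      swA U p.1 p.2 ∈ (gD D).Om M (FD D F) ∧ swB U p.1 ∈ FreeF F U := by
    rintro ⟨H, g⟩ hp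
    obtain ⟨hH, hg⟩ := Finset.mem_product.1 hp
    simp only at hH hg ⊢
    obtain ⟨hHM, ⟨hpar, hlip⟩, hout⟩ := (gD D).mem_Om.1 hH
    rw [mem_FreeF] at hg
    obtain ⟨hgL, hg1, hg2⟩ := hg
    have hH1 : ∀ x (hx : x ∈ D), x ∉ F → |H (some ⟨x, hx⟩)| = 1 := by
      intro x hx hxF
      rw [hout _ fun h => hxF ((some_mem_FD hx).1 h)]
      rfl
    have hH0 : H none = 0 := by
      have h := hout none (by rintro ⟨x, -, h, he⟩; exact absurd he (by simp))
      rw [gD_b_none] at h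
      exact abs_eq_zero.1 h
    have hnF : ∀ x y, x ∈ U → y ∉ U → Adj x y → x ∉ F := fun x y _ hy hxy hxF =>
      hy (adj_clo F x hxF y hxy)
    have hF' : ∀ y, y ∉ U → y ∉ F := fun y hy h => hy (hFU y h)
    constructor
    · refine (gD D).mem_Om.2 ⟨?_, ⟨?_, ?_⟩, ?_⟩
      · rintro (_ | x)
        · exact hHM none
        · show |if x.1 ∈ U then g x.1 else H (some x)| ≤ M
          split_ifs
          · exact (hgL.bdd (D := F) (fun y hy => (hg1 y hy).le) x.1).trans hM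
          · exact hHM _
      · rintro (_ | x)
        · exact hpar none
        · show Even ((if x.1 ∈ U then g x.1 else H (some x)) - 1)
          split_ifs
          · obtain ⟨m, hm⟩ := hgL.1 x.1
            exact ⟨m, by omega⟩
          · exact hpar (some x)
      · have key : ∀ x : {x // x ∈ D}, (∃ w, Adj x.1 w ∧ w ∉ D) →
            |swA U H g none - swA U H g (some x)| ≤ 2 := by
          intro x hx
          have hxU : x.1 ∉ U := by
            intro h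
            obtain ⟨w, hw1, hw2⟩ := hx
            exact hw2 ((hD x.1 h).2 w hw1)
          show |H none - if x.1 ∈ U then g x.1 else H (some x)| ≤ 2
          rw [if_neg hxU]
          exact hlip none (some x) hx
        have key2 : ∀ x y : {x // x ∈ D}, Adj x.1 y.1 → x.1 ∈ U → y.1 ∉ U →
            |g x.1 - H (some y)| ≤ 2 := by
          intro x y hxy hx hy
          have h1 := hg1 x.1 (hnF _ _ hx hy hxy)
          have h2 := hH1 y.1 y.2 (hF' _ hy)
          have h3 : |H (some y)| = 1 := h2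
          rcases (abs_eq (zero_le_one' ℤ)).1 h1 with h4 | h4 <;>
            rcases (abs_eq (zero_le_one' ℤ)).1 h3 with h5 | h5 <;> rw [h4, h5] <;> norm_num
        intro u v huv
        rcases u with _ | x <;> rcases v with _ | y
        · exact huv.elim
        · exact key y huv
        · rw [abs_sub_comm]; exact key x huv
        · show |(if x.1 ∈ U then g x.1 else H (some x)) -
            (if y.1 ∈ U then g y.1 else H (some y))| ≤ 2
          by_cases hx : x.1 ∈ U <;> by_cases hy : y.1 ∈ U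
          · rw [if_pos hx, if_pos hy]; exact hgL.2 _ _ huv
          · rw [if_pos hx, if_neg hy]; exact key2 x y huv hx hy
          · rw [if_neg hx, if_pos hy, abs_sub_comm]; exact key2 y x (Adj.symm huv) hy hx
          · rw [if_neg hx, if_neg hy]; exact hlip _ _ huv
      · rintro (_ | x) hu
        · exact hout none hu
        · have hxF : x.1 ∉ F := fun h => hu ((some_mem_FD x.2).2 h)
          show |if x.1 ∈ U then g x.1 else H (some x)| = 1
          split_ifs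
          · exact hg1 x.1 hxF
          · exact hH1 x.1 x.2 hxF
    · rw [mem_FreeF]
      have hv1 : ∀ x, x ∉ F → |swB U H x| = 1 := by
        intro x hx
        unfold swB
        split_ifs with h
        · rw [ex1_in (hD x h).1]; exact hH1 x _ hx
        · exact abs_one
      refine ⟨⟨fun x => ?_, fun x y hxy => ?_⟩, hv1, fun x hx => if_neg hx⟩
      · unfold swB
        split_ifs with h
        · rw [ex1_in (hD x h).1]
          obtain ⟨m, hm⟩ := hpar (some ⟨x, (hD x h).1⟩)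
          rw [gD_b_some] at hm
          exact ⟨m, by omega⟩
        · exact odd_one
      · by_cases hx : x ∈ U <;> by_cases hy : y ∈ U
        · unfold swB
          rw [if_pos hx, if_pos hy, ex1_in (hD x hx).1, ex1_in (hD y hy).1]
          exact hlip _ _ hxy
        · have h1 := hv1 x (hnF x y hx hy hxy)
          have h2 := hv1 y (hF' y hy)
          rcases (abs_eq (zero_le_one' ℤ)).1 h1 with h4 | h4 <;>
            rcases (abs_eq (zero_le_one' ℤ)).1 h2 with h5 | h5 <;> rw [h4, h5] <;> norm_num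
        · have h1 := hv1 x (hF' x hx)
          have h2 := hv1 y (hnF y x hy hx hxy.symm)
          rcases (abs_eq (zero_le_one' ℤ)).1 h1 with h4 | h4 <;>
            rcases (abs_eq (zero_le_one' ℤ)).1 h2 with h5 | h5 <;> rw [h4, h5] <;> norm_num
        · unfold swB
          rw [if_neg hx, if_neg hy]
          norm_num
  have hback : ∀ p ∈ (gD D).Om M (FD D F) ×ˢ FreeF F U,
      (swA U (swA U p.1 p.2) (swB U p.1), swB U (swA U p.1 p.2)) = p := by
    rintro ⟨H, g⟩ hp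
    obtain ⟨hH, hg⟩ := Finset.mem_product.1 hp
    simp only at hH hg ⊢
    rw [mem_FreeF] at hg
    refine Prod.ext ?_ ?_
    · funext u
      rcases u with _ | x
      · rfl
      · show (if x.1 ∈ U then swB U H x.1 else if x.1 ∈ U then g x.1 else H (some x)) = H (some x)
        by_cases hx : x.1 ∈ U
        · rw [if_pos hx]
          show (if x.1 ∈ U then ex1 H x.1 else 1) = H (some x)
          rw [if_pos hx, ex1_in x.2]
        · rw [if_neg hx, if_neg hx]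
    · funext x
      show (if x ∈ U then ex1 (swA U H g) x else 1) = g x
      by_cases hx : x ∈ U
      · rw [if_pos hx, ex1_in (hD x hx).1]
        show (if x ∈ U then g x else _) = g x
        rw [if_pos hx]
      · rw [if_neg hx, hg.2.2 x hx]
  rw [Finset.card_eq_sum_ones, Finset.card_eq_sum_ones, Nat.cast_sum, Nat.cast_sum]
  simp only [Nat.cast_one]
  rw [Finset.sum_mul_sum, Finset.sum_mul_sum, ← Finset.sum_product', ← Finset.sum_product']
  refine Finset.sum_nbij' (i := fun p : (Option {x // x ∈ D} → ℤ) × Hg =>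
    (swA U p.1 p.2, swB U p.1)) (j := fun p => (swA U p.1 p.2, swB U p.1)) ?_ ?_ ?_ ?_ ?_
  · intro p hp
    exact Finset.mem_product.2 (hmem p hp)
  · intro p hp
    exact Finset.mem_product.2 (hmem p hp)
  · exact hback
  · exact hback
  · intro p _
    simp only [mul_one, one_mul]
    refine hG _ _ fun x hx => ?_
    show ex1 p.1 x = if x ∈ U then ex1 p.1 x else 1
    rw [if_pos hx]

/-- LOW for products of heights, with a decreasing function of the edges of `F`. -/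
theorem low_gen {P : Measure (Pt → ℤ)} (hP : GFF.Plane P) (F : Finset Pt) {Θ g : Set Pt → ℝ}
    (hΘ : Fn (tE (F : Set Pt))ᶜ Θ) (hg0 : ∀ B, 0 ≤ g B) (hga : Antitone g)
    (hgl : LocS (tE (F : Set Pt)) g) {v : List Pt} (hv : ∀ x ∈ v, x ∈ F) :
    ev (FreeF F (clo F)) (fun h => g (bl h) * pv v h) * (∫ h, Θ (bl h) ∂(muT P)) ≤
      ∫ h, Θ (bl h) * (g (bl h) * pv v h) ∂(muT P) := by
  obtain ⟨Λ₂, hΛ₂', hΛ₂⟩ := hΘ.loc
  obtain ⟨Λ₃, hΛ₃', hΛ₃⟩ := hgl
  obtain ⟨L, hL⟩ := exists_bL (eb Λ₂ ∪ eb Λ₃ ∪ v.toFinset ∪ clo F)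
  have hb2 : eb Λ₂ ⊆ bL L := fun x hx => hL (by simp [hx])
  have hb3 : eb Λ₃ ⊆ bL L := fun x hx => hL (by simp [hx])
  have hb4 : ∀ x ∈ v, x ∈ bL L := fun x hx => hL (by simp [hx])
  have hb5 : clo F ⊆ bL L := fun x hx => hL (by simp [hx])
  have c1 : ∀ B B' : Set Pt, (∀ w ∈ (∅ : Finset Pt), w ∈ B ↔ w ∈ B') →
      (fun _ : Set Pt => (1 : ℝ)) B = (fun _ : Set Pt => (1 : ℝ)) B' := fun _ _ _ => rfl
  have e0 : eb (∅ : Finset Pt) ⊆ bL L := by simp [eb]
  have l2 := lcl_of hΘ.pin hΛ₂ c1 (v := []) hb2 e0 (by simp)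
  have l4 := lcl_of hΘ.pin hΛ₂ hΛ₃ (v := v) hb2 hb3 hb4
  have hnil : ∀ h : Hg, pv [] h = 1 := fun _ => rfl
  have hnil' : ∀ (E : Finset Pt) (H : Option {x // x ∈ E} → ℤ),
      mon (([] : List Pt).map (tW E)) H = 1 := fun _ _ => rfl
  have key := const_mul_le_lim hP (bL_nonempty L)
    (z := ev (FreeF F (clo F)) (fun h => g (bl h) * pv v h)) l2 l4 ?_
  · simpa only [hnil, mul_one] using key
  obtain ⟨n₁, hn₁⟩ := A.GibbsPf.large (bL L)
  filter_upwards [eventually_ge_atTop n₁] with n h1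
  filter_upwards [eventually_ge_atTop (1 + 2 * (#F : ℤ))] with M hM
  have hM1 : 1 ≤ M := by
    have : (0 : ℤ) ≤ #F := Nat.cast_nonneg _
    linarith
  have hBD : bL L ⊆ hexa n := fun x hx => (hn₁ n h1 x hx).1
  have hcl : ∀ x ∈ clo F, x ∈ hexa n ∧ ∀ y, Adj x y → y ∈ hexa n := fun x hx =>
    hn₁ n h1 x (hb5 hx)
  have e0' : eb (∅ : Finset Pt) ⊆ hexa n := by simp [eb]
  have key := (gD (hexa n)).low_le (M := M) (D := FD (hexa n) F) (Θ := fun a => Θ (blW a))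
    (fun _ => hΘ.nonneg _)
    (by
      intro a₁ a₂ h12
      refine hΛ₂ _ _ fun w hw => ?_
      have hw' := hΛ₂' w hw
      have hends : ∀ x' y' : Pt, Adj x' y' → w = x' + y' → x' ∉ F ∧ y' ∉ F := by
        intro x' y' h3 h4
        exact ⟨fun h => hw' ⟨x', h, y', h3, h4⟩,
          fun h => hw' ⟨y', h, x', h3.symm, by rw [h4, add_comm]⟩⟩
      have hin : ∀ z (hz : z ∈ hexa n), z ∉ F → a₁ (some ⟨z, hz⟩) = a₂ (some ⟨z, hz⟩) :=
        fun z hz hzF => h12 _ fun h => hzF ((some_mem_FD hz).1 h)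
      constructor
      · rintro ⟨x', y', hx', hy', h3, h4, h5, h6⟩
        obtain ⟨h7, h8⟩ := hends x' y' h3 h4
        exact ⟨x', y', hx', hy', h3, h4, by rw [← hin x' hx' h7]; exact h5,
          by rw [← hin y' hy' h8]; exact h6⟩
      · rintro ⟨x', y', hx', hy', h3, h4, h5, h6⟩
        obtain ⟨h7, h8⟩ := hends x' y' h3 h4
        exact ⟨x', y', hx', hy', h3, h4, by rw [hin x' hx' h7]; exact h5,
          by rw [hin y' hy' h8]; exact h6⟩)
    (B := fun b => g (blW b)) (fun _ => hg0 _) (fun _ _ h => hga (blW_anti h))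
    (v.map (tW (hexa n)))
  have t2 : ∀ H ∈ (gD (hexa n)).Om M Set.univ,
      Θ (bl (ex1 H)) * ((fun _ : Set Pt => (1 : ℝ)) (bl (ex1 H)) * pv [] (ex1 H)) =
      Θ (blW (Gh.ab H)) := fun H hH => by
    rw [fn_ex1 hΛ₂ c1 (hb2.trans hBD) e0' (by simp) hH, hnil', mul_one, mul_one]
  have t4 : ∀ H ∈ (gD (hexa n)).Om M Set.univ, Θ (bl (ex1 H)) * (g (bl (ex1 H)) * pv v (ex1 H)) =
      Θ (blW (Gh.ab H)) * (g (blW (Gh.ab H)) * mon (v.map (tW (hexa n))) H) := fun H hH =>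
    fn_ex1 hΛ₂ hΛ₃ (hb2.trans hBD) (hb3.trans hBD) (fun x hx => hBD (hb4 x hx)) hH
  have t1 : ∀ H ∈ (gD (hexa n)).Om M (FD (hexa n) F), g (bl (ex1 H)) * pv v (ex1 H) =
      g (blW (Gh.ab H)) * mon (v.map (tW (hexa n))) H := fun H hH => by
    have := fn_ex1 (g := fun _ => 1) c1 hΛ₃ e0' (hb3.trans hBD) (fun x hx => hBD (hb4 x hx)) hH
    simpa only [one_mul] using this
  rw [← Finset.sum_congr rfl t1] at key
  have hfe := free_eq (D := hexa n) hcl hM (G := fun h => g (bl h) * pv v h) (by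
    intro h h' hh
    have hsub : ∀ w ∈ Λ₃, w ∈ bl h ↔ w ∈ bl h' := by
      intro w hw
      obtain ⟨x, hx, y, hxy, he⟩ := hΛ₃' w hw
      have hx' : x ∈ clo F := sub_clo F x hx
      have hy' : y ∈ clo F := adj_clo F x hx y hxy
      have hends : ∀ x' y' : Pt, Adj x' y' → w = x' + y' → x' ∈ clo F ∧ y' ∈ clo F := by
        intro x' y' h3 h4
        rcases edge_eq hxy h3 (he.symm.trans h4) with ⟨rfl, rfl⟩ | ⟨rfl, rfl⟩
        · exact ⟨hx', hy'⟩
        · exact ⟨hy', hx'⟩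
      constructor
      · rintro ⟨x', y', h3, h4, h5, h6⟩
        obtain ⟨h7, h8⟩ := hends x' y' h3 h4
        exact ⟨x', y', h3, h4, by rw [← hh x' h7]; exact h5, by rw [← hh y' h8]; exact h6⟩
      · rintro ⟨x', y', h3, h4, h5, h6⟩
        obtain ⟨h7, h8⟩ := hends x' y' h3 h4
        exact ⟨x', y', h3, h4, by rw [hh x' h7]; exact h5, by rw [hh y' h8]; exact h6⟩
    show g (bl h) * pv v h = g (bl h') * pv v h'
    rw [hΛ₃ _ _ hsub, pv_congr fun x hx => hh x (sub_clo F x (hv x hx))])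
  rw [Finset.sum_congr rfl t2, Finset.sum_congr rfl t4]
  have hc := (gD (hexa n)).card_pos hM1 (FD (hexa n) F)
  have hf : (0 : ℝ) < #(FreeF F (clo F)) := by exact_mod_cast (nonempty_free _ _).card_pos
  have hz : ∑ H ∈ (gD (hexa n)).Om M (FD (hexa n) F), g (bl (ex1 H)) * pv v (ex1 H) =
      (#((gD (hexa n)).Om M (FD (hexa n) F)) : ℝ) *
        ev (FreeF F (clo F)) (fun h => g (bl h) * pv v h) := by
    unfold ev
    rw [mul_div_assoc', eq_div_iff hf.ne']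
    exact hfe
  rw [hz, mul_assoc] at key
  exact le_of_mul_le_mul_left key hc

/-- Positivity. -/
theorem pos_mon {P : Measure (Pt → ℤ)} (hP : GFF.Plane P) {Θ : Set Pt → ℝ}
    (hΘ : Fn Set.univ Θ) (v : List Pt) : 0 ≤ ∫ h, Θ (bl h) * pv v h ∂(muT P) := by
  obtain ⟨Λ₂, -, hΛ₂⟩ := hΘ.loc
  obtain ⟨L, hL⟩ := exists_bL (eb Λ₂ ∪ v.toFinset)
  have hb2 : eb Λ₂ ⊆ bL L := fun x hx => hL (by simp [hx])
  have hb4 : ∀ x ∈ v, x ∈ bL L := fun x hx => hL (by simp [hx])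
  have c1 : ∀ B B' : Set Pt, (∀ w ∈ (∅ : Finset Pt), w ∈ B ↔ w ∈ B') →
      (fun _ : Set Pt => (1 : ℝ)) B = (fun _ : Set Pt => (1 : ℝ)) B' := fun _ _ _ => rfl
  have e0 : eb (∅ : Finset Pt) ⊆ bL L := by simp [eb]
  have l4 := lcl_of hΘ.pin hΛ₂ c1 (v := v) hb2 e0 hb4
  have key := const_mul_le_lim hP (bL_nonempty L) (z := 0) l4 l4 ?_
  · simpa only [one_mul, zero_mul] using key
  obtain ⟨n₁, hn₁⟩ := A.GibbsPf.large (bL L)
  filter_upwards [eventually_ge_atTop n₁] with n h1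
  refine Eventually.of_forall fun M => ?_
  have hBD : bL L ⊆ hexa n := fun x hx => (hn₁ n h1 x hx).1
  have e0' : eb (∅ : Finset Pt) ⊆ hexa n := by simp [eb]
  have t4 : ∀ H ∈ (gD (hexa n)).Om M Set.univ,
      Θ (bl (ex1 H)) * ((fun _ : Set Pt => (1 : ℝ)) (bl (ex1 H)) * pv v (ex1 H)) =
      Θ (blW (Gh.ab H)) * mon (v.map (tW (hexa n))) H := fun H hH => by
    rw [fn_ex1 hΛ₂ c1 (hb2.trans hBD) e0' (fun x hx => hBD (hb4 x hx)) hH, one_mul]
  rw [zero_mul, Finset.sum_congr rfl t4,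
    (gD (hexa n)).sum_Om_mon (M := M) Set.univ (fun a => Θ (blW a)) (v.map (tW (hexa n)))]
  exact Finset.sum_nonneg fun a _ => mul_nonneg (mul_nonneg (mul_nonneg (Gph.cz_pos a).le
    (Nat.cast_nonneg _)) (hΘ.nonneg _)) ((gD (hexa n)).Fk_nonneg _ a)

theorem fn_mono {A A' : Set Pt} (h : A ⊆ A') {g : Set Pt → ℝ} (hg : Fn A g) : Fn A' g := by
  obtain ⟨Λ, h1, h2⟩ := hg.loc
  exact ⟨hg.nonneg, ⟨Λ, fun w hw => h (h1 w hw), h2⟩, hg.pin⟩

end LE

/-! ### The statements -/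

/-- LOW. -/
theorem s_low {P : Measure (Pt → ℤ)} (hP : GFF.Plane P) (hint : S_int P) : S_low P := by
  intro F Θ A hΘ hA
  have hΘu : Fn Set.univ Θ := LE.fn_mono (Set.subset_univ _) hΘ
  have hi : ∀ B : Om → ℝ, Top.Alg B → Integrable (fun h => Θ (bl h) * B (vm h)) (muT P) :=
    fun B hB => hint Θ B hΘu.loc hΘ.pin hB
  have hpv : ∀ (v : List Pt) (h : Hg), (v.map (vm h)).prod = LE.pv v h := fun _ _ => rfl
  have h1 : II P Θ (fun _ => 1) = ∫ h, Θ (bl h) ∂(muT P) := by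
    unfold II; simp only [mul_one]
  rw [h1]
  induction hA with
  | mon v =>
    by_cases hv : ∀ x ∈ v, x ∈ F
    · have h2 := LE.low_gen hP F (g := fun _ => 1) hΘ (fun _ => zero_le_one)
        (fun _ _ _ => le_rfl) ⟨∅, by simp, fun _ _ _ => rfl⟩ hv
      simp only [one_mul] at h2
      have h3 : ze F (fun ω => (v.map ω).prod) = ev (FreeF F (clo F)) (fun h => LE.pv v h) := by
        unfold ze
        congr 1
        funext h
        show (v.map (vh F h)).prod = (v.map fun x => (h x : ℝ)).prod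
        refine congrArg List.prod (List.map_congr_left fun x hx => ?_)
        unfold vh
        rw [if_pos (hv x hx)]
      rw [h3]
      exact h2
    · push Not at hv
      obtain ⟨x, hx, hxF⟩ := hv
      have h3 : ze F (fun ω => (v.map ω).prod) = 0 := by
        unfold ze ev
        rw [Finset.sum_eq_zero, zero_div]
        intro h _
        refine List.prod_eq_zero (List.mem_map.2 ⟨x, hx, ?_⟩)
        unfold vh
        rw [if_neg hxF]
      rw [h3, zero_mul]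
      exact LE.pos_mon hP hΘu v
  | zero =>
    have h3 : ze F (fun _ => 0) = 0 := by
      unfold ze ev
      simp
    rw [h3, zero_mul]
    unfold II
    simp
  | @add f g hf hg ih1 ih2 =>
    have h3 : ze F (fun ω => f ω + g ω) = ze F f + ze F g := by
      unfold ze ev
      rw [Finset.sum_add_distrib, add_div]
    have h4 : II P Θ (fun ω => f ω + g ω) = II P Θ f + II P Θ g := by
      unfold II
      rw [← integral_add (hi f hf.alg) (hi g hg.alg)]
      congr 1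
      funext h
      ring
    rw [h3, h4, add_mul]
    exact add_le_add ih1 ih2
  | @smul f c hc hf ih =>
    have h3 : ze F (fun ω => c * f ω) = c * ze F f := by
      unfold ze ev
      rw [← Finset.mul_sum, mul_div_assoc]
    have h4 : II P Θ (fun ω => c * f ω) = c * II P Θ f := by
      unfold II
      rw [← integral_const_mul]
      congr 1
      funext h
      ring
    rw [h3, h4, mul_assoc]
    exact mul_le_mul_of_nonneg_left ih hc

/-- LOW for decreasing functions of the blocked edges of `F`. -/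
theorem s_lowc {P : Measure (Pt → ℤ)} (hP : GFF.Plane P) (F : Finset Pt) (X Θ : Set Pt → ℝ)
    (hΘ : Fn (tE (F : Set Pt))ᶜ Θ) (hXa : Antitone X) (hX0 : ∀ B, 0 ≤ X B)
    (hXl : LocS (tE (F : Set Pt)) X) :
    ev (FreeF F (clo F)) (fun h => X (bl h)) * II P Θ (fun _ => 1) ≤
      II P (fun B => Θ B * X B) (fun _ => 1) := by
  have h2 := LE.low_gen hP F (g := X) hΘ hX0 hXa hXl (v := []) (by simp)
  have hnil : ∀ h : Hg, LE.pv [] h = 1 := fun _ => rfl
  simp only [hnil, mul_one] at h2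
  unfold II
  simpa only [mul_one] using h2

/-- EXT. -/
theorem s_ext {P : Measure (Pt → ℤ)} (hP : GFF.Plane P) (hint : S_int P) : S_ext P := by
  intro p r X Θ a A hr hX hXm hXc hΘ ha0 ha haa hA hOn
  -- restriction to the heights outside the box
  set tr : Om → Om := fun ω v => if v ∈ bx p (2 * r) then 0 else ω v with htr
  have hAtr : ∀ ω, A ω = A (tr ω) := fun ω => hOn _ _ fun v hv => by
    rw [htr]
    show ω v = if v ∈ bx p (2 * r) then 0 else ω v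
    rw [if_neg hv]
  obtain ⟨Λ₁, -, hΛ₁⟩ := hX.loc
  obtain ⟨Λ₂, -, hΛ₂⟩ := hΘ.loc
  have ha' := ha
  obtain ⟨Λ₃, -, hΛ₃⟩ := ha'
  have hlocX : LocS Set.univ fun B => X B * a B := by
    refine ⟨Λ₁ ∪ Λ₃, fun w _ => Set.mem_univ w, fun B B' hBB => ?_⟩
    show X B * a B = X B' * a B'
    rw [hΛ₁ B B' fun w hw => hBB w (Finset.mem_union_left _ hw),
      hΛ₃ B B' fun w hw => hBB w (Finset.mem_union_right _ hw)]
  have hlocT : LocS Set.univ fun B => Θ B * a B := by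
    refine ⟨Λ₂ ∪ Λ₃, fun w _ => Set.mem_univ w, fun B B' hBB => ?_⟩
    show Θ B * a B = Θ B' * a B'
    rw [hΛ₂ B B' fun w hw => hBB w (Finset.mem_union_left _ hw),
      hΛ₃ B B' fun w hw => hBB w (Finset.mem_union_right _ hw)]
  have hpX : (fun B => X B * a B) ∅ = 0 := by
    show X ∅ * a ∅ = 0
    rw [hX.pin, zero_mul]
  have hpT : (fun B => Θ B * a B) ∅ = 0 := by
    show Θ ∅ * a ∅ = 0
    rw [hΘ.pin, zero_mul]
  have h0 : ∀ g : Set Pt → ℝ, II P g (fun _ => 0) = 0 := by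
    intro g
    unfold II
    simp
  have hadd : ∀ g : Set Pt → ℝ, LocS Set.univ g → g ∅ = 0 → ∀ f f' : Om → ℝ, Cone f → Cone f' →
      II P g (fun ω => f ω + f' ω) = II P g f + II P g f' := by
    intro g hg hg0 f f' hf hf'
    unfold II
    rw [← integral_add (hint g f hg hg0 hf.alg) (hint g f' hg hg0 hf'.alg)]
    congr 1
    funext h
    ring
  have hsmul : ∀ (g : Set Pt → ℝ) (f : Om → ℝ) (c : ℝ),
      II P g (fun ω => c * f ω) = c * II P g f := by
    intro g f c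
    unfold II
    rw [← integral_const_mul]
    congr 1
    funext h
    ring
  have key : ∀ A : Om → ℝ, Cone A → Cone (fun ω => A (tr ω)) ∧
      II P (fun B => X B * a B) (fun ω => A (tr ω)) * II P Θ (fun _ => 1) ≤
        II P X (fun _ => 1) * II P (fun B => Θ B * a B) (fun ω => A (tr ω)) := by
    intro A hA
    induction hA with
    | mon v =>
      by_cases hv : ∀ x ∈ v, x ∉ bx p (2 * r)
      · have e : (fun ω : Om => (v.map (tr ω)).prod) = fun ω => (v.map ω).prod := by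
          funext ω
          refine congrArg List.prod (List.map_congr_left fun x hx => ?_)
          show (if x ∈ bx p (2 * r) then 0 else ω x) = ω x
          rw [if_neg (hv x hx)]
        show Cone (fun ω : Om => (v.map (tr ω)).prod) ∧
          II P (fun B => X B * a B) (fun ω : Om => (v.map (tr ω)).prod) * II P Θ (fun _ => 1) ≤
            II P X (fun _ => 1) * II P (fun B => Θ B * a B) (fun ω : Om => (v.map (tr ω)).prod)
        rw [e]
        refine ⟨Top.Pol.mon v, ?_⟩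
        have h2 := LE.ext_mon hP p r hX hXm hXc hΘ ha0 ha haa hr hv
        unfold II
        simp only [mul_one]
        simp only [mul_assoc]
        exact h2
      · have e : (fun ω : Om => (v.map (tr ω)).prod) = fun _ => 0 := by
          push Not at hv
          obtain ⟨x, hx, hxb⟩ := hv
          funext ω
          refine List.prod_eq_zero (List.mem_map.2 ⟨x, hx, ?_⟩)
          show (if x ∈ bx p (2 * r) then 0 else ω x) = 0
          rw [if_pos hxb]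
        show Cone (fun ω : Om => (v.map (tr ω)).prod) ∧
          II P (fun B => X B * a B) (fun ω : Om => (v.map (tr ω)).prod) * II P Θ (fun _ => 1) ≤
            II P X (fun _ => 1) * II P (fun B => Θ B * a B) (fun ω : Om => (v.map (tr ω)).prod)
        rw [e]
        refine ⟨Top.Pol.zero, ?_⟩
        rw [h0, h0, zero_mul, mul_zero]
    | zero =>
      refine ⟨Top.Pol.zero, ?_⟩
      rw [h0, h0, zero_mul, mul_zero]
    | @add f g hf hg ih1 ih2 =>
      refine ⟨Top.Pol.add ih1.1 ih2.1, ?_⟩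
      rw [hadd _ hlocX hpX _ _ ih1.1 ih2.1, hadd _ hlocT hpT _ _ ih1.1 ih2.1, add_mul, mul_add]
      exact add_le_add ih1.2 ih2.2
    | @smul f c hc hf ih =>
      refine ⟨Top.Pol.smul c hc ih.1, ?_⟩
      rw [hsmul, hsmul, mul_assoc, mul_left_comm (II P X fun _ => 1)]
      exact mul_le_mul_of_nonneg_left ih.2 hc
  have hA' : A = fun ω => A (tr ω) := funext hAtr
  rw [hA']
  exact (key A hA).2

end Vale.Agent.P153.F.X
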