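import Vale.Agent.P153.F.X.MmA

/-!
# P153-F, block X: moments of the heights given a macroscopic circuit at level `0` (`S_mm`)
-/

namespace Vale.Agent.P153.F.X

open Filter Topology Set MeasureTheory
open Vale.Agent.P153
open Vale.Agent.P153.F.Top (Om hv tl)
open Vale.Agent.P153.GFF (smear box pos Test Plane SpecOut g3radius)
open Vale.Agent.P145.PT (TestOn)

lemma massT_smul (c : ℝ) (a : Pt →₀ ℝ) : massT (c • a) = c * massT a := by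
  unfold massT
  rw [Finsupp.sum_smul_index' (fun _ => rfl), Finsupp.mul_sum]
  rfl

lemma mv_zero (w : Pt →₀ ℝ) : mv 0 w = w := by
  ext v
  rw [mv_apply, sub_zero]

/-- Real geometry: inner weights. -/
lemma in_box {i : ℝ × ℝ → ℝ} (ci : HasCompactSupport i) {z : ℝ × ℝ} {ρ δ : ℝ} (hδ : 0 < δ)
    (hi : ∀ x, i x ≠ 0 → |x.1 - z.1| ≤ ρ ∧ |x.2 - z.2| ≤ ρ) {p v : Pt} {s : ℤ}
    (h1 : |δ * (p.1 + p.2 / 2) - z.1| ≤ ρ) (h2 : |δ * (p.2 * (√3 / 2)) - z.2| ≤ ρ)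
    (hs : 4 * ρ + 3 * δ ≤ δ * s) (hv : WT δ i v ≠ 0) : v ∈ bx p s := by
  obtain ⟨u, u1, u2, u3⟩ := WT_ne ci hδ hv
  obtain ⟨a1, a2⟩ := hi _ u3
  simp only [Prod.smul_fst, Prod.smul_snd, Prod.fst_add, Prod.snd_add, pos, smul_eq_mul] at a1 a2
  have hρ : 0 ≤ ρ := le_trans (abs_nonneg _) h1
  set X : ℝ := ((v.1 - p.1 : ℤ) : ℝ) with hX
  set Y : ℝ := ((v.2 - p.2 : ℤ) : ℝ) with hY
  have eX : (v.1 : ℝ) = p.1 + X := by rw [hX]; push_cast; ring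
  have eY : (v.2 : ℝ) = p.2 + Y := by rw [hY]; push_cast; ring
  have b2 : |δ * (u.2 + Y * (√3 / 2))| ≤ 2 * ρ := by
    have e : δ * (u.2 + Y * (√3 / 2)) = (δ * (u.2 + v.2 * (√3 / 2)) - z.2) -
        (δ * (p.2 * (√3 / 2)) - z.2) := by rw [eY]; ring
    rw [e]
    exact (abs_sub _ _).trans (by linarith)
  have b1 : |δ * (u.1 + (X + Y / 2))| ≤ 2 * ρ := by
    have e : δ * (u.1 + (X + Y / 2)) = (δ * (u.1 + (v.1 + v.2 / 2)) - z.1) -
        (δ * (p.1 + p.2 / 2) - z.1) := by rw [eX, eY]; ring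
    rw [e]
    exact (abs_sub _ _).trans (by linarith)
  have c2 : δ * |Y| ≤ 4 * ρ + 2 * δ := by
    have d1 : |δ * (Y * (√3 / 2))| ≤ 2 * ρ + δ := by
      have e : δ * (Y * (√3 / 2)) = δ * (u.2 + Y * (√3 / 2)) - δ * u.2 := by ring
      rw [e]
      refine (abs_sub _ _).trans ?_
      rw [abs_mul δ u.2, abs_of_pos hδ]
      nlinarith
    rw [abs_mul, abs_mul, abs_of_pos hδ, abs_of_pos (by positivity : (0 : ℝ) < √3 / 2)] at d1
    have d2 : δ * |Y| * (1 / 2) ≤ δ * (|Y| * (√3 / 2)) := by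
      have : 0 ≤ δ * |Y| := by positivity
      nlinarith [sq3.1]
    linarith
  have c1 : δ * |X| ≤ 4 * ρ + 3 * δ := by
    have e : δ * X = δ * (u.1 + (X + Y / 2)) - δ * u.1 - δ * (Y / 2) := by ring
    have d1 : |δ * X| ≤ 2 * ρ + 2 * δ + δ * |Y| / 2 := by
      rw [e]
      refine (abs_sub _ _).trans ?_
      have d2 := abs_sub (δ * (u.1 + (X + Y / 2))) (δ * u.1)
      have d3 : |δ * u.1| ≤ 2 * δ := by
        rw [abs_mul, abs_of_pos hδ]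
        nlinarith
      have d4 : |δ * (Y / 2)| = δ * |Y| / 2 := by
        rw [abs_mul, abs_of_pos hδ, abs_div, abs_two]
        ring
      rw [d4]
      linarith
    rw [abs_mul, abs_of_pos hδ] at d1
    linarith
  have f1 : |X| ≤ s := le_of_mul_le_mul_left (c1.trans hs) hδ
  have f2 : |Y| ≤ s := le_of_mul_le_mul_left ((by linarith : δ * |Y| ≤ 4 * ρ + 3 * δ).trans hs) hδ
  refine ⟨?_, ?_⟩
  · rw [hX] at f1
    have : |v.1 - p.1| ≤ s := by exact_mod_cast f1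
    exact this
  · rw [hY] at f2
    have : |v.2 - p.2| ≤ s := by exact_mod_cast f2
    exact this

/-- Real geometry: outer weights. -/
lemma out_box {o : ℝ × ℝ → ℝ} (co : HasCompactSupport o) {R δ : ℝ} (hδ : 0 < δ) (hδ1 : δ ≤ 1)
    (ho : ∀ x, o x ≠ 0 → |x.1 - (3 * R + 6)| ≤ 1 ∧ |x.2 - 0| ≤ 1) {p v : Pt} {s : ℤ}
    (h1 : |δ * p.1| ≤ R) (h2 : δ * s ≤ R) (hv : WT δ o v ≠ 0) : v ∉ bx p (2 * s) := by
  intro hmem
  obtain ⟨u, u1, u2, u3⟩ := WT_ne co hδ hv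
  obtain ⟨a1, a2⟩ := ho _ u3
  simp only [Prod.smul_fst, Prod.smul_snd, Prod.fst_add, Prod.snd_add, pos, smul_eq_mul,
    sub_zero] at a1 a2
  have c2 : δ * |(v.2 : ℝ)| ≤ 4 := by
    have d1 : |δ * ((v.2 : ℝ) * (√3 / 2))| ≤ 1 + δ := by
      have e : δ * ((v.2 : ℝ) * (√3 / 2)) = δ * (u.2 + v.2 * (√3 / 2)) - δ * u.2 := by ring
      rw [e]
      refine (abs_sub _ _).trans ?_
      rw [abs_mul δ u.2, abs_of_pos hδ]
      nlinarith
    rw [abs_mul, abs_mul, abs_of_pos hδ, abs_of_pos (by positivity : (0 : ℝ) < √3 / 2)] at d1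
    have d2 : δ * |(v.2 : ℝ)| * (1 / 2) ≤ δ * (|(v.2 : ℝ)| * (√3 / 2)) := by
      have : 0 ≤ δ * |(v.2 : ℝ)| := by positivity
      nlinarith [sq3.1]
    linarith
  have c1 : 3 * R + 1 ≤ δ * v.1 := by
    have d1 := (abs_le.1 a1).1
    have d2 : δ * u.1 ≤ 2 * δ := by nlinarith [(abs_le.1 u1).2]
    have d3 : δ * ((v.2 : ℝ) / 2) ≤ 2 := by
      have := le_abs_self (v.2 : ℝ)
      nlinarith
    have e : δ * (u.1 + ((v.1 : ℝ) + v.2 / 2)) = δ * u.1 + δ * v.1 + δ * ((v.2 : ℝ) / 2) := by ring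
    rw [e] at d1
    linarith
  have m1 : |v.1 - p.1| ≤ 2 * s := hmem.1
  have m2 : ((v.1 - p.1 : ℤ) : ℝ) ≤ ((2 * s : ℤ) : ℝ) := Int.cast_le.2 (abs_le.1 m1).2
  push_cast at m2
  have m3 : δ * ((v.1 : ℝ) - p.1) ≤ δ * (2 * s) := mul_le_mul_of_nonneg_left m2 hδ.le
  have m4 := (abs_le.1 h1).2
  linarith

/-- Perturbation of a functional by a bounded quantity. -/
lemma plane_part {P : Measure (Pt → ℤ)} [IsProbabilityMeasure P] {w g : Pt →₀ ℝ} {k : ℕ}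
    {B W : ℝ} (hB : 0 ≤ B) (hW : 0 ≤ W)
    (h : ∀ᵐ φ ∂P, (2 * (evT w φ - evT g φ)) ^ 2 ≤ W)
    (h1 : ∫⁻ φ, ENNReal.ofReal ((2 * evT g φ) ^ (2 * k)) ∂P ≤ ENNReal.ofReal B) :
    ∫⁻ φ, ENNReal.ofReal ((2 * evT w φ) ^ (2 * k)) ∂P ≤
      ENNReal.ofReal (2 ^ (2 * k) * (B + W ^ k)) := by
  have hae : ∀ᵐ φ ∂P, (2 * evT w φ) ^ (2 * k) ≤ 2 ^ (2 * k) * ((2 * evT g φ) ^ (2 * k) + W ^ k) := by
    filter_upwards [h] with φ hφ
    have h2 : 2 * evT w φ = 2 * evT g φ + 2 * (evT w φ - evT g φ) := by ring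
    rw [h2]
    refine (pow_add_two _ _ k).trans (mul_le_mul_of_nonneg_left ?_ (by positivity))
    have h3 : (2 * (evT w φ - evT g φ)) ^ (2 * k) ≤ W ^ k := by
      rw [pow_mul]
      exact pow_le_pow_left₀ (sq_nonneg _) hφ k
    linarith
  calc ∫⁻ φ, ENNReal.ofReal ((2 * evT w φ) ^ (2 * k)) ∂P
      ≤ ∫⁻ φ, (ENNReal.ofReal (2 ^ (2 * k)) * (ENNReal.ofReal
          ((2 * evT g φ) ^ (2 * k)) + ENNReal.ofReal (W ^ k))) ∂P := by
        refine lintegral_mono_ae ?_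
        filter_upwards [hae] with φ hφ
        rw [← ENNReal.ofReal_add (Even.pow_nonneg (even_two_mul k) _) (by positivity),
          ← ENNReal.ofReal_mul (by positivity)]
        exact ENNReal.ofReal_le_ofReal hφ
    _ = ENNReal.ofReal (2 ^ (2 * k)) * (∫⁻ φ, ENNReal.ofReal
          ((2 * evT g φ) ^ (2 * k)) ∂P + ENNReal.ofReal (W ^ k)) := by
        rw [lintegral_const_mul' _ _ ENNReal.ofReal_ne_top,
          lintegral_add_right _ measurable_const, lintegral_const, measure_univ, mul_one]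
    _ ≤ ENNReal.ofReal (2 ^ (2 * k)) * (ENNReal.ofReal B + ENNReal.ofReal (W ^ k)) := by
        gcongr
    _ = ENNReal.ofReal (2 ^ (2 * k) * (B + W ^ k)) := by
        rw [← ENNReal.ofReal_add hB (by positivity), ← ENNReal.ofReal_mul (by positivity)]

/-- The error. -/
lemma err_le {f i : ℝ × ℝ → ℝ} (hf : Smo f) (hi : Smo i) {δ Cf m m0 N : ℝ} (hδ : 0 < δ)
    (hCf : 0 ≤ Cf) (d1 : |m - m0| ≤ Cf * δ ^ 2) {φ : Pt → ℤ}
    (h3 : |evT (HW δ f) φ - evT (WT δ f) φ| ≤ Cf * δ)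
    (h4 : |evT (WT δ i) φ| ≤ (∫ z, |i z|) * (N / δ)) :
    |evT (HW δ f - m • WT δ i) φ - evT (WT δ fun x => f x - m0 * i x) φ| ≤
      (Cf + Cf * ((∫ z, |i z|) * N)) * δ := by
  have h5 : evT (HW δ f - m • WT δ i) φ - evT (WT δ fun x => f x - m0 * i x) φ =
      (evT (HW δ f) φ - evT (WT δ f) φ) + (m0 - m) * evT (WT δ i) φ := by
    rw [WT_sub hf (hi.mul m0) hδ, WT_smul hi.2 hδ, evT_sub, evT_sub, evT_smul, evT_smul]
    ring
  rw [h5]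
  refine (abs_add_le _ _).trans ?_
  rw [abs_mul, abs_sub_comm m0]
  have h7 : |m - m0| * |evT (WT δ i) φ| ≤ (Cf * δ ^ 2) * ((∫ z, |i z|) * (N / δ)) :=
    mul_le_mul d1 h4 (abs_nonneg _) (by positivity)
  have h8 : (Cf * δ ^ 2) * ((∫ z, |i z|) * (N / δ)) = Cf * ((∫ z, |i z|) * N) * δ := by
    field_simp
  rw [h8] at h7
  linarith

/-- The final arithmetic. -/
lemma final_le {k : ℕ} {m R cz C W Bo A : ℝ} (hW : 0 ≤ W) (hBo : 0 ≤ Bo)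
    (hmk : m ^ (2 * k) ≤ (8 * R ^ 2 + 1) ^ k * W ^ k)
    (hA : 2 ^ (2 * k) * (3 * (2 ^ (2 * k) * (C * (2 + 8 * R ^ 2 * cz) ^ k + 1)) +
      (8 * R ^ 2 + 1) ^ k * (3 * Bo)) ≤ A) :
    2 ^ (2 * k) * (3 * (2 ^ (2 * k) * (C * ((2 + 8 * R ^ 2 * cz) * W) ^ k + W ^ k)) +
      m ^ (2 * k) * (3 * Bo)) ≤ A * W ^ k := by
  refine le_trans ?_ (mul_le_mul_of_nonneg_right hA (pow_nonneg hW k))
  have h6 : m ^ (2 * k) * (3 * Bo) ≤ (8 * R ^ 2 + 1) ^ k * W ^ k * (3 * Bo) :=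
    mul_le_mul_of_nonneg_right hmk (by positivity)
  rw [mul_pow]
  have h7 : 2 ^ (2 * k) * (3 * (2 ^ (2 * k) * (C * (2 + 8 * R ^ 2 * cz) ^ k + 1)) +
      (8 * R ^ 2 + 1) ^ k * (3 * Bo)) * W ^ k =
      2 ^ (2 * k) * (3 * (2 ^ (2 * k) * (C * ((2 + 8 * R ^ 2 * cz) ^ k * W ^ k) + W ^ k)) +
        (8 * R ^ 2 + 1) ^ k * W ^ k * (3 * Bo)) := by ring
  rw [h7]
  exact mul_le_mul_of_nonneg_left (by linarith) (by positivity)

/-- The estimate for a fixed mesh. -/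
lemma mm_point {P : Measure (Pt → ℤ)} (hP : Plane P) {k : ℕ} {R ρ δ C Cf c Bo W m0 : ℝ}
    {f i o : ℝ × ℝ → ℝ} {z : ℝ × ℝ} (hR : 1 ≤ R) (hρR : 8 * ρ = R⁻¹) (hδ : 0 < δ) (hδ1 : δ ≤ 1)
    (hδρ : 3 * δ ≤ 4 * ρ) (hf : Smo f) (hi : Smo i) (ho : Smo o) (hi1 : ∫ x, i x = 1)
    (ho1 : ∫ x, o x = 1) (his : ∀ x, i x ≠ 0 → |x.1 - z.1| ≤ ρ ∧ |x.2 - z.2| ≤ ρ)
    (hiz : ∀ w : ℝ × ℝ, (2 * R + 1 < |w.1| ∨ 2 * R + 1 < |w.2|) → i w = 0)
    (hos : ∀ x, o x ≠ 0 → |x.1 - (3 * R + 6)| ≤ 1 ∧ |x.2 - 0| ≤ 1)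
    (hC : 0 ≤ C) (hc : 0 ≤ c) (hBo : 0 ≤ Bo) (hW : 0 ≤ W) (hCf : 0 ≤ Cf)
    (d1 : |massT (HW δ f) - m0| ≤ Cf * δ ^ 2)
    (d2 : ∀ φ : Pt → ℤ, (∀ v, |φ v| ≤ |v.1| + |v.2|) →
      |evT (HW δ f) φ - evT (WT δ f) φ| ≤ Cf * δ)
    (e1 : ∫⁻ φ, ENNReal.ofReal ((2 * evT (WT δ fun x => f x - m0 * i x) φ) ^ (2 * k)) ∂P ≤
      ENNReal.ofReal (C * ((2 + 8 * R ^ 2 * c) * W) ^ k))
    (e2 : ∫⁻ φ, ENNReal.ofReal ((2 * evT (WT δ fun x => i x - o x) φ) ^ (2 * k)) ∂P ≤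
      ENNReal.ofReal Bo)
    (e3 : (2 * ((Cf + Cf * ((∫ x, |i x|) * (4 * (2 * R + 1) + 15))) * δ)) ^ 2 ≤ W)
    {p : Pt} {s : ℤ} (hp1 : |δ * p.1| ≤ R) (hs1 : R⁻¹ ≤ δ * s) (hs2 : δ * s ≤ R)
    (hz1 : |δ * (p.1 + p.2 / 2) - z.1| ≤ ρ) (hz2 : |δ * (p.2 * (√3 / 2)) - z.2| ≤ ρ) :
    II P (ind (Zr p s)) (fun ω => hv δ f ω ^ (2 * k)) ≤
      2 ^ (2 * k) * (3 * (2 ^ (2 * k) * (C * ((2 + 8 * R ^ 2 * c) * W) ^ k + W ^ k)) +
        massT (HW δ f) ^ (2 * k) * (3 * Bo)) := by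
  have := hP.prob
  have hR0 : 0 < R := by linarith
  have hs0 : 0 < s := by
    have h1 : 0 < δ * s := lt_of_lt_of_le (by positivity) hs1
    have h2 : (0 : ℝ) < s := (mul_pos_iff_of_pos_left hδ).1 h1
    exact_mod_cast h2
  have ma : massT (WT δ i) = 1 := by rw [mass_WT hi hδ, hi1]
  have mb : massT (WT δ o) = 1 := by rw [mass_WT ho hδ, ho1]
  have hm0' : 0 ≤ massT (HW δ f) ^ (2 * k) := Even.pow_nonneg (even_two_mul k) _
  have hb10 : 0 ≤ 2 ^ (2 * k) * (C * ((2 + 8 * R ^ 2 * c) * W) ^ k + W ^ k) := by positivity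
  have hpl : ∫⁻ φ, ENNReal.ofReal
      ((2 * evT (HW δ f - massT (HW δ f) • WT δ i) φ) ^ (2 * k)) ∂P ≤
      ENNReal.ofReal (2 ^ (2 * k) * (C * ((2 + 8 * R ^ 2 * c) * W) ^ k + W ^ k)) := by
    refine plane_part (by positivity) hW ?_ e1
    filter_upwards [hP.zero, hP.lip] with φ hφ0 hφ
    have hφb : ∀ v : Pt, |φ v| ≤ |v.1| + |v.2| := by
      intro v
      have h1 := Strip.lip_bound hφ v
      have h2 : φ (0, 0) = 0 := hφ0
      rwa [h2, sub_zero] at h1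
    have h6 := err_le hf hi hδ hCf d1 (d2 φ hφb)
      (evT_crude hi (by linarith : (0 : ℝ) ≤ 2 * R + 1) hiz hδ hδ1 hφb)
    refine le_trans ?_ e3
    rw [← sq_abs, abs_mul, abs_two]
    exact pow_le_pow_left₀ (by positivity) (by linarith) 2
  refine II_le (by omega) (fun ω => Even.pow_nonneg (even_two_mul k) _) (by positivity) ?_
  simp only [hv_HW hf.2 hδ]
  refine core (Vale.Agent.P153.F.gb_of_plane hP) (by omega : 1 ≤ s) (w := HW δ f)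
    (a := WT δ i) (b := WT δ o) (m := massT (HW δ f)) (p := p)
    (fun v hv => in_box hi.2 hδ his hz1 hz2 (by linarith) (Finsupp.mem_support_iff.1 hv))
    (fun v hv => out_box ho.2 hδ hδ1 hos hp1 hs2 (Finsupp.mem_support_iff.1 hv))
    (by rw [massT_sub, massT_smul, ma]; ring) (by rw [massT_sub, ma, mb, sub_self]) k hb10
    hBo hpl ?_
  rw [← WT_sub hi ho hδ]
  exact e2

lemma centre_mem {δ R : ℝ} (hR : 0 ≤ R) {p : Pt} (hp1 : |δ * p.1| ≤ R) (hp2 : |δ * p.2| ≤ R) :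
    ((δ * ((p.1 : ℝ) + p.2 / 2), δ * ((p.2 : ℝ) * (√3 / 2))) : ℝ × ℝ) ∈
      Metric.closedBall (0 : ℝ × ℝ) (2 * R) := by
  rw [mem_closedBall_zero_iff, Prod.norm_def, max_le_iff, Real.norm_eq_abs, Real.norm_eq_abs]
  constructor
  · have e : δ * ((p.1 : ℝ) + p.2 / 2) = δ * p.1 + δ * p.2 / 2 := by ring
    simp only
    rw [e]
    refine (abs_add_le _ _).trans ?_
    rw [abs_div (δ * (p.2 : ℝ)), abs_two]
    linarith
  · have e : δ * ((p.2 : ℝ) * (√3 / 2)) = (δ * p.2) * (√3 / 2) := by ring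
    simp only
    rw [e, abs_mul, abs_of_pos (by positivity : (0 : ℝ) < √3 / 2)]
    nlinarith [sq3.2, abs_nonneg (δ * (p.2 : ℝ))]

lemma mass_pow_le {k : ℕ} {m m0 Cf δ R F ε : ℝ} (hCf : 0 ≤ Cf) (hδ : 0 < δ) (hδ1 : δ ≤ 1)
    (d1 : |m - m0| ≤ Cf * δ ^ 2) (hcs : m0 ^ 2 ≤ 4 * R ^ 2 * F) (hF : 0 ≤ F) (hε : 0 ≤ ε)
    (f3 : 2 * (Cf * δ) ^ 2 ≤ ε) : m ^ (2 * k) ≤ (8 * R ^ 2 + 1) ^ k * (F + ε) ^ k := by
  have h1 : (m - m0) ^ 2 ≤ (Cf * δ) ^ 2 := by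
    rw [← sq_abs]
    refine pow_le_pow_left₀ (abs_nonneg _) (d1.trans ?_) 2
    have : δ ^ 2 ≤ δ := by nlinarith
    exact mul_le_mul_of_nonneg_left this hCf
  have h2 : m ^ 2 ≤ 2 * m0 ^ 2 + 2 * (m - m0) ^ 2 := by nlinarith [sq_nonneg (m - 2 * m0)]
  have hm2 : m ^ 2 ≤ (8 * R ^ 2 + 1) * (F + ε) := by
    have h3 : 0 ≤ R ^ 2 * ε := mul_nonneg (sq_nonneg R) hε
    nlinarith
  rw [pow_mul, ← mul_pow]
  exact pow_le_pow_left₀ (sq_nonneg _) hm2 k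

/-- **MM**, the statement of `X/Stmt.lean`. -/
theorem s_mm {P : Measure (Pt → ℤ)} {κ : ℝ} (hP : Plane P) (hS : SpecOut P κ) {δ : ℕ → ℝ}
    (hδ : ∀ n, 0 < δ n) (hlim : Tendsto δ atTop (𝓝 0)) : S_mm P δ := by
  intro R hR1 k
  have := hP.prob
  have hR : 0 < R := by linarith
  set ρ : ℝ := 1 / (8 * R) with hρ
  have hρ0 : 0 < ρ := by positivity
  have hρ1 : ρ ≤ 1 := by
    rw [hρ, div_le_one (by positivity)]
    linarith
  -- the outer bump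
  obtain ⟨o, ho, ho1, hos⟩ := exists_bump ((3 * R + 6, 0) : ℝ × ℝ) one_pos
  -- the inner bumps
  obtain ⟨T, hTs, hTf, hTc⟩ :=
    (isCompact_closedBall (0 : ℝ × ℝ) (2 * R)).finite_cover_balls hρ0
  choose i hi hi1 his using fun z : ℝ × ℝ => exists_bump z hρ0
  have hlimW : Tendsto δ atTop (𝓝[>] 0) := by
    rw [tendsto_nhdsWithin_iff]
    exact ⟨hlim, Eventually.of_forall hδ⟩
  set R₀ : ℝ := 4 * R + 10 with hR₀
  obtain ⟨C, hC, hneu⟩ := neutral_mv hP hS (R := R₀) (by linarith) k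
  have hiR : ∀ z ∈ T, ∀ x, i z x ≠ 0 → |x.1| ≤ 2 * R + 1 ∧ |x.2| ≤ 2 * R + 1 := by
    intro z hz x hx
    have hzR := hTs hz
    rw [mem_closedBall_zero_iff, Prod.norm_def, max_le_iff, Real.norm_eq_abs,
      Real.norm_eq_abs] at hzR
    obtain ⟨h1, h2⟩ := his z x hx
    have a1 := abs_sub_abs_le_abs_sub x.1 z.1
    have a2 := abs_sub_abs_le_abs_sub x.2 z.2
    constructor <;> linarith [hzR.1, hzR.2]
  have hoR : ∀ x, o x ≠ 0 → |x.1| ≤ R₀ ∧ |x.2| ≤ R₀ := by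
    intro x hx
    obtain ⟨h1, h2⟩ := hos x hx
    simp only [sub_zero] at h1 h2
    have a1 := abs_sub_abs_le_abs_sub x.1 (3 * R + 6)
    rw [abs_of_pos (by positivity : (0 : ℝ) < 3 * R + 6)] at a1
    constructor <;> linarith
  -- constants
  set c : ℝ × ℝ → ℝ := fun z => ∫ x, i z x ^ 2 with hc
  have hc0 : ∀ z, 0 ≤ c z := fun z => integral_nonneg fun x => sq_nonneg _
  set Bo : ℝ × ℝ → ℝ := fun z => C * ((∫ x, (i z x - o x) ^ 2) + 1) ^ k with hBo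
  have hBo0 : ∀ z, 0 ≤ Bo z := fun z => by
    have : 0 ≤ ∫ x, (i z x - o x) ^ 2 := integral_nonneg fun x => sq_nonneg _
    simp only [hBo]
    positivity
  set A : ℝ × ℝ → ℝ := fun z => 2 ^ (2 * k) * (3 * (2 ^ (2 * k) *
    (C * (2 + 8 * R ^ 2 * c z) ^ k + 1)) + (8 * R ^ 2 + 1) ^ k * (3 * Bo z)) with hA
  have hA0 : ∀ z, 0 ≤ A z := fun z => by
    have h1 := hc0 z
    have h2 := hBo0 z
    simp only [hA]
    positivity
  refine ⟨∑ z ∈ hTf.toFinset, A z, Finset.sum_nonneg fun z _ => hA0 z, fun f hf ε hε => ?_⟩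
  have hfS : Smo f := ⟨hf.1, hf.2.1⟩
  have hsupp : ∀ x, f x ≠ 0 → |x.1| ≤ R ∧ |x.2| ≤ R := by
    intro x hx
    have h1 : x ∈ Metric.ball (0 : ℝ × ℝ) R := hf.2.2 (subset_tsupport f hx)
    rw [Metric.mem_ball, dist_zero_right, Prod.norm_def, max_lt_iff, Real.norm_eq_abs,
      Real.norm_eq_abs] at h1
    exact ⟨h1.1.le, h1.2.le⟩
  have hz : ∀ z : ℝ × ℝ, (R < |z.1| ∨ R < |z.2|) → f z = 0 := by
    intro z hz
    by_contra hne
    obtain ⟨h1, h2⟩ := hsupp z hne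
    rcases hz with h | h <;> linarith
  have hq0 : 0 ≤ ∫ z, f z ^ 2 := integral_nonneg fun x => sq_nonneg _
  set m0 : ℝ := ∫ z, f z with hm0
  set W : ℝ := (∫ z, f z ^ 2) + ε with hW
  have hW0 : 0 < W := by linarith
  have hcs : m0 ^ 2 ≤ 4 * R ^ 2 * ∫ z, f z ^ 2 := by
    have h1 := MN.cs_box hR hfS.cont hfS.2 hsupp
    have h2 : m0 ^ 2 ≤ (∫ z, |f z|) ^ 2 := by
      rw [← sq_abs m0]
      exact pow_le_pow_left₀ (abs_nonneg _) (abs_integral_le_integral_abs) 2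
    refine h2.trans (h1.trans (le_of_eq ?_))
    ring
  obtain ⟨Cf, hCf, hclose⟩ := HW_close hfS hR.le hz
  -- the events
  have E1 : ∀ z ∈ T, ∀ᶠ n in atTop, ∀ p : Pt,
      ∫⁻ φ, ENNReal.ofReal ((2 * evT (mv p (WT (δ n) fun x => f x - m0 * i z x)) φ) ^ (2 * k)) ∂P ≤
        ENNReal.ofReal (C * ((2 + 8 * R ^ 2 * c z) * W) ^ k) := by
    intro z hzT
    have g1 : Smo fun x => f x - m0 * i z x := hfS.sub ((hi z).mul m0)
    have g2 : ∫ x, (f x - m0 * i z x) = 0 := by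
      have hIi : ∫ x, m0 * i z x = m0 := by rw [integral_const_mul, hi1, mul_one]
      rw [integral_sub hfS.int ((hi z).mul m0).int, hIi, hm0, sub_self]
    have g3 : ∀ x, f x - m0 * i z x ≠ 0 → |x.1| ≤ R₀ ∧ |x.2| ≤ R₀ := by
      intro x hx
      by_cases h1 : f x = 0
      · have h2 : i z x ≠ 0 := by
          intro h
          apply hx
          rw [h1, h, mul_zero, sub_zero]
        obtain ⟨h3, h4⟩ := hiR z hzT x h2
        constructor <;> linarith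
      · obtain ⟨h3, h4⟩ := hsupp x h1
        constructor <;> linarith
    filter_upwards [hlimW.eventually (hneu _ g1 g2 g3 ε hε)] with n hn p
    refine (hn p).trans (ENNReal.ofReal_le_ofReal (mul_le_mul_of_nonneg_left ?_ hC))
    have h1 : ∫ x, (f x - m0 * i z x) ^ 2 ≤ 2 * (∫ x, f x ^ 2) + 2 * m0 ^ 2 * c z := by
      have i1 := MN.sq_int hfS.cont hfS.2
      have i2 := MN.sq_int (hi z).cont (hi z).2
      have i3 := MN.sq_int g1.cont g1.2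
      rw [hc, ← integral_const_mul, ← integral_const_mul, ← integral_add (i1.const_mul _)
        (i2.const_mul _)]
      refine integral_mono i3 ((i1.const_mul _).add (i2.const_mul _)) fun x => ?_
      simp only
      nlinarith [sq_nonneg (f x + m0 * i z x)]
    have h2 : 2 * m0 ^ 2 * c z ≤ 8 * R ^ 2 * c z * ∫ x, f x ^ 2 := by
      have := mul_le_mul_of_nonneg_right hcs (hc0 z)
      linarith
    have h3 : 0 ≤ 8 * R ^ 2 * c z := by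
      have := hc0 z
      positivity
    refine pow_le_pow_left₀ (add_nonneg (integral_nonneg fun x => sq_nonneg _) hε.le) ?_ k
    rw [hW]
    nlinarith [mul_nonneg h3 hε.le]
  have E2 : ∀ z ∈ T, ∀ᶠ n in atTop, ∀ p : Pt,
      ∫⁻ φ, ENNReal.ofReal ((2 * evT (mv p (WT (δ n) fun x => i z x - o x)) φ) ^ (2 * k)) ∂P ≤
        ENNReal.ofReal (Bo z) := by
    intro z hzT
    have g1 : Smo fun x => i z x - o x := (hi z).sub ho
    have g2 : ∫ x, (i z x - o x) = 0 := by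
      rw [integral_sub (hi z).int ho.int, hi1, ho1, sub_self]
    have g3 : ∀ x, i z x - o x ≠ 0 → |x.1| ≤ R₀ ∧ |x.2| ≤ R₀ := by
      intro x hx
      by_cases h1 : i z x = 0
      · have h2 : o x ≠ 0 := by
          intro h
          apply hx
          rw [h1, h, sub_zero]
        exact hoR x h2
      · obtain ⟨h3, h4⟩ := hiR z hzT x h1
        constructor <;> linarith
    exact hlimW.eventually (hneu _ g1 g2 g3 1 one_pos)
  set Ce : ℝ × ℝ → ℝ := fun z => Cf + Cf * ((∫ x, |i z x|) * (4 * (2 * R + 1) + 15)) with hCe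
  have hCe0 : ∀ z, 0 ≤ Ce z := fun z => by
    have : 0 ≤ ∫ x, |i z x| := integral_nonneg fun x => abs_nonneg _
    simp only [hCe]
    positivity
  have E3 : ∀ z ∈ T, ∀ᶠ n in atTop, (2 * (Ce z * δ n)) ^ 2 ≤ ε := by
    intro z _
    have l1 : Tendsto (fun n => (2 * (Ce z * δ n)) ^ 2) atTop (𝓝 ((2 * (Ce z * 0)) ^ 2)) :=
      (((hlim.const_mul _).const_mul 2).pow 2)
    exact l1.eventually_le_const (by simpa using hε)
  have E4 : ∀ᶠ n in atTop, 3 * δ n ≤ 4 * ρ ∧ δ n ≤ 1 ∧ 2 * (Cf * δ n) ^ 2 ≤ ε := by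
    have l1 : ∀ᶠ n in atTop, 3 * δ n ≤ 4 * ρ :=
      (hlim.const_mul 3).eventually_le_const (by simpa using hρ0)
    have l2 : ∀ᶠ n in atTop, δ n ≤ 1 := hlim.eventually_le_const one_pos
    have l3 : ∀ᶠ n in atTop, 2 * (Cf * δ n) ^ 2 ≤ ε := by
      have l4 : Tendsto (fun n => 2 * (Cf * δ n) ^ 2) atTop (𝓝 (2 * (Cf * 0) ^ 2)) :=
        ((hlim.const_mul _).pow 2).const_mul 2
      exact l4.eventually_le_const (by simpa using hε)
    exact l1.and (l2.and l3)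
  have E : ∀ᶠ n in atTop, ∀ z ∈ T, _ := (hTf.eventually_all).2 fun z hz =>
    (E1 z hz).and ((E2 z hz).and (E3 z hz))
  filter_upwards [E, E4] with n hn hn4
  intro p s hp1 hp2 hs1 hs2
  obtain ⟨f1, f2, f3⟩ := hn4
  have hδn := hδ n
  have hs0 : 0 < s := by
    have h1 : 0 < δ n * s := lt_of_lt_of_le (by positivity) hs1
    have h2 : (0 : ℝ) < s := (mul_pos_iff_of_pos_left hδn).1 h1
    exact_mod_cast h2
  -- the centre of the net
  have hpc : ((δ n * ((p.1 : ℝ) + p.2 / 2), δ n * ((p.2 : ℝ) * (√3 / 2))) : ℝ × ℝ) ∈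
      Metric.closedBall (0 : ℝ × ℝ) (2 * R) := centre_mem hR.le hp1 hp2
  obtain ⟨z, hzT, hzd⟩ := Set.mem_iUnion₂.1 (hTc hpc)
  rw [Metric.mem_ball, dist_eq_norm, Prod.norm_def, max_lt_iff, Real.norm_eq_abs,
    Real.norm_eq_abs] at hzd
  simp only [Prod.fst_sub, Prod.snd_sub] at hzd
  obtain ⟨e1, e2, e3⟩ := hn z hzT
  obtain ⟨d1, d2⟩ := hclose (δ n) hδn f2
  have hiz : ∀ w : ℝ × ℝ, (2 * R + 1 < |w.1| ∨ 2 * R + 1 < |w.2|) → i z w = 0 := by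
    intro w hw
    by_contra hne
    obtain ⟨h1, h2⟩ := hiR z hzT w hne
    rcases hw with h | h <;> linarith
  have e1' := e1 0
  have e2' := e2 0
  rw [mv_zero] at e1' e2'
  have hmk : massT (HW (δ n) f) ^ (2 * k) ≤ (8 * R ^ 2 + 1) ^ k * W ^ k :=
    mass_pow_le hCf hδn f2 d1 hcs hq0 hε.le f3
  refine (mm_point hP hR1 (by rw [hρ]; field_simp) hδn f2 f1 hfS (hi z) ho (hi1 z) ho1 (his z)
    hiz hos hC (hc0 z) (hBo0 z) hW0.le hCf d1 d2 e1' e2' (e3.trans (by linarith)) hp1 hs1 hs2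
    hzd.1.le hzd.2.le).trans ?_
  have h5 : A z ≤ ∑ z ∈ hTf.toFinset, A z :=
    Finset.single_le_sum (f := A) (fun z _ => hA0 z) (hTf.mem_toFinset.2 hzT)
  exact final_le hW0.le (hBo0 z) hmk h5

end Vale.Agent.P153.F.X
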