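import Vale.Agent.P153.F.X.MomW

/-!
# P153-F, block X: the moments near a circuit at level `0`, uniformly in the scale (`S_mom`)
-/

namespace Vale.Agent.P153.F.X

open Filter Topology Set MeasureTheory
open Vale.Agent.P153
open Vale.Agent.P153.F.Top (Om Cone Pol Alg ze cone_ze_nonneg s_mono)
open Vale.Agent.P153.GFF (smear box pos ker Test Plane SpecOut ker_eq_zero ker_nonneg integral_ker
  integrable_ker g3wt_int)

/-! ### Linear functionals -/

/-- `∑ u(v) ω(v)`. -/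
noncomputable def LU (u : Pt →₀ ℝ) (ω : Om) : ℝ := u.sum fun v a => a * ω v

lemma LU_add (u d : Pt →₀ ℝ) (ω : Om) : LU (u + d) ω = LU u ω + LU d ω := by
  unfold LU
  rw [Finsupp.sum_add_index' (fun _ => by simp) (fun _ _ _ => by ring)]

lemma LU_vm (u : Pt →₀ ℝ) (h : Hg) : LU u (vm h) = evT u h := rfl

lemma pol_LU_mul {Q : ℝ → Prop} {u : Pt →₀ ℝ} (hu : ∀ v, Q (u v)) {g : Om → ℝ}
    (hg : Pol Q g) : Pol Q (fun ω => LU u ω * g ω) := by
  refine (Pol.sum u.support (fun v ω => u v * (ω v * g ω))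
    fun v _ => (hg.cons v).smul _ (hu v)).of_eq fun ω => ?_
  unfold LU Finsupp.sum
  rw [Finset.sum_mul]
  exact Finset.sum_congr rfl fun v _ => by ring

lemma pol_LU_pow {Q : ℝ → Prop} {u : Pt →₀ ℝ} (hu : ∀ v, Q (u v)) (n : ℕ) :
    Pol Q (fun ω => LU u ω ^ n) := by
  induction n with
  | zero => exact Pol.one.of_eq fun ω => by simp
  | succ n ih => exact (pol_LU_mul hu ih).of_eq fun ω => by ring

lemma cone_diff {u d : Pt →₀ ℝ} (hu : ∀ v, 0 ≤ u v) (hd : ∀ v, 0 ≤ d v) (n : ℕ) :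
    Cone (fun ω => LU (u + d) ω ^ n - LU u ω ^ n) := by
  induction n with
  | zero => exact Pol.zero.of_eq fun ω => by simp
  | succ n ih =>
    refine ((pol_LU_mul (u := u + d) (fun v => add_nonneg (hu v) (hd v)) ih).add
      (pol_LU_mul hd (pol_LU_pow hu n))).of_eq fun ω => ?_
    rw [LU_add]
    ring

/-- Positivity. -/
lemma II_nonneg {P : Measure (Pt → ℤ)} (hlow : S_low P)
    {Θ : Set Pt → ℝ} (hΘ : Fn Set.univ Θ) {A : Om → ℝ} (hA : Cone A) : 0 ≤ II P Θ A := by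
  have hF : (tE (((∅ : Finset Pt) : Set Pt)))ᶜ = Set.univ := by
    ext w
    simp [tE]
  have h1 := hlow ∅ Θ A (by rw [hF]; exact hΘ) hA
  refine le_trans (mul_nonneg ?_ ?_) h1
  · exact cone_ze_nonneg s_mono ∅ hA
  · unfold II
    refine integral_nonneg fun x => ?_
    simp only [mul_one]
    exact hΘ.nonneg _

/-- Monotonicity in the weights. -/
lemma II_mono {P : Measure (Pt → ℤ)} (hlow : S_low P)
    (hint : S_int P) {Θ : Set Pt → ℝ} (hΘ : Fn Set.univ Θ) {u u' : Pt →₀ ℝ}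
    (hu : ∀ v, 0 ≤ u v) (huu : ∀ v, u v ≤ u' v) (n : ℕ) :
    II P Θ (fun ω => LU u ω ^ n) ≤ II P Θ (fun ω => LU u' ω ^ n) := by
  have e : u' = u + (u' - u) := by abel
  have hd : ∀ v, 0 ≤ (u' - u) v := fun v => by
    rw [Finsupp.sub_apply]; linarith [huu v]
  have h1 := II_nonneg hlow hΘ (cone_diff hu hd n)
  rw [← e] at h1
  have i1 := hint Θ _ hΘ.loc hΘ.pin (pol_LU_pow (Q := fun _ => True) (u := u) (fun _ => trivial) n)
  have i2 := hint Θ _ hΘ.loc hΘ.pin (pol_LU_pow (Q := fun _ => True) (u := u') (fun _ => trivial) n)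
  have e2 : II P Θ (fun ω => LU u' ω ^ n - LU u ω ^ n) =
      II P Θ (fun ω => LU u' ω ^ n) - II P Θ (fun ω => LU u ω ^ n) := by
    unfold II
    rw [← integral_sub i2 i1]
    congr 1
    funext x
    ring
  rw [e2] at h1
  linarith

lemma WT_smul {f : ℝ × ℝ → ℝ} (cf : HasCompactSupport f) {δ : ℝ} (hδ : 0 < δ) (c : ℝ) :
    WT δ (fun x => c * f x) = c • WT δ f := by
  have cf' : HasCompactSupport fun x => c * f x := cf.mul_left
  ext v
  rw [Finsupp.smul_apply, WT_apply cf' hδ, WT_apply cf hδ, smul_eq_mul]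
  unfold GFF.wt
  have h1 : ∫ u : ℝ × ℝ, ker u * (c * f (δ • (u + pos v))) =
      c * ∫ u : ℝ × ℝ, ker u * f (δ • (u + pos v)) := by
    rw [← integral_const_mul]
    congr 1
    funext w
    ring
  rw [h1]
  ring

lemma mv_smul (p : Pt) (c : ℝ) (w : Pt →₀ ℝ) : mv p (c • w) = c • mv p w := by
  ext v
  rw [Finsupp.smul_apply, mv_apply, mv_apply, Finsupp.smul_apply]

/-- The weights where the function is constant. -/
lemma WT_const {f : ℝ × ℝ → ℝ} (cf : HasCompactSupport f) {δ c : ℝ} (hδ : 0 < δ) {v : Pt}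
    (h : ∀ u : ℝ × ℝ, |u.1| ≤ 2 → |u.2| ≤ 1 → f (δ • (u + pos v)) = c) :
    WT δ f v = δ ^ 2 * (c * (√3 / 2)) := by
  rw [WT_apply cf hδ]
  unfold GFF.wt
  congr 1
  rw [← integral_ker, ← integral_const_mul]
  congr 1
  funext u
  by_cases hk : ker u = 0
  · rw [hk, zero_mul, mul_zero]
  · have h1 : ¬(2 < |u.1| ∨ 1 < |u.2|) := fun h => hk (ker_eq_zero h)
    rw [not_or, not_lt, not_lt] at h1
    rw [h u h1.1 h1.2, mul_comm]

lemma WT_nonneg {f : ℝ × ℝ → ℝ} (cf : HasCompactSupport f) {δ : ℝ} (hδ : 0 < δ)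
    (h : ∀ z, 0 ≤ f z) (v : Pt) : 0 ≤ WT δ f v := by
  rw [WT_apply cf hδ]
  unfold GFF.wt
  exact mul_nonneg (sq_nonneg _) (integral_nonneg fun u => mul_nonneg (ker_nonneg _) (h _))

lemma sq3 : (1 : ℝ) ≤ √3 ∧ √3 ≤ 2 := by
  constructor
  · rw [Real.one_le_sqrt]
    norm_num
  · rw [Real.sqrt_le_left (by norm_num)]
    norm_num

/-- Inner weights are in the box. -/
lemma WT_in {f : ℝ × ℝ → ℝ} (cf : HasCompactSupport f) {s : ℤ} (hs : 20 ≤ s)
    (hf : ∀ x, f x ≠ 0 → |x.1 - 0| ≤ 1 / 4 ∧ |x.2 - 0| ≤ 1 / 4) {v : Pt}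
    (hv : WT (1 / (s : ℝ)) f v ≠ 0) : v ∈ bx 0 s := by
  have hsR : (20 : ℝ) ≤ s := by exact_mod_cast hs
  have hs0 : (0 : ℝ) < s := by linarith
  obtain ⟨u, h1, h2, h3⟩ := WT_ne cf (by positivity) hv
  obtain ⟨h4, h5⟩ := hf _ h3
  simp only [Prod.smul_fst, Prod.smul_snd, Prod.fst_add, Prod.snd_add, pos, smul_eq_mul,
    sub_zero] at h4 h5
  have h6 : |(v.2 : ℝ) * (√3 / 2)| ≤ s / 4 + 1 := by
    have e : |(1 / (s : ℝ)) * (u.2 + v.2 * (√3 / 2))| * s = |u.2 + v.2 * (√3 / 2)| := by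
      rw [abs_mul, abs_of_pos (by positivity : (0 : ℝ) < 1 / s)]
      field_simp
    have h7 : |u.2 + v.2 * (√3 / 2)| ≤ s / 4 := by
      rw [← e]
      nlinarith
    have h8 := abs_sub (u.2 + v.2 * (√3 / 2)) u.2
    rw [add_sub_cancel_left] at h8
    linarith
  have h7 : |(v.2 : ℝ)| ≤ s / 2 + 2 := by
    rw [abs_mul, abs_of_pos (by positivity : (0 : ℝ) < √3 / 2)] at h6
    nlinarith [sq3.1, abs_nonneg (v.2 : ℝ)]
  have h8 : |(v.1 : ℝ) + v.2 / 2| ≤ s / 4 + 2 := by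
    have e : |(1 / (s : ℝ)) * (u.1 + (v.1 + v.2 / 2))| * s = |u.1 + (v.1 + v.2 / 2)| := by
      rw [abs_mul, abs_of_pos (by positivity : (0 : ℝ) < 1 / s)]
      field_simp
    have h9 : |u.1 + ((v.1 : ℝ) + v.2 / 2)| ≤ s / 4 := by
      rw [← e]
      nlinarith
    have h10 := abs_sub (u.1 + ((v.1 : ℝ) + v.2 / 2)) u.1
    rw [add_sub_cancel_left] at h10
    linarith
  have h9 : |(v.1 : ℝ)| ≤ s := by
    have h10 := abs_sub ((v.1 : ℝ) + v.2 / 2) (v.2 / 2)
    rw [add_sub_cancel_right, abs_div, abs_two] at h10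
    linarith
  have h10 : |(v.2 : ℝ)| ≤ s := by linarith
  have h11 : |v.1| ≤ s := by exact_mod_cast h9
  have h12 : |v.2| ≤ s := by exact_mod_cast h10
  exact ⟨by simpa using h11, by simpa using h12⟩

/-- Outer weights are outside of the double box. -/
lemma WT_out {f : ℝ × ℝ → ℝ} (cf : HasCompactSupport f) {s : ℤ} (hs : 20 ≤ s)
    (hf : ∀ x, f x ≠ 0 → |x.1 - 4| ≤ 1 / 4 ∧ |x.2 - 0| ≤ 1 / 4) {v : Pt}
    (hv : WT (1 / (s : ℝ)) f v ≠ 0) : v ∉ bx 0 (2 * s) := by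
  have hsR : (20 : ℝ) ≤ s := by exact_mod_cast hs
  have hs0 : (0 : ℝ) < s := by linarith
  obtain ⟨u, h1, h2, h3⟩ := WT_ne cf (by positivity) hv
  obtain ⟨h4, h5⟩ := hf _ h3
  simp only [Prod.smul_fst, Prod.smul_snd, Prod.fst_add, Prod.snd_add, pos, smul_eq_mul,
    sub_zero] at h4 h5
  have h6 : |(v.2 : ℝ) * (√3 / 2)| ≤ s / 4 + 1 := by
    have e : |(1 / (s : ℝ)) * (u.2 + v.2 * (√3 / 2))| * s = |u.2 + v.2 * (√3 / 2)| := by
      rw [abs_mul, abs_of_pos (by positivity : (0 : ℝ) < 1 / s)]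
      field_simp
    have h7 : |u.2 + v.2 * (√3 / 2)| ≤ s / 4 := by
      rw [← e]
      nlinarith
    have h8 := abs_sub (u.2 + v.2 * (√3 / 2)) u.2
    rw [add_sub_cancel_left] at h8
    linarith
  have h7 : |(v.2 : ℝ)| ≤ s / 2 + 2 := by
    rw [abs_mul, abs_of_pos (by positivity : (0 : ℝ) < √3 / 2)] at h6
    nlinarith [sq3.1, abs_nonneg (v.2 : ℝ)]
  have h8 : 4 * (s : ℝ) - s / 4 - 2 ≤ (v.1 : ℝ) + v.2 / 2 := by
    have h9 := (abs_le.1 h4).1
    have h10 : (4 - 1 / 4 : ℝ) ≤ (1 / (s : ℝ)) * (u.1 + (v.1 + v.2 / 2)) := by linarith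
    have h11 : (4 - 1 / 4 : ℝ) * s ≤ u.1 + (v.1 + v.2 / 2) := by
      have := mul_le_mul_of_nonneg_right h10 hs0.le
      have e : (1 / (s : ℝ)) * (u.1 + (v.1 + v.2 / 2)) * s = u.1 + (v.1 + v.2 / 2) := by
        field_simp
      rw [e] at this
      exact this
    have h12 := (abs_le.1 h1).2
    linarith
  intro hmem
  have h9 : |v.1 - 0| ≤ 2 * s := hmem.1
  rw [sub_zero] at h9
  have h10 : ((v.1 : ℤ) : ℝ) ≤ 2 * s := by
    have := (abs_le.1 h9).2
    exact_mod_cast this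
  have h11 := (abs_le.1 h7).2
  linarith

/-- **MOM**, the statement of `X/Stmt.lean`. -/
theorem s_mom {P : Measure (Pt → ℤ)} {κ : ℝ} (hP : Plane P) (hS : SpecOut P κ)
    (hlow : S_low P) (hint : S_int P) : S_mom P := by
  intro K k hK
  have := hP.prob
  -- the bumps
  obtain ⟨β, hβ⟩ : ∃ β : ContDiffBump (0 : ℝ × ℝ), β.rIn = 2 * K + 2 ∧ β.rOut = 2 * K + 3 :=
    ⟨⟨2 * K + 2, 2 * K + 3, by linarith, by linarith⟩, rfl, rfl⟩
  obtain ⟨i, hi, hi1, his⟩ := exists_bump (0 : ℝ × ℝ) (ρ := 1 / 4) (by norm_num)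
  obtain ⟨o, ho, ho1, hos⟩ := exists_bump ((4, 0) : ℝ × ℝ) (ρ := 1 / 4) (by norm_num)
  set φ : ℝ × ℝ → ℝ := fun x => 2 * K * β x with hφ
  have hφS : Smo φ := ⟨contDiff_const.mul β.contDiff, β.hasCompactSupport.mul_left⟩
  set I : ℝ := ∫ x, φ x with hI
  have hf1 : Smo fun x => φ x - I * i x := hφS.sub (hi.mul I)
  have hf2 : Smo fun x => i x - o x := hi.sub ho
  have z1 : ∫ x, (φ x - I * i x) = 0 := by
    have hIi : ∫ x, I * i x = I := by rw [integral_const_mul, hi1, mul_one]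
    rw [integral_sub hφS.int (hi.mul I).int, hIi, hI, sub_self]
  have z2 : ∫ x, (i x - o x) = 0 := by
    rw [integral_sub hi.int ho.int, hi1, ho1, sub_self]
  set R : ℝ := 2 * K + 10 with hR
  have iR : ∀ x, i x ≠ 0 → |x.1| ≤ 1 ∧ |x.2| ≤ 1 := by
    intro x hx
    obtain ⟨h1, h2⟩ := his x hx
    simp only [Prod.fst_zero, Prod.snd_zero, sub_zero] at h1 h2
    constructor <;> linarith
  have oR : ∀ x, o x ≠ 0 → |x.1| ≤ 5 ∧ |x.2| ≤ 1 := by
    intro x hx
    obtain ⟨h1, h2⟩ := hos x hx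
    simp only [sub_zero] at h1 h2
    have h3 := abs_sub_abs_le_abs_sub x.1 4
    rw [abs_of_pos (by norm_num : (0 : ℝ) < 4)] at h3
    constructor <;> linarith
  have s1 : ∀ x, φ x - I * i x ≠ 0 → |x.1| ≤ R ∧ |x.2| ≤ R := by
    intro x hx
    by_cases h1 : φ x = 0
    · have h2 : i x ≠ 0 := by
        intro h
        apply hx
        rw [h1, h, mul_zero, sub_zero]
      obtain ⟨h3, h4⟩ := iR x h2
      constructor <;> linarith
    · have h2 : β x ≠ 0 := right_ne_zero_of_mul h1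
      have h3 : x ∈ Function.support β := h2
      rw [β.support_eq, hβ.2, mem_ball_zero_iff, Prod.norm_def, max_lt_iff, Real.norm_eq_abs,
        Real.norm_eq_abs] at h3
      constructor <;> linarith [h3.1, h3.2]
  have s2 : ∀ x, i x - o x ≠ 0 → |x.1| ≤ R ∧ |x.2| ≤ R := by
    intro x hx
    by_cases h1 : i x = 0
    · have h2 : o x ≠ 0 := by
        intro h
        apply hx
        rw [h1, h, sub_zero]
      obtain ⟨h3, h4⟩ := oR x h2
      constructor <;> linarith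
    · obtain ⟨h3, h4⟩ := iR x h1
      constructor <;> linarith
  obtain ⟨C, hC, hneu⟩ := neutral_mv hP hS (R := R) (by linarith) k
  have e1 := hneu _ hf1 z1 s1 1 one_pos
  have e2 := hneu _ hf2 z2 s2 1 one_pos
  set B1 : ℝ := C * ((∫ z, (φ z - I * i z) ^ 2) + 1) ^ k with hB1
  set B2 : ℝ := C * ((∫ z, (i z - o z) ^ 2) + 1) ^ k with hB2
  have hB10 : 0 ≤ B1 := by
    have : 0 ≤ ∫ z, (φ z - I * i z) ^ 2 := integral_nonneg fun z => sq_nonneg _
    positivity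
  have hB20 : 0 ≤ B2 := by
    have : 0 ≤ ∫ z, (i z - o z) ^ 2 := integral_nonneg fun z => sq_nonneg _
    positivity
  have hlim : Tendsto (fun s : ℤ => 1 / (s : ℝ)) atTop (𝓝[>] 0) := by
    rw [tendsto_nhdsWithin_iff]
    constructor
    · exact tendsto_const_nhds.div_atTop tendsto_intCast_atTop_atTop
    · filter_upwards [eventually_gt_atTop 0] with s hs
      have : (0 : ℝ) < s := by exact_mod_cast hs
      exact Set.mem_Ioi.2 (by positivity)
  obtain ⟨s₀, hs₀⟩ := eventually_atTop.1 ((hlim.eventually e1).and (hlim.eventually e2))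
  have hI2 : 0 ≤ I ^ (2 * k) := Even.pow_nonneg (even_two_mul k) _
  refine ⟨2 ^ (2 * k) * (3 * B1 + I ^ (2 * k) * (3 * B2)), max s₀ 20,
    le_trans (by norm_num) (le_max_right _ _), fun s hs p u hu1 hu2 => ?_⟩
  obtain ⟨a1, a2⟩ := hs₀ s ((le_max_left _ _).trans hs)
  have hs20 : 20 ≤ s := (le_max_right _ _).trans hs
  have hs1 : 1 ≤ s := by omega
  have hsR : (20 : ℝ) ≤ s := by exact_mod_cast hs20
  have hδ0 : (0 : ℝ) < 1 / s := by positivity
  have hΘ : Fn Set.univ (ind (Zr p s)) := by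
    have h1 := (s_loc p s hs1).2
    exact ⟨h1.nonneg, by
      obtain ⟨Λ, h2, h3⟩ := h1.loc
      exact ⟨Λ, fun w _ => Set.mem_univ _, h3⟩, h1.pin⟩
  have hβ0 : ∀ x, 0 ≤ φ x := fun x => by
    rw [hφ]
    have := β.nonneg (x := x)
    positivity
  have hdom : ∀ v, u v ≤ mv p (WT (1 / (s : ℝ)) φ) v := by
    intro v
    rw [mv_apply]
    by_cases hv : u v = 0
    · rw [hv]
      exact WT_nonneg hφS.2 hδ0 hβ0 _
    · obtain ⟨k1, k2⟩ := hu2 v hv
      rw [WT_const hφS.2 hδ0 (c := 2 * K) (fun w hw1 hw2 => ?_)]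
      · refine (hu1 v).2.trans ?_
        have e : (1 / (s : ℝ)) ^ 2 * (2 * K * (√3 / 2)) = √3 * (K / (s : ℝ) ^ 2) := by
          field_simp
        rw [e]
        have : 0 ≤ K / (s : ℝ) ^ 2 := by positivity
        nlinarith [sq3.1]
      · have h1 : β ((1 / (s : ℝ)) • (w + pos (v - p))) = 1 := by
          apply β.one_of_mem_closedBall
          rw [mem_closedBall_zero_iff, hβ.1, norm_smul, Real.norm_eq_abs, abs_of_pos hδ0,
            one_div, inv_mul_le_iff₀ (by linarith)]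
          refine (norm_add_le _ _).trans ?_
          have n1 : ‖w‖ ≤ 2 := by
            rw [Prod.norm_def, max_le_iff, Real.norm_eq_abs, Real.norm_eq_abs]
            exact ⟨hw1, by linarith⟩
          have n2 : ‖pos (v - p)‖ ≤ 3 / 2 * (K * s) := by
            rw [Prod.norm_def, max_le_iff, Real.norm_eq_abs, Real.norm_eq_abs]
            unfold pos
            simp only [Prod.fst_sub, Prod.snd_sub]
            constructor
            · refine (abs_add_le _ _).trans ?_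
              rw [abs_div, abs_two]
              linarith
            · rw [abs_mul, abs_of_pos (by positivity : (0 : ℝ) < √3 / 2)]
              nlinarith [sq3.2, abs_nonneg ((v.2 - p.2 : ℤ) : ℝ)]
          nlinarith
        rw [hφ]
        simp only
        rw [h1, mul_one]
  refine (II_mono hlow hint hΘ (fun v => (hu1 v).1) hdom (2 * k)).trans ?_
  refine II_le hs1 (fun ω => Even.pow_nonneg (even_two_mul k) _) (by positivity) ?_
  simp only [LU_vm]
  have q1 : mv p (WT (1 / (s : ℝ)) fun x => φ x - I * i x) =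
      mv p (WT (1 / (s : ℝ)) φ) - I • mv p (WT (1 / (s : ℝ)) i) := by
    rw [WT_sub hφS (hi.mul I) hδ0, mv_sub, WT_smul hi.2 hδ0, mv_smul]
  have q2 : mv p (WT (1 / (s : ℝ)) fun x => i x - o x) =
      mv p (WT (1 / (s : ℝ)) i) - mv p (WT (1 / (s : ℝ)) o) := by
    rw [WT_sub hi ho hδ0, mv_sub]
  refine core (Vale.Agent.P153.F.gb_of_plane hP) hs1 (a := mv p (WT (1 / (s : ℝ)) i))
    (b := mv p (WT (1 / (s : ℝ)) o)) (m := I) ?_ ?_ ?_ ?_ k hB10 hB20 ?_ ?_
  · intro v hv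
    rw [Finsupp.mem_support_iff, mv_apply] at hv
    have h1 := WT_in hi.2 hs20 his hv
    have h2 : |(v - p).1 - 0| ≤ s := h1.1
    have h3 : |(v - p).2 - 0| ≤ s := h1.2
    rw [sub_zero] at h2 h3
    exact ⟨h2, h3⟩
  · intro v hv hmem
    rw [Finsupp.mem_support_iff, mv_apply] at hv
    refine WT_out ho.2 hs20 hos hv ?_
    have h2 : |v.1 - p.1| ≤ 2 * s := hmem.1
    have h3 : |v.2 - p.2| ≤ 2 * s := hmem.2
    refine ⟨?_, ?_⟩
    · simpa using h2
    · simpa using h3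
  · rw [← q1, massT_mv, mass_WT hf1 hδ0, z1]
  · rw [← q2, massT_mv, mass_WT hf2 hδ0, z2]
  · rw [← q1]
    exact a1 p
  · rw [← q2]
    exact a2 p

end Vale.Agent.P153.F.X
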