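import Vale.Agent.P153.F.X.Conf

/-!
P153-F, block X (triangular lattice): `S_cnt`. The measure of a union of `n` circuit events at level
0 is at most of order `n ^ (3 / 4)`; the union is decomposed according to the last event which
occurs; the law of the heights is invariant under translations.
-/

namespace Vale.Agent.P153.F.X

open Finset MeasureTheory
open Vale.Agent.P153

/-- Among `m` events there is one such that the measure of its part where none of the later ones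
(from `g` steps later on) occurs is at most `g / m` times the measure of the union. -/
theorem exists_last {Ω : Type*} [MeasurableSpace Ω] {μ : Measure Ω} {Z : ℕ → Set Ω}
    (hZ : ∀ k, MeasurableSet (Z k)) {g : ℕ} (hg : 0 < g) {m n : ℕ} (hm : 0 < m) (hmn : m ≤ n) :
    ∃ k < m, (m : ENNReal) * μ (Z k \ ⋃ j ∈ Set.Ico (k + g) n, Z j) ≤
      g * μ (⋃ j ∈ Set.Iio n, Z j) := by
  classical
  set A : ℕ → Set Ω := fun k => Z k \ ⋃ j ∈ Set.Ico (k + g) n, Z j with hA
  have hAm : ∀ k, MeasurableSet (A k) := fun k =>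
    (hZ k).diff (MeasurableSet.biUnion (Set.to_countable _) fun j _ => hZ j)
  -- the sum over one residue class
  have hcls : ∀ r, ∑ k ∈ (range m).filter (fun k => k % g = r), μ (A k) ≤
      μ (⋃ j ∈ Set.Iio n, Z j) := by
    intro r
    have hdis : Set.PairwiseDisjoint (↑((range m).filter (fun k => k % g = r))) A := by
      have key : ∀ i j, i < j → i % g = r → j % g = r → j < m → Disjoint (A i) (A j) := by
        intro i j hij hi hj hjm
        have hgj : i + g ≤ j := by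
          have h1 := Nat.div_add_mod i g
          have h2 := Nat.div_add_mod j g
          have h3 : i / g < j / g := by
            by_contra h
            have h4 : j / g ≤ i / g := by omega
            have h5 : g * (j / g) ≤ g * (i / g) := Nat.mul_le_mul_left g h4
            omega
          have h4 : g * (i / g + 1) ≤ g * (j / g) := Nat.mul_le_mul_left g h3
          rw [Nat.mul_add, Nat.mul_one] at h4
          omega
        rw [Set.disjoint_left]
        rintro w ⟨-, h1⟩ ⟨h2, -⟩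
        exact h1 (Set.mem_biUnion (show j ∈ Set.Ico (i + g) n from ⟨hgj, by omega⟩) h2)
      intro i hi j hj hij
      rw [Finset.mem_coe, Finset.mem_filter, Finset.mem_range] at hi hj
      rcases lt_or_gt_of_ne hij with h | h
      · exact key i j h hi.2 hj.2 hj.1
      · exact (key j i h hj.2 hi.2 hi.1).symm
    rw [← measure_biUnion_finset hdis fun k _ => hAm k]
    refine measure_mono ?_
    intro w hw
    simp only [Set.mem_iUnion, Finset.mem_filter, Finset.mem_range] at hw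
    obtain ⟨k, hk, h⟩ := hw
    exact Set.mem_biUnion (show k ∈ Set.Iio n from lt_of_lt_of_le hk.1 hmn) h.1
  have hsum : ∑ k ∈ range m, μ (A k) ≤ g * μ (⋃ j ∈ Set.Iio n, Z j) := by
    have h1 : ∑ k ∈ range m, μ (A k) =
        ∑ r ∈ range g, ∑ k ∈ (range m).filter (fun k => k % g = r), μ (A k) := by
      refine (Finset.sum_fiberwise_of_maps_to (fun k _ => ?_) _).symm
      exact Finset.mem_range.2 (Nat.mod_lt k hg)
    rw [h1]
    calc _ ≤ ∑ _r ∈ range g, μ (⋃ j ∈ Set.Iio n, Z j) := Finset.sum_le_sum fun r _ => hcls r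
      _ = _ := by rw [Finset.sum_const, Finset.card_range, nsmul_eq_mul]
  obtain ⟨k, hk, hmin⟩ := Finset.exists_min_image (range m) (fun k => μ (A k))
    ⟨0, Finset.mem_range.2 hm⟩
  refine ⟨k, Finset.mem_range.1 hk, le_trans ?_ hsum⟩
  calc (m : ENNReal) * μ (A k) = ∑ _j ∈ range m, μ (A k) := by
        rw [Finset.sum_const, Finset.card_range, nsmul_eq_mul]
    _ ≤ ∑ j ∈ range m, μ (A j) := Finset.sum_le_sum hmin

/-- The measure of a union of `n` events on which the fourth moment of `A` is at most `C n ^ 2`. -/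
theorem union_le {Ω : Type*} [MeasurableSpace Ω] {μ : Measure Ω} {A : Ω → ℝ} (hA : Measurable A)
    {Z : ℕ → Set Ω} {n : ℕ} {C : ℝ} (hC : 0 ≤ C)
    (hmom : ∀ j < n, ∫⁻ x in Z j, ENNReal.ofReal (A x ^ 4) ∂μ ≤ ENNReal.ofReal (C * n ^ 2))
    {M : ℝ} (hM : 0 < M) (hMn : (n : ℝ) ^ 3 ≤ M ^ 4)
    (hcount : μ {x | |A x| ≤ M} ≤ ENNReal.ofReal (M + 1)) :
    μ (⋃ j ∈ Set.Iio n, Z j) ≤ ENNReal.ofReal (M + 1 + C) := by
  have hM4 : 0 < M ^ 4 := by positivity
  have h1 : (⋃ j ∈ Set.Iio n, Z j) ⊆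
      {x | |A x| ≤ M} ∪ ⋃ j ∈ range n, (Z j ∩ {x | ENNReal.ofReal (M ^ 4) ≤ ENNReal.ofReal (A x ^ 4)}) := by
    intro x hx
    simp only [Set.mem_iUnion, Set.mem_Iio] at hx
    obtain ⟨j, hj, hxj⟩ := hx
    rcases le_or_gt (|A x|) M with h | h
    · exact Or.inl h
    · refine Or.inr (Set.mem_biUnion (Finset.mem_coe.2 (Finset.mem_range.2 hj)) ⟨hxj, ?_⟩)
      refine ENNReal.ofReal_le_ofReal ?_
      have h2 : A x ^ 4 = |A x| ^ 4 := (Even.pow_abs (by decide) (A x)).symm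
      rw [h2]
      exact pow_le_pow_left₀ hM.le h.le 4
  have h2 : ∀ j < n, μ (Z j ∩ {x | ENNReal.ofReal (M ^ 4) ≤ ENNReal.ofReal (A x ^ 4)}) ≤
      ENNReal.ofReal (C * n ^ 2 / M ^ 4) := by
    intro j hj
    have h3 := mul_meas_ge_le_lintegral (μ := μ.restrict (Z j))
      (f := fun x => ENNReal.ofReal (A x ^ 4)) (hA.pow_const 4).ennreal_ofReal
      (ENNReal.ofReal (M ^ 4))
    have h4 : MeasurableSet {x | ENNReal.ofReal (M ^ 4) ≤ ENNReal.ofReal (A x ^ 4)} :=
      measurableSet_le measurable_const (hA.pow_const 4).ennreal_ofReal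
    rw [Measure.restrict_apply h4] at h3
    have h5 := h3.trans (hmom j hj)
    rw [Set.inter_comm, ENNReal.ofReal_div_of_pos hM4, ENNReal.le_div_iff_mul_le
      (Or.inl (by simpa using hM4)) (Or.inl ENNReal.ofReal_ne_top), mul_comm]
    exact h5
  calc μ (⋃ j ∈ Set.Iio n, Z j)
      ≤ μ {x | |A x| ≤ M} + μ (⋃ j ∈ range n, (Z j ∩
        {x | ENNReal.ofReal (M ^ 4) ≤ ENNReal.ofReal (A x ^ 4)})) :=
        (measure_mono h1).trans (measure_union_le _ _)
    _ ≤ ENNReal.ofReal (M + 1) + ∑ j ∈ range n, μ (Z j ∩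
        {x | ENNReal.ofReal (M ^ 4) ≤ ENNReal.ofReal (A x ^ 4)}) :=
        add_le_add hcount (measure_biUnion_finset_le _ _)
    _ ≤ ENNReal.ofReal (M + 1) + ∑ _j ∈ range n, ENNReal.ofReal (C * n ^ 2 / M ^ 4) :=
        add_le_add le_rfl (Finset.sum_le_sum fun j hj => h2 j (Finset.mem_range.1 hj))
    _ ≤ ENNReal.ofReal (M + 1) + ENNReal.ofReal C := by
        refine add_le_add le_rfl ?_
        rw [Finset.sum_const, Finset.card_range, nsmul_eq_mul, ← ENNReal.ofReal_natCast,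
          ← ENNReal.ofReal_mul (Nat.cast_nonneg n)]
        refine ENNReal.ofReal_le_ofReal ?_
        have e : (n : ℝ) * (C * n ^ 2 / M ^ 4) = C * (n ^ 3 / M ^ 4) := by ring
        rw [e]
        have h6 : (n : ℝ) ^ 3 / M ^ 4 ≤ 1 := (div_le_one hM4).2 hMn
        calc C * ((n : ℝ) ^ 3 / M ^ 4) ≤ C * 1 := mul_le_mul_of_nonneg_left h6 hC
          _ = C := mul_one C
    _ = ENNReal.ofReal (M + 1 + C) := (ENNReal.ofReal_add (by linarith) hC).symm

theorem tsum_two_le {c M : ℝ} (hM : 0 ≤ M) :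
    ∑' k : ℤ, (if |c + 2 * k| ≤ M then (1 : ENNReal) else 0) ≤ ENNReal.ofReal (M + 1) := by
  have hsub : ∀ k : ℤ, k ∉ Finset.Icc ⌈(-M - c) / 2⌉ ⌊(M - c) / 2⌋ →
      (if |c + 2 * (k : ℝ)| ≤ M then (1 : ENNReal) else 0) = 0 := by
    intro k hk
    refine if_neg fun h => hk ?_
    have h1 := abs_le.1 h
    rw [Finset.mem_Icc]
    exact ⟨Int.ceil_le.2 (by linarith [h1.1]), Int.le_floor.2 (by linarith [h1.2])⟩
  rw [tsum_eq_sum hsub]
  calc ∑ k ∈ Finset.Icc ⌈(-M - c) / 2⌉ ⌊(M - c) / 2⌋,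
        (if |c + 2 * (k : ℝ)| ≤ M then (1 : ENNReal) else 0)
      ≤ ∑ _k ∈ Finset.Icc ⌈(-M - c) / 2⌉ ⌊(M - c) / 2⌋, (1 : ENNReal) :=
        Finset.sum_le_sum fun k _ => by split_ifs <;> simp
    _ = ((Finset.Icc ⌈(-M - c) / 2⌉ ⌊(M - c) / 2⌋).card : ENNReal) := by simp
    _ ≤ ENNReal.ofReal (M + 1) := by
        rw [← ENNReal.ofReal_natCast]
        refine ENNReal.ofReal_le_ofReal ?_
        rw [Int.card_Icc]
        have h1 := Int.floor_le ((M - c) / 2)
        have h2 := Int.le_ceil ((-M - c) / 2)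
        rcases le_or_gt 0 (⌊(M - c) / 2⌋ + 1 - ⌈(-M - c) / 2⌉) with h | h
        · have h3 : ((⌊(M - c) / 2⌋ + 1 - ⌈(-M - c) / 2⌉).toNat : ℝ) =
              (⌊(M - c) / 2⌋ : ℝ) + 1 - ⌈(-M - c) / 2⌉ := by
            have : (((⌊(M - c) / 2⌋ + 1 - ⌈(-M - c) / 2⌉).toNat : ℤ) : ℝ) =
                ((⌊(M - c) / 2⌋ + 1 - ⌈(-M - c) / 2⌉ : ℤ) : ℝ) := by
              rw [Int.toNat_of_nonneg h]
            push_cast at this
            exact this
          rw [h3]
          linarith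
        · rw [Int.toNat_of_nonpos h.le]
          simp only [Nat.cast_zero]
          linarith

/-! ### The law of the absolute heights -/

theorem lintegral_muT {P : Measure (Pt → ℤ)} {f : Hg → ENNReal} (hf : Measurable f) :
    ∫⁻ h, f h ∂(muT P) = ∫⁻ φ, ∑' k : ℤ, f (odd k φ) ∂P := by
  rw [muT, lintegral_sum_measure]
  refine Eq.trans ?_
    (lintegral_tsum fun k => (hf.comp (measurable_odd k)).aemeasurable).symm
  exact tsum_congr fun k => lintegral_map hf (measurable_odd k)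

/-- The linear functional with weight `w`. -/
noncomputable def evT (w : Pt →₀ ℝ) (h : Hg) : ℝ := w.sum fun v a => a * (h v : ℝ)

/-- The mass of a weight. -/
noncomputable def massT (w : Pt →₀ ℝ) : ℝ := w.sum fun _ a => a

theorem measurable_evT (w : Pt →₀ ℝ) : Measurable (evT w) := by
  unfold evT Finsupp.sum
  refine Finset.measurable_sum _ fun q _ => measurable_const.mul ?_
  exact (measurable_from_top (f := fun z : ℤ => (z : ℝ))).comp (measurable_pi_apply q)

theorem evT_odd (w : Pt →₀ ℝ) (φ : Pt → ℤ) (k : ℤ) :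
    evT w (odd k φ) = evT w (odd 0 φ) + 2 * k * massT w := by
  unfold evT massT
  rw [Finsupp.sum, Finsupp.sum, Finsupp.sum, Finset.mul_sum, ← Finset.sum_add_distrib]
  refine Finset.sum_congr rfl fun q _ => ?_
  unfold odd
  push_cast
  ring

theorem muT_abs_le {P : Measure (Pt → ℤ)} [IsProbabilityMeasure P] {w : Pt →₀ ℝ}
    (hw : massT w = 1) {M : ℝ} (hM : 0 ≤ M) :
    muT P {h | |evT w h| ≤ M} ≤ ENNReal.ofReal (M + 1) := by
  have hs : MeasurableSet {h : Hg | |evT w h| ≤ M} :=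
    measurableSet_le (continuous_abs.measurable.comp (measurable_evT w)) measurable_const
  have h1 : muT P {h | |evT w h| ≤ M} =
      ∫⁻ h, {h : Hg | |evT w h| ≤ M}.indicator 1 h ∂(muT P) := (lintegral_indicator_one hs).symm
  rw [h1, lintegral_muT (measurable_one.indicator hs)]
  calc ∫⁻ φ, ∑' k : ℤ, {h : Hg | |evT w h| ≤ M}.indicator 1 (odd k φ) ∂P
      = ∫⁻ φ, ∑' k : ℤ, (if |evT w (odd 0 φ) + 2 * k| ≤ M then (1 : ENNReal) else 0) ∂P := by
        refine lintegral_congr fun φ => tsum_congr fun k => ?_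
        have e : evT w (odd k φ) = evT w (odd 0 φ) + 2 * k := by rw [evT_odd, hw, mul_one]
        by_cases h : |evT w (odd 0 φ) + 2 * k| ≤ M
        · rw [if_pos h, Set.indicator_of_mem (show odd k φ ∈ {h : Hg | |evT w h| ≤ M} by
            rw [Set.mem_ofPred_eq, e]; exact h)]
          rfl
        · rw [if_neg h, Set.indicator_of_notMem (show odd k φ ∉ {h : Hg | |evT w h| ≤ M} by
            rw [Set.mem_ofPred_eq, e]; exact h)]
    _ ≤ ∫⁻ _φ, ENNReal.ofReal (M + 1) ∂P := lintegral_mono fun φ => tsum_two_le hM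
    _ = ENNReal.ofReal (M + 1) := by rw [lintegral_const, measure_univ, mul_one]

/-- Translation of the heights. -/
def trT (t : Pt) (h : Hg) : Hg := fun x => h (x + t)

theorem measurable_trT (t : Pt) : Measurable (trT t) :=
  measurable_pi_lambda _ fun x => measurable_pi_apply (x + t)

theorem trT_odd (t : Pt) (φ : Pt → ℤ) (k : ℤ) :
    trT t (odd k φ) = odd (k + φ t) (GFF.shift t φ) := by
  funext x
  unfold trT odd GFF.shift
  ring

/-- The law of the absolute heights is invariant under translations. -/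
theorem muT_trT {P : Measure (Pt → ℤ)} (hP : ∀ t, P.map (GFF.shift t) = P) (t : Pt) :
    (muT P).map (trT t) = muT P := by
  have hm : Measurable (GFF.shift t) := measurable_pi_lambda _ fun x =>
    (measurable_pi_apply (x + t)).sub (measurable_pi_apply t)
  ext E hE
  have hi : Measurable (E.indicator (1 : Hg → ENNReal)) := measurable_one.indicator hE
  rw [Measure.map_apply (measurable_trT t) hE, ← lintegral_indicator_one (measurable_trT t hE),
    ← lintegral_indicator_one hE, lintegral_muT hi,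
    lintegral_muT (measurable_one.indicator (measurable_trT t hE))]
  have h1 : ∫⁻ φ, ∑' k : ℤ, E.indicator 1 (odd k φ) ∂P =
      ∫⁻ φ, ∑' k : ℤ, E.indicator 1 (odd k (GFF.shift t φ)) ∂P := by
    conv_lhs => rw [← hP t]
    exact lintegral_map (f := fun φ => ∑' k : ℤ, E.indicator (1 : Hg → ENNReal) (odd k φ))
      (Measurable.ennreal_tsum fun k => hi.comp (measurable_odd k)) hm
  rw [h1]
  refine lintegral_congr fun φ => ?_
  rw [← (Equiv.addRight (φ t)).tsum_eq fun k : ℤ =>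
    E.indicator (1 : Hg → ENNReal) (odd k (GFF.shift t φ))]
  refine tsum_congr fun k => ?_
  rw [Equiv.coe_addRight, ← trT_odd]
  rfl

/-! ### Circuit events -/

theorem meas_mem_bl (w : Pt) : MeasurableSet {h : Hg | w ∈ bl h} := by
  have h1 : ∀ x : Pt, MeasurableSet {h : Hg | |h x| = 1} := fun x => by
    have h2 : MeasurableSet {n : ℤ | |n| = 1} := trivial
    exact (measurable_pi_apply (X := fun _ : Pt => ℤ) x) h2
  have e : {h : Hg | w ∈ bl h} = ⋃ x : Pt, ⋃ y : Pt,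
      {h : Hg | (Adj x y ∧ w = x + y) ∧ (|h x| = 1 ∧ |h y| = 1)} := by
    ext h
    simp only [bl, Set.mem_ofPred_eq, Set.mem_iUnion]
    refine exists_congr fun x => exists_congr fun y => ?_
    tauto
  rw [e]
  refine MeasurableSet.iUnion fun x => MeasurableSet.iUnion fun y => ?_
  by_cases h2 : Adj x y ∧ w = x + y
  · simp only [h2, true_and]
    exact (h1 x).inter (h1 y)
  · have e2 : {h : Hg | (Adj x y ∧ w = x + y) ∧ (|h x| = 1 ∧ |h y| = 1)} = ∅ := by
      ext h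
      simp only [Set.mem_ofPred_eq, Set.mem_empty_iff_false, iff_false]
      exact fun h3 => h2 h3.1
    rw [e2]
    exact MeasurableSet.empty

theorem meas_bl {Q : Set Pt → Prop} {Λ : Finset Pt}
    (hQ : ∀ B B' : Set Pt, (∀ w ∈ Λ, w ∈ B ↔ w ∈ B') → Q B → Q B') :
    MeasurableSet {h : Hg | Q (bl h)} := by
  classical
  have e : {h : Hg | Q (bl h)} = ⋃ T ∈ Λ.powerset.filter fun T : Finset Pt => Q (T : Set Pt),
      {h : Hg | ∀ w ∈ Λ, w ∈ bl h ↔ w ∈ T} := by
    ext h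
    simp only [Set.mem_ofPred_eq, Set.mem_iUnion, Finset.mem_filter, Finset.mem_powerset,
      exists_prop]
    constructor
    · intro h1
      refine ⟨Λ.filter fun w => w ∈ bl h, ⟨Finset.filter_subset _ _, ?_⟩, ?_⟩
      · exact hQ _ _ (fun w hw => by simp [hw]) h1
      · intro w hw
        simp [hw]
    · rintro ⟨T, ⟨-, hT⟩, h1⟩
      exact hQ _ _ (fun w hw => (h1 w hw).symm) hT
  rw [e]
  refine Finset.measurableSet_biUnion _ fun T _ => ?_
  have e2 : {h : Hg | ∀ w ∈ Λ, w ∈ bl h ↔ w ∈ T} = ⋂ w ∈ Λ, {h : Hg | w ∈ bl h ↔ w ∈ T} := by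
    ext h
    simp only [Set.mem_ofPred_eq, Set.mem_iInter]
  rw [e2]
  refine Finset.measurableSet_biInter _ fun w _ => ?_
  by_cases hw : w ∈ T
  · simp only [hw, iff_true]
    exact meas_mem_bl w
  · simp only [hw, iff_false]
    exact (meas_mem_bl w).compl

/-- The event of a circuit at level 0. -/
def ZE (p : Pt) (r : ℤ) : Set Hg := {h | Zr p r (bl h)}

theorem meas_ZE (p : Pt) {r : ℤ} (hr : 1 ≤ r) : MeasurableSet (ZE p r) := by
  classical
  obtain ⟨Λ, _, h2⟩ := (s_loc p r hr).2.loc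
  refine meas_bl (Λ := Λ) fun B B' h hB => ?_
  have h3 := h2 B B' h
  unfold ind at h3
  rw [if_pos hB] at h3
  by_contra hc
  rw [if_neg hc] at h3
  exact one_ne_zero h3

/-- The integral of an indicator is the measure of the event. -/
theorem II_ind {P : Measure (Pt → ℤ)} {Q : Set Pt → Prop}
    (hQ : MeasurableSet {h : Hg | Q (bl h)}) :
    II P (ind Q) (fun _ => 1) = (muT P).real {h | Q (bl h)} := by
  have e : (fun h : Hg => ind Q (bl h) * (fun _ : Top.Om => (1 : ℝ)) (vm h)) =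
      {h : Hg | Q (bl h)}.indicator (fun _ => (1 : ℝ)) := by
    funext h
    by_cases h1 : Q (bl h)
    · have h' : h ∈ {h : Hg | Q (bl h)} := h1
      rw [Set.indicator_of_mem h']
      simp [ind, h1]
    · have h' : h ∉ {h : Hg | Q (bl h)} := h1
      rw [Set.indicator_of_notMem h']
      simp [ind, h1]
  rw [II, e, integral_indicator hQ, setIntegral_const, smul_eq_mul, mul_one]

theorem bl_trT (t : Pt) (h : Hg) : bl (trT t h) = {w | w + (t + t) ∈ bl h} := by
  ext w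
  unfold bl trT
  simp only [Set.mem_ofPred_eq]
  constructor
  · rintro ⟨x, y, h1, rfl, h2, h3⟩
    refine ⟨x + t, y + t, ?_, by abel, h2, h3⟩
    have := RSW.adj_shift t.1 t.2
    rw [Topo.adj_iff] at h1 ⊢
    simp only [Prod.fst_add, Prod.snd_add]
    omega
  · rintro ⟨x, y, h1, h4, h2, h3⟩
    refine ⟨x - t, y - t, ?_, ?_, by simpa using h2, by simpa using h3⟩
    · rw [Topo.adj_iff] at h1 ⊢
      simp only [Prod.fst_sub, Prod.snd_sub]
      omega
    · have : w = (x + y) - (t + t) := by rw [← h4]; abel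
      rw [this]; abel

theorem conn_tr {S : Set Pt} {v x y : Pt} (h : Topo.Conn S x y) :
    Topo.Conn {z | z + v ∈ S} (x - v) (y - v) :=
  RSW.c_map (f := fun z => z - v) (fun a b hab => by
    rw [Topo.adj_iff] at hab ⊢
    simp only [Prod.fst_sub, Prod.snd_sub]
    omega) (fun z hz => by
    show z - v + v ∈ S
    rw [sub_add_cancel]; exact hz) h

theorem Zr_tr {p : Pt} {r : ℤ} {B : Set Pt} (t : Pt) (hZ : Zr p r B) :
    Zr (p - t) r {w | w + (t + t) ∈ B} := by
  have key : ∀ {a b c d : ℤ} {x y : Pt}, Topo.Conn (B ∩ RSW.Mid ∩ RSW.pr a b c d) x y →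
      Topo.Conn ({w | w + (t + t) ∈ B} ∩ RSW.Mid ∩ RSW.pr (a - t.1) (b - t.1) (c - t.2) (d - t.2))
        (x - (t + t)) (y - (t + t)) := by
    intro a b c d x y h
    refine (conn_tr (v := t + t) h).mono ?_
    rintro z ⟨⟨h1, h2⟩, h3⟩
    refine ⟨⟨h1, ?_⟩, ?_⟩
    · have h4 : Odd (z + (t + t)).1 ∨ Odd (z + (t + t)).2 := h2
      show Odd z.1 ∨ Odd z.2
      rw [Prod.fst_add, Prod.snd_add, Prod.fst_add, Prod.snd_add, Int.odd_iff, Int.odd_iff] at h4
      rw [Int.odd_iff, Int.odd_iff]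
      omega
    · rw [RSW.mem_pr] at h3 ⊢
      rw [Prod.fst_add, Prod.snd_add, Prod.fst_add, Prod.snd_add] at h3
      omega
  obtain ⟨⟨a1, b1, h1, h1a, h1b⟩, ⟨a2, b2, h2, h2a, h2b⟩, ⟨a3, b3, h3, h3a, h3b⟩,
    ⟨a4, b4, h4, h4a, h4b⟩⟩ := hZ
  refine ⟨⟨a1 - (t + t), b1 - (t + t), ?_, ?_, ?_⟩, ⟨a2 - (t + t), b2 - (t + t), ?_, ?_, ?_⟩,
    ⟨a3 - (t + t), b3 - (t + t), ?_, ?_, ?_⟩, ⟨a4 - (t + t), b4 - (t + t), ?_, ?_, ?_⟩⟩
  · refine (key h1).mono (Set.inter_subset_inter_right _ ?_)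
    intro z hz
    rw [RSW.mem_pr] at hz ⊢
    rw [Prod.fst_sub, Prod.snd_sub]
    omega
  · rw [Prod.fst_sub, Prod.fst_add, Prod.fst_sub]; omega
  · rw [Prod.fst_sub, Prod.fst_add, Prod.fst_sub]; omega
  · refine (key h2).mono (Set.inter_subset_inter_right _ ?_)
    intro z hz
    rw [RSW.mem_pr] at hz ⊢
    rw [Prod.fst_sub, Prod.snd_sub]
    omega
  · rw [Prod.fst_sub, Prod.fst_add, Prod.fst_sub]; omega
  · rw [Prod.fst_sub, Prod.fst_add, Prod.fst_sub]; omega
  · refine (key h3).mono (Set.inter_subset_inter_right _ ?_)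
    intro z hz
    rw [RSW.mem_pr] at hz ⊢
    rw [Prod.fst_sub, Prod.snd_sub]
    omega
  · rw [Prod.snd_sub, Prod.snd_add, Prod.snd_sub]; omega
  · rw [Prod.snd_sub, Prod.snd_add, Prod.snd_sub]; omega
  · refine (key h4).mono (Set.inter_subset_inter_right _ ?_)
    intro z hz
    rw [RSW.mem_pr] at hz ⊢
    rw [Prod.fst_sub, Prod.snd_sub]
    omega
  · rw [Prod.snd_sub, Prod.snd_add, Prod.snd_sub]; omega
  · rw [Prod.snd_sub, Prod.snd_add, Prod.snd_sub]; omega

theorem ZE_tr (p : Pt) (r : ℤ) (h : Hg) : trT p h ∈ ZE 0 r ↔ h ∈ ZE p r := by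
  unfold ZE
  rw [Set.mem_ofPred_eq, Set.mem_ofPred_eq, bl_trT]
  constructor
  · intro h1
    have h2 := Zr_tr (-p) h1
    have e1 : (0 : Pt) - -p = p := by simp
    have e2 : {w : Pt | w + (-p + -p) ∈ {w : Pt | w + (p + p) ∈ bl h}} = bl h := by
      ext w
      simp only [Set.mem_ofPred_eq]
      have : w + (-p + -p) + (p + p) = w := by abel
      rw [this]
    rw [e1, e2] at h2
    exact h2
  · intro h1
    have h2 := Zr_tr p h1
    rw [sub_self] at h2
    exact h2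

/-- There is a circuit at scale `4 ^ k * s` and none at the scales from `k + 4` on. -/
def ZD (s : ℤ) (k n : ℕ) (p : Pt) : Set Hg :=
  ZE p (4 ^ k * s) \ ⋃ j ∈ Set.Ico (k + 4) n, ZE p (4 ^ j * s)

theorem one_le_sc {s : ℤ} (hs : 1 ≤ s) (k : ℕ) : 1 ≤ 4 ^ k * s := by
  have h4 : (1 : ℤ) ≤ 4 ^ k := one_le_pow₀ (by norm_num)
  nlinarith

theorem meas_ZD {s : ℤ} (hs : 1 ≤ s) (k n : ℕ) (p : Pt) : MeasurableSet (ZD s k n p) :=
  (meas_ZE _ (one_le_sc hs k)).diff
    (MeasurableSet.biUnion (Set.to_countable _) fun j _ => meas_ZE _ (one_le_sc hs j))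

/-- The measure does not depend on the centre. -/
theorem muT_ZD {P : Measure (Pt → ℤ)} (hP : ∀ t, P.map (GFF.shift t) = P) {s : ℤ} (hs : 1 ≤ s)
    (k n : ℕ) (p : Pt) : muT P (ZD s k n p) = muT P (ZD s k n 0) := by
  have h1 := muT_trT hP p
  have h2 : trT p ⁻¹' ZD s k n 0 = ZD s k n p := by
    ext x
    simp only [ZD, Set.mem_preimage, Set.mem_sdiff, Set.mem_iUnion, ZE_tr]
  rw [← h2, ← Measure.map_apply (measurable_trT _) (meas_ZD hs _ _ _), h1]

/-! ### Counting -/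

/-- Fourth moments of an average of the heights at scale `s` given a circuit at scale
`4 ^ j * s`. -/
def MomJ (P : Measure (Pt → ℤ)) : Prop :=
  ∃ (w : ℤ → (Pt →₀ ℝ)) (D : ℝ) (s₁ : ℤ), 0 ≤ D ∧ (∀ s, s₁ ≤ s → massT (w s) = 1) ∧
    ∀ j : ℕ, ∃ s₀ : ℤ, ∀ s, s₀ ≤ s →
      ∫⁻ h in ZE 0 (4 ^ j * s), ENNReal.ofReal (evT (w s) h ^ 4) ∂(muT P) ≤
        ENNReal.ofReal (D * (j + 1) ^ 2)

/-- **COUNT.** -/
theorem s_cnt {P : Measure (Pt → ℤ)} [IsProbabilityMeasure P]
    (hP : ∀ t, P.map (GFF.shift t) = P) (hrsw : S_rsw P) (hmom : MomJ P) : S_cnt P := by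
  obtain ⟨c₁, hc₁, r₀, hr₀, hr⟩ := hrsw
  obtain ⟨w, D, s₁, hD, hw, hj⟩ := hmom
  intro η hη N
  -- the number of scales
  obtain ⟨L, hL⟩ := exists_nat_ge (4 * (4 + D) / (η * c₁))
  set K : ℕ := max (max L N) 1 with hK
  have hK1 : 1 ≤ K := le_max_right _ _
  have hKL : (L : ℝ) ≤ K := by exact_mod_cast (le_max_left _ _).trans (le_max_left _ _)
  have hKN : N ≤ K := (le_max_right _ _).trans (le_max_left _ _)
  have hK1' : (1 : ℝ) ≤ K := by exact_mod_cast hK1
  refine ⟨K ^ 4, hKN.trans (Nat.le_self_pow (by norm_num) K), ?_⟩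
  choose S hS using hj
  set n : ℕ := 2 * K ^ 4 + 1 with hn
  obtain ⟨s₂, hs₂⟩ : ∃ s₂ : ℤ, ∀ j < n, S j ≤ s₂ := by
    refine ⟨∑ j ∈ range n, |S j|, fun j hj => (le_abs_self _).trans ?_⟩
    exact Finset.single_le_sum (f := fun j => |S j|) (fun i _ => abs_nonneg _)
      (Finset.mem_range.2 hj)
  refine ⟨max (max r₀ s₁) s₂, hr₀.trans ((le_max_left _ _).trans (le_max_left _ _)),
    fun s hs => ?_⟩
  have h1 : r₀ ≤ s := ((le_max_left _ _).trans (le_max_left _ _)).trans hs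
  have h2 : s₁ ≤ s := ((le_max_right _ _).trans (le_max_left _ _)).trans hs
  have h3 : s₂ ≤ s := (le_max_right _ _).trans hs
  have hs1 : 1 ≤ s := hr₀.trans h1
  have hn1 : (n : ℝ) = 2 * K ^ 4 + 1 := by rw [hn]; push_cast; ring
  have hnm : K ^ 4 ≤ n := by omega
  have hm0 : 0 < K ^ 4 := Nat.pos_of_ne_zero (by positivity)
  have hM : (0 : ℝ) < 3 * (K : ℝ) ^ 3 := by positivity
  have hMn : (n : ℝ) ^ 3 ≤ (3 * (K : ℝ) ^ 3) ^ 4 := by
    have hk : (1 : ℝ) ≤ (K : ℝ) ^ 4 := one_le_pow₀ hK1'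
    have h5 : (n : ℝ) ≤ 3 * (K : ℝ) ^ 4 := by rw [hn1]; linarith
    calc (n : ℝ) ^ 3 ≤ (3 * (K : ℝ) ^ 4) ^ 3 := pow_le_pow_left₀ (Nat.cast_nonneg n) h5 3
      _ = 27 * (K : ℝ) ^ 12 := by ring
      _ ≤ 81 * (K : ℝ) ^ 12 := by
        have : (0 : ℝ) ≤ (K : ℝ) ^ 12 := by positivity
        linarith
      _ = (3 * (K : ℝ) ^ 3) ^ 4 := by ring
  have hb : ∀ j < n, ∫⁻ h in ZE 0 (4 ^ j * s), ENNReal.ofReal (evT (w s) h ^ 4) ∂(muT P) ≤
      ENNReal.ofReal (D * n ^ 2) := by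
    intro j hj
    refine (hS j s ((hs₂ j hj).trans h3)).trans (ENNReal.ofReal_le_ofReal ?_)
    refine mul_le_mul_of_nonneg_left ?_ hD
    refine pow_le_pow_left₀ (by positivity) ?_ 2
    exact_mod_cast hj
  obtain ⟨k, hk, hk2⟩ := exists_last (μ := muT P) (Z := fun j => ZE 0 (4 ^ j * s))
    (fun j => meas_ZE _ (one_le_sc hs1 j)) (g := 4) (by norm_num) hm0 hnm
  have hu := union_le (μ := muT P) (measurable_evT (w s)) hD hb hM hMn
    (muT_abs_le (hw s h2) hM.le)
  have hk3 : muT P (ZD s k n 0) ≤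
      ENNReal.ofReal (4 / (K : ℝ) ^ 4 * (3 * (K : ℝ) ^ 3 + 1 + D)) := by
    have hm' : (0 : ℝ) < (K : ℝ) ^ 4 := by positivity
    have h4 : ENNReal.ofReal (4 / (K : ℝ) ^ 4 * (3 * (K : ℝ) ^ 3 + 1 + D)) =
        ENNReal.ofReal (4 * (3 * (K : ℝ) ^ 3 + 1 + D)) / ((K ^ 4 : ℕ) : ENNReal) := by
      rw [← ENNReal.ofReal_natCast (K ^ 4), Nat.cast_pow, ← ENNReal.ofReal_div_of_pos hm']
      congr 1
      ring
    rw [h4, ENNReal.le_div_iff_mul_le (Or.inl (by simpa using hm0.ne'))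
      (Or.inl (ENNReal.natCast_ne_top _)), mul_comm]
    refine hk2.trans ?_
    have h5 : ENNReal.ofReal (4 * (3 * (K : ℝ) ^ 3 + 1 + D)) =
        ((4 : ℕ) : ENNReal) * ENNReal.ofReal (3 * (K : ℝ) ^ 3 + 1 + D) := by
      rw [ENNReal.ofReal_mul (by norm_num)]
      norm_num
    rw [h5]
    exact mul_le_mul_right hu _
  refine ⟨k, hk, fun p => ?_⟩
  -- the event
  have he : {h : Hg | (fun B => Zr p (4 ^ k * s) B ∧ ∀ i, k + 4 ≤ i → i ≤ 2 * K ^ 4 →
      ¬ Zr p (4 ^ i * s) B) (bl h)} = ZD s k n p := by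
    ext x
    simp only [ZD, ZE, Set.mem_ofPred_eq, Set.mem_sdiff, Set.mem_iUnion, not_exists, Set.mem_Ico]
    refine and_congr_right fun _ => ?_
    constructor
    · intro h i hi
      exact h i hi.1 (by omega)
    · intro h i h5 h6
      exact h i ⟨h5, by omega⟩
  have hme : MeasurableSet {h : Hg | (fun B => Zr p (4 ^ k * s) B ∧ ∀ i, k + 4 ≤ i →
      i ≤ 2 * K ^ 4 → ¬ Zr p (4 ^ i * s) B) (bl h)} := by
    rw [he]; exact meas_ZD hs1 _ _ _
  rw [II_ind hme, he]
  have h6 : (muT P).real (ZD s k n p) ≤ 4 / (K : ℝ) ^ 4 * (3 * (K : ℝ) ^ 3 + 1 + D) := by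
    rw [Measure.real, muT_ZD hP hs1]
    exact ENNReal.toReal_le_of_le_ofReal (by positivity) hk3
  have h7 : 4 / (K : ℝ) ^ 4 * (3 * (K : ℝ) ^ 3 + 1 + D) ≤ η * c₁ := by
    have hk3 : (1 : ℝ) ≤ (K : ℝ) ^ 3 := one_le_pow₀ hK1'
    have h8 : 3 * (K : ℝ) ^ 3 + 1 + D ≤ (4 + D) * (K : ℝ) ^ 3 := by nlinarith
    have h9 : 4 * (4 + D) ≤ η * c₁ * K := by
      have := hL.trans hKL
      rw [div_le_iff₀ (by positivity)] at this
      linarith
    calc 4 / (K : ℝ) ^ 4 * (3 * (K : ℝ) ^ 3 + 1 + D)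
        ≤ 4 / (K : ℝ) ^ 4 * ((4 + D) * (K : ℝ) ^ 3) :=
          mul_le_mul_of_nonneg_left h8 (by positivity)
      _ = 4 * (4 + D) / K := by field_simp
      _ ≤ η * c₁ := by rw [div_le_iff₀ (by positivity)]; exact h9
  have h10 : r₀ ≤ 4 ^ k * s := by
    have h4 : (1 : ℤ) ≤ 4 ^ k := one_le_pow₀ (by norm_num)
    nlinarith
  exact h6.trans (h7.trans (mul_le_mul_of_nonneg_left (hr _ h10 p).1 hη.le))

end Vale.Agent.P153.F.X
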