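import Vale.Agent.P153.F.X.UpS

/-!
P153-F, X-level (mirror of `P145.X.Int`): integrability of local functionals of the blocked edges
and of the heights with respect to `muT P` (the heights are Lipschitz and pinned at a blocked edge).
-/

namespace Vale.Agent.P153.F.X

open Filter Topology Set MeasureTheory
open Vale.Agent.P153
open Vale.Agent.P153.F.Top (Om Cone Pol Alg)

namespace In

open Up (nb mem_nb mem_nb' adj_symm)

/-- Measurability of a set of configurations depending on finitely many heights. -/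
lemma meas_fin {B : Finset Pt} {F : Hg → ℝ} (hF : ∀ h h' : Hg, (∀ x ∈ B, h x = h' x) → F h = F h') :
    Measurable F := by
  classical
  have e : F = (fun r : B → ℤ => F (fun x => if hx : x ∈ B then r ⟨x, hx⟩ else 0)) ∘
      fun h : Hg => fun x : B => h x.1 := by
    funext h
    refine hF _ _ fun x hx => ?_
    rw [dif_pos hx]
  rw [e]
  exact (measurable_of_countable _).comp (measurable_pi_lambda _ fun x => measurable_pi_apply x.1)

lemma bl_congr {h h' : Hg} {w : Pt} (H : ∀ x ∈ nb w, h x = h' x) : w ∈ bl h ↔ w ∈ bl h' := by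
  constructor
  · rintro ⟨x, y, h1, rfl, h3, h4⟩
    refine ⟨x, y, h1, rfl, ?_, ?_⟩
    · rw [← H x (mem_nb h1)]; exact h3
    · rw [← H y (mem_nb' h1)]; exact h4
  · rintro ⟨x, y, h1, rfl, h3, h4⟩
    refine ⟨x, y, h1, rfl, ?_, ?_⟩
    · rw [H x (mem_nb h1)]; exact h3
    · rw [H y (mem_nb' h1)]; exact h4

lemma loc_g {A : Set Pt} {g : Set Pt → ℝ} (hg : LocS A g) :
    ∃ B : Finset Pt, ∀ h h' : Hg, (∀ x ∈ B, h x = h' x) → g (bl h) = g (bl h') := by
  classical
  obtain ⟨Λ, -, hl⟩ := hg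
  exact ⟨Λ.biUnion nb, fun h h' H => hl _ _ fun w hw => bl_congr fun x hx =>
    H x (Finset.mem_biUnion.2 ⟨w, hw, hx⟩)⟩

/-- Measurability of local functions of the blocked edges. -/
lemma meas_g {A : Set Pt} {g : Set Pt → ℝ} (hg : LocS A g) : Measurable fun h : Hg => g (bl h) := by
  obtain ⟨B, hB⟩ := loc_g hg
  exact meas_fin hB

lemma bdd_g {A : Set Pt} {g : Set Pt → ℝ} (hg : LocS A g) :
    ∃ C : ℝ, 0 ≤ C ∧ ∀ B, |g B| ≤ C := by
  classical
  obtain ⟨Λ, -, hl⟩ := hg
  refine ⟨∑ T ∈ Λ.powerset, |g (T : Set Pt)|, Finset.sum_nonneg fun _ _ => abs_nonneg _,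
    fun B => ?_⟩
  have h1 : g B = g ((Λ.filter (fun w => w ∈ B) : Finset Pt) : Set Pt) :=
    hl _ _ fun w hw => by simp [hw]
  rw [h1]
  exact Finset.single_le_sum (f := fun T : Finset Pt => |g (T : Set Pt)|)
    (fun _ _ => abs_nonneg _) (Finset.mem_powerset.2 (Finset.filter_subset _ _))

lemma meas_vm : Measurable vm := measurable_pi_lambda _ fun v =>
  measurable_from_top.comp (measurable_pi_apply v)

lemma meas_alg {A : Om → ℝ} (hA : Alg A) : Measurable A := by
  induction hA with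
  | mon v =>
    induction v with
    | nil => simp
    | cons u v ih =>
      simp only [List.map_cons, List.prod_cons]
      exact (measurable_pi_apply u).mul ih
  | zero => exact measurable_const
  | add _ _ h1 h2 => exact h1.add h2
  | smul c _ _ h => exact h.const_mul c

/-- The heights along a horizontal path. -/
lemma lip_hor {h : Hg} (hh : Lip h) (x y : Pt) (e : x.2 = y.2) :
    |h x - h y| ≤ 2 * |x.1 - y.1| := by
  have key : ∀ (n : ℕ) (v : Pt), |h v - h (v.1 + (n : ℤ), v.2)| ≤ 2 * n := fun n v =>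
    lip_path hh v n
  rcases le_total x.1 y.1 with h1 | h1
  · obtain ⟨n, hn⟩ := Int.le.dest h1
    have h2 := key n x
    have h3 : ((x.1 + (n : ℤ), x.2) : Pt) = y := Prod.ext hn e
    rw [h3] at h2
    have h4 : |x.1 - y.1| = (n : ℤ) := by
      rw [← hn, sub_add_cancel_left, abs_neg, abs_of_nonneg (by positivity)]
    rw [h4]
    exact h2
  · obtain ⟨n, hn⟩ := Int.le.dest h1
    have h2 := key n y
    have h3 : ((y.1 + (n : ℤ), y.2) : Pt) = x := Prod.ext hn e.symm
    rw [h3, abs_sub_comm] at h2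
    have h4 : |x.1 - y.1| = (n : ℤ) := by
      rw [← hn, add_sub_cancel_left, abs_of_nonneg (by positivity)]
    rw [h4]
    exact h2

/-- The heights along a vertical path. -/
lemma lip_ver {h : Hg} (hh : Lip h) (v : Pt) (n : ℕ) :
    |h v - h (v.1, v.2 + (n : ℤ))| ≤ 2 * n := by
  induction n with
  | zero => simp
  | succ n ih =>
    have h0 : Adj (v.1, v.2 + (n : ℤ)) (v.1, v.2 + ((n + 1 : ℕ) : ℤ)) := by
      rw [Fv.adj_iff]
      push_cast
      omega
    have h1 := hh.2 _ _ h0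
    have h2 : |h v - h (v.1, v.2 + ((n + 1 : ℕ) : ℤ))| ≤
        |h v - h (v.1, v.2 + (n : ℤ))| +
          |h (v.1, v.2 + (n : ℤ)) - h (v.1, v.2 + ((n + 1 : ℕ) : ℤ))| := abs_sub_le _ _ _
    push_cast at h1 h2 ⊢
    linarith

lemma lip_ver' {h : Hg} (hh : Lip h) (x y : Pt) (e : x.1 = y.1) :
    |h x - h y| ≤ 2 * |x.2 - y.2| := by
  rcases le_total x.2 y.2 with h1 | h1
  · obtain ⟨n, hn⟩ := Int.le.dest h1
    have h2 := lip_ver hh x n
    have h3 : ((x.1, x.2 + (n : ℤ)) : Pt) = y := Prod.ext e hn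
    rw [h3] at h2
    have h4 : |x.2 - y.2| = (n : ℤ) := by
      rw [← hn, sub_add_cancel_left, abs_neg, abs_of_nonneg (by positivity)]
    rw [h4]
    exact h2
  · obtain ⟨n, hn⟩ := Int.le.dest h1
    have h2 := lip_ver hh y n
    have h3 : ((y.1, y.2 + (n : ℤ)) : Pt) = x := Prod.ext e.symm hn
    rw [h3, abs_sub_comm] at h2
    have h4 : |x.2 - y.2| = (n : ℤ) := by
      rw [← hn, add_sub_cancel_left, abs_of_nonneg (by positivity)]
    rw [h4]
    exact h2

/-- The heights are Lipschitz. -/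
lemma lip_dist {h : Hg} (hh : Lip h) (x y : Pt) :
    |h x - h y| ≤ 2 * (|x.1 - y.1| + |x.2 - y.2|) := by
  have h1 := lip_hor hh x (y.1, x.2) rfl
  have h2 := lip_ver' hh (y.1, x.2) y rfl
  have h3 := abs_sub_le (h x) (h (y.1, x.2)) (h y)
  simp only at h1 h2
  linarith

lemma bdd_alg {A : Om → ℝ} (hA : Alg A) (x : Pt) :
    ∃ C : ℝ, 0 ≤ C ∧ ∀ h : Hg, Lip h → |h x| ≤ 1 → |A (vm h)| ≤ C := by
  induction hA with
  | mon v =>
    induction v with
    | nil => exact ⟨1, zero_le_one, fun h _ _ => by simp⟩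
    | cons u v ih =>
      obtain ⟨C, hC, h1⟩ := ih
      refine ⟨(1 + 2 * (|u.1 - x.1| + |u.2 - x.2|) : ℤ) * C, ?_, fun h hh hx => ?_⟩
      · refine mul_nonneg ?_ hC
        have : (0 : ℤ) ≤ 1 + 2 * (|u.1 - x.1| + |u.2 - x.2|) := by positivity
        exact_mod_cast this
      · simp only [List.map_cons, List.prod_cons, abs_mul]
        refine mul_le_mul ?_ (h1 h hh hx) (abs_nonneg _) ?_
        · have h2 := lip_dist hh u x
          have h3 : |h u| ≤ |h u - h x| + |h x| := by
            have := abs_add_le (h u - h x) (h x)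
            simpa using this
          have h4 : |h u| ≤ 1 + 2 * (|u.1 - x.1| + |u.2 - x.2|) := by linarith
          have h5 : ((|h u| : ℤ) : ℝ) ≤ ((1 + 2 * (|u.1 - x.1| + |u.2 - x.2|) : ℤ) : ℝ) := by
            exact_mod_cast h4
          rwa [Int.cast_abs] at h5
        · have : (0 : ℤ) ≤ 1 + 2 * (|u.1 - x.1| + |u.2 - x.2|) := by positivity
          exact_mod_cast this
  | zero => exact ⟨0, le_rfl, fun h _ _ => by simp⟩
  | add _ _ h1 h2 =>
    obtain ⟨C₁, hC₁, h1⟩ := h1
    obtain ⟨C₂, hC₂, h2⟩ := h2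
    exact ⟨C₁ + C₂, add_nonneg hC₁ hC₂, fun h hh hx =>
      (abs_add_le _ _).trans (add_le_add (h1 h hh hx) (h2 h hh hx))⟩
  | smul c _ _ h1 =>
    obtain ⟨C, hC, h1⟩ := h1
    refine ⟨|c| * C, mul_nonneg (abs_nonneg _) hC, fun h hh hx => ?_⟩
    rw [abs_mul]
    exact mul_le_mul_of_nonneg_left (h1 h hh hx) (abs_nonneg _)

/-- The height of `x` is `± 1`. -/
def P1 (x : Pt) : Set Hg := {h | |h x| = 1}

lemma meas_P1 (x : Pt) : MeasurableSet (P1 x) := by
  have h1 : Measurable fun h : Hg => |h x| :=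
    (measurable_of_countable (fun z : ℤ => |z|)).comp (measurable_pi_apply x)
  exact h1 (measurableSet_singleton (1 : ℤ))

lemma fin_P1 {mu : Measure Hg} (hmu : Gb mu) (x : Pt) : mu (P1 x) ≠ ⊤ := by
  have h1 : P1 x ⊆ Cyl {x} (fun _ => 1) ∪ Cyl {x} (fun _ => -1) := by
    intro h hx
    have hx' : |h x| = 1 := hx
    rcases (abs_eq (by norm_num : (0 : ℤ) ≤ 1)).1 hx' with e | e
    · left
      intro y hy
      rw [Finset.mem_singleton] at hy
      rw [hy]; exact e
    · right
      intro y hy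
      rw [Finset.mem_singleton] at hy
      rw [hy]; exact e
  refine ne_top_of_le_ne_top ?_ ((measure_mono h1).trans (measure_union_le _ _))
  exact ENNReal.add_ne_top.2 ⟨hmu.fin _ _ (Finset.singleton_nonempty x),
    hmu.fin _ _ (Finset.singleton_nonempty x)⟩

end In

open In in
/-- Integrability of local pinned functions. -/
theorem int_gb {mu : Measure Hg} (hmu : Gb mu) {g : Set Pt → ℝ} {A : Om → ℝ}
    (hg : LocS univ g) (h0 : g ∅ = 0) (hA : Alg A) :
    Integrable (fun h => g (bl h) * A (vm h)) mu := by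
  classical
  have hmeas : Measurable fun h : Hg => g (bl h) * A (vm h) :=
    (meas_g hg).mul ((meas_alg hA).comp meas_vm)
  obtain ⟨Cg, hCg, hgb⟩ := bdd_g hg
  obtain ⟨Λ, -, hl⟩ := id hg
  set B : Finset Pt := Λ.biUnion Up.nb with hB
  choose C hC hCA using fun x => bdd_alg hA x
  have hbound : Integrable (fun h : Hg => ∑ x ∈ B, (In.P1 x).indicator (fun _ => Cg * C x) h) mu :=
    integrable_finsetSum _ fun x _ =>
      (integrable_indicator_iff (meas_P1 x)).2 (integrableOn_const (fin_P1 hmu x))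
  refine hbound.mono' hmeas.aestronglyMeasurable ?_
  filter_upwards [hmu.lip] with h hh
  have hnn : ∀ x ∈ B, 0 ≤ (In.P1 x).indicator (fun _ => Cg * C x) h := fun x _ =>
    Set.indicator_nonneg (fun _ _ => mul_nonneg hCg (hC x)) _
  by_cases hne : g (bl h) = 0
  · rw [hne, zero_mul, norm_zero]
    exact Finset.sum_nonneg hnn
  · have h1 : ∃ w ∈ Λ, w ∈ bl h := by
      by_contra hcon
      push Not at hcon
      apply hne
      rw [← h0]
      exact hl _ _ fun w hw => by simp [hcon w hw]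
    obtain ⟨w, hw, x, y, hxy, rfl, hx, hy⟩ := h1
    have hxB : x ∈ B := Finset.mem_biUnion.2 ⟨_, hw, Up.mem_nb hxy⟩
    refine le_trans ?_ (Finset.single_le_sum hnn hxB)
    rw [Set.indicator_of_mem (show h ∈ In.P1 x from hx), norm_mul, Real.norm_eq_abs,
      Real.norm_eq_abs]
    exact mul_le_mul (hgb _) (hCA x h hh hx.le) (abs_nonneg _) hCg

/-- **S_int.** -/
theorem s_int {P : Measure (Pt → ℤ)} (hP : GFF.Plane P) : S_int P :=
  fun _ _ hg h0 hA => int_gb (gb_of_plane hP) hg h0 hA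

end Vale.Agent.P153.F.X
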