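import Vale.Agent.P153.F.X.PosA
import Vale.Agent.P153.F.X.Cnt
import Vale.Agent.P153.F.X.Int
import Vale.Agent.P153.A.Rc
import Vale.Agent.P153.A.Sym
import Vale.Agent.P153.A.Plane

/-!
P153-F, X-level (mirror of `P145.X.SPos`, `P145.X.Rsw`): the statements `S_pos` and `S_rsw` on the
triangular lattice, from circuits of closed edges of `tau` at all scales.
-/

namespace Vale.Agent.P153.F.X.PosT

open MeasureTheory
open Vale.Agent.P153 Vale.Agent.P153.Topo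
open Vale.Agent.P153.F.RSW
open Vale.Agent.P153.A (rc cd tau Comp)

/-! ### Edges and their midpoints -/

theorem mid_odd {z : ℤ × ℤ} (hz : z ∈ Mid) : z.1 % 2 = 1 ∨ z.2 % 2 = 1 := by
  rcases hz with h | h
  · exact Or.inl (Int.odd_iff.1 h)
  · exact Or.inr (Int.odd_iff.1 h)

theorem mid_adj {z : ℤ × ℤ} (hz : z ∈ Mid) : Adj (v1 z) (v2 z) := by
  have := mid_odd hz
  rw [Topo.adj_iff]
  simp only [v1, v2]
  omega

theorem v_add (z : ℤ × ℤ) : z = v1 z + v2 z := by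
  refine Prod.ext ?_ ?_
  · simp only [v1, v2, Prod.fst_add]; omega
  · simp only [v1, v2, Prod.snd_add]; omega

/-- Neighbouring midpoints belong to edges with a common end. -/
theorem share {u v : ℤ × ℤ} (hu : u ∈ Mid) (hv : v ∈ Mid) (h : Adj u v) :
    v1 u = v1 v ∨ v1 u = v2 v ∨ v2 u = v1 v ∨ v2 u = v2 v := by
  have h1 := mid_odd hu
  have h2 := mid_odd hv
  rw [Topo.adj_iff] at h
  simp only [v1, v2, Prod.mk.injEq]
  omega

/-! ### Levels -/

/-- The height with its value modulo four. -/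
noncomputable def fh (ω : A.Om) (x : ℤ × ℤ) : ℤ := rc ω x + cd (ω 0)

theorem fh_mod {ω : A.Om} (h : Comp ω) {x : ℤ × ℤ} (hx : tau ω x = true) :
    fh ω x % 4 = 0 ∨ fh ω x % 4 = 1 := by
  have h1 := A.s_rc.2.1 ω h x
  have h2 : cd (ω x) = 0 ∨ cd (ω x) = 1 := by
    have h3 : (ω x).1 = true := hx
    unfold cd
    rw [h3]
    cases (ω x).2 <;> simp
  unfold fh
  omega

theorem fh_adj {ω : A.Om} (h : Comp ω) {x y : ℤ × ℤ} (hxy : Adj x y) :
    |fh ω y - fh ω x| ≤ 1 := by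
  have h1 := A.s_rc.1 ω h x y hxy
  unfold fh
  have h2 : rc ω y + cd (ω 0) - (rc ω x + cd (ω 0)) = A.inc (ω x) (ω y) := by linarith
  rw [h2]
  unfold A.inc
  split_ifs <;> norm_num

/-- The level of a midpoint. -/
noncomputable def lv (ω : A.Om) (z : ℤ × ℤ) : ℤ := fh ω (v1 z) / 4

theorem lv_v2 {ω : A.Om} (h : Comp ω) {z : ℤ × ℤ} (hz : z ∈ Wp (tau ω)) :
    fh ω (v2 z) / 4 = lv ω z := by
  have h1 := fh_mod h hz.2.1
  have h2 := fh_mod h hz.2.2
  have h3 := abs_le.1 (fh_adj h (mid_adj hz.1))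
  unfold lv
  omega

theorem lev_Wp {ω : A.Om} (h : Comp ω) : Lev (Wp (tau ω)) (lv ω) := by
  intro u v huv hu hv
  have e1 := lv_v2 h hu
  have e2 := lv_v2 h hv
  rcases share hu.1 hv.1 huv with h1 | h1 | h1 | h1
  · unfold lv; rw [h1]
  · rw [← e2, ← h1]; rfl
  · rw [← e1, h1]; rfl
  · rw [← e1, ← e2, h1]

/-- The edges of one level are blocked for suitable absolute heights. -/
theorem sub_bl {ω : A.Om} (h : Comp ω) (m : ℤ) :
    Wp (tau ω) ∩ {z | lv ω z = m} ⊆ bl (odd (cd (ω 0) - 4 * m) (rc ω)) ∩ Mid := by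
  rintro z ⟨hz, hm⟩
  have hm' : lv ω z = m := hm
  have h1 := fh_mod h hz.2.1
  have h2 := fh_mod h hz.2.2
  have h3 := lv_v2 h hz
  refine ⟨⟨v1 z, v2 z, mid_adj hz.1, v_add z, ?_, ?_⟩, hz.1⟩
  · have e : odd (cd (ω 0) - 4 * m) (rc ω) (v1 z) = 2 * (fh ω (v1 z) - 4 * m) - 1 := by
      unfold odd fh; ring
    rw [e]
    unfold lv at hm'
    rcases (by omega : fh ω (v1 z) - 4 * m = 0 ∨ fh ω (v1 z) - 4 * m = 1) with h4 | h4 <;>
      rw [h4] <;> norm_num
  · have e : odd (cd (ω 0) - 4 * m) (rc ω) (v2 z) = 2 * (fh ω (v2 z) - 4 * m) - 1 := by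
      unfold odd fh; ring
    rw [e]
    rcases (by omega : fh ω (v2 z) - 4 * m = 0 ∨ fh ω (v2 z) - 4 * m = 1) with h4 | h4 <;>
      rw [h4] <;> norm_num

/-! ### Events -/

theorem loc_fin {E : Set (ℤ × ℤ) → Prop} (h : RSW.Loc E) :
    ∃ Λ : Finset Pt, ∀ B B' : Set Pt, (∀ w ∈ Λ, w ∈ B ↔ w ∈ B') → E (B ∩ Mid) → E (B' ∩ Mid) := by
  obtain ⟨N, hN⟩ := h
  refine ⟨Finset.Icc (-N) N ×ˢ Finset.Icc (-N) N, fun B B' hB hE => hN _ _ (fun z h1 h2 => ?_) hE⟩
  have := hB z (by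
    rw [abs_le] at h1 h2
    rw [Finset.mem_product, Finset.mem_Icc, Finset.mem_Icc]
    exact ⟨h1, h2⟩)
  exact and_congr_left fun _ => this

theorem meas_E {E : Set (ℤ × ℤ) → Prop} (h : RSW.Loc E) : MeasurableSet {h : Hg | E (bl h ∩ Mid)} := by
  obtain ⟨Λ, hΛ⟩ := loc_fin h
  exact meas_bl (Q := fun B => E (B ∩ Mid)) hΛ

theorem muT_apply (P : Measure (Pt → ℤ)) {M : Set Hg} (hM : MeasurableSet M) :
    muT P M = ∑' k : ℤ, P (odd k ⁻¹' M) := by
  rw [muT, Measure.sum_apply _ hM]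
  exact tsum_congr fun k => Measure.map_apply (measurable_odd k) hM

variable {Q : Measure A.Om}

/-- The measure of an event at level `0`. -/
theorem muT_ge (hQ : A.IsQ Q) {E : Set (ℤ × ℤ) → Prop} (hE : IL E)
    (hl : ∀ (S : Set (ℤ × ℤ)) (lev : ℤ × ℤ → ℤ), Lev S lev → E S → ∃ l, E (S ∩ {z | lev z = l})) :
    ENNReal.ofReal (pW Q E) ≤ muT (Q.map rc) {h | E (bl h ∩ Mid)} := by
  have := hQ.prob
  have hM := meas_E hE.2
  have hrc : Measurable rc := A.s_rc.2.2.2.2.2.1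
  rw [muT_apply _ hM]
  have h1 : ∀ k : ℤ, (Q.map rc) (odd k ⁻¹' {h | E (bl h ∩ Mid)}) =
      Q {ω | E (bl (odd k (rc ω)) ∩ Mid)} := fun k => by
    rw [Measure.map_apply hrc (measurable_odd k hM)]
    rfl
  simp only [h1]
  have h2 : ENNReal.ofReal (pW Q E) = Q {ω | E (Wp (tau ω))} := by
    unfold pW
    rw [ofReal_measureReal]
  rw [h2]
  refine le_trans ?_ (measure_iUnion_le _)
  refine measure_mono_ae ?_
  filter_upwards [(A.s_sym Q hQ).2.2] with ω hω hE'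
  obtain ⟨m, hm⟩ := hl _ _ (lev_Wp hω) hE'
  exact Set.mem_iUnion.2 ⟨_, hE.1 _ _ (sub_bl hω m) hm⟩

open Classical in
/-- Integrals of indicators of local events which need a blocked edge. -/
theorem II_E {P : Measure (Pt → ℤ)} (hint : S_int P) {E' : Set Pt → Prop}
    {E : Set (ℤ × ℤ) → Prop} (hE : RSW.Loc E) (he : ∀ B, E' B ↔ E (B ∩ Mid)) (h0 : ¬ E' ∅) :
    II P (ind E') (fun _ => 1) = (muT P {h | E (bl h ∩ Mid)}).toReal ∧
      muT P {h | E (bl h ∩ Mid)} ≠ ⊤ := by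
  have hs : {h : Hg | E' (bl h)} = {h | E (bl h ∩ Mid)} := by
    ext h; exact he (bl h)
  have hM : MeasurableSet {h : Hg | E' (bl h)} := by rw [hs]; exact meas_E hE
  obtain ⟨Λ, hΛ⟩ := loc_fin hE
  have h1 := hint (ind E') (fun _ => 1) ⟨Λ, fun w _ => Set.mem_univ w, fun B B' hB => by
      unfold ind
      have : E' B ↔ E' B' := by
        rw [he, he]
        exact ⟨hΛ _ _ hB, hΛ _ _ fun w hw => (hB w hw).symm⟩
      simp only [this]⟩
    (by unfold ind; exact if_neg h0) Top.Pol.one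
  have h2 : (fun h : Hg => ind E' (bl h) * (fun _ : Top.Om => (1 : ℝ)) (vm h)) =
      {h : Hg | E' (bl h)}.indicator (fun _ => (1 : ℝ)) := by
    funext h
    by_cases h1 : E' (bl h)
    · rw [Set.indicator_of_mem (show h ∈ {h : Hg | E' (bl h)} from h1)]
      simp [ind, h1]
    · rw [Set.indicator_of_notMem (show h ∉ {h : Hg | E' (bl h)} from h1)]
      simp [ind, h1]
  rw [h2, integrable_indicator_iff hM] at h1
  have h1' := integrableOn_const_iff (by simp) |>.1 h1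
  refine ⟨?_, ?_⟩
  · rw [II_ind hM, hs]; rfl
  · rw [← hs]
    rcases h1' with h1 | h1
    · exact absurd h1 (by simp)
    · exact h1.ne

theorem not_ann (p q r : ℤ) : ¬ Ann p q r (∅ ∩ Mid) := by
  rintro ⟨⟨x, y, h, -, -⟩, -⟩
  exact h.left_mem.1.1

/-- The box of centres. -/
noncomputable def bN (N : ℕ) : Finset Pt := Finset.Icc (-(N : ℤ)) N ×ˢ Finset.Icc (-(N : ℤ)) N

theorem mem_bN {N : ℕ} {y : Pt} : y ∈ bN N ↔ |y.1| ≤ N ∧ |y.2| ≤ N := by
  rw [bN, Finset.mem_product, Finset.mem_Icc, Finset.mem_Icc, abs_le, abs_le]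

/-- **POS.** -/
theorem s_pos (hQ : A.IsQ Q) (hint : S_int (Q.map rc))
    (hR : ∃ c : ℝ, 0 < c ∧ ∃ r0 : ℤ, ∀ r : ℤ, r0 ≤ r → ∀ p q : ℤ, c ≤ pW Q (Ann p q r)) :
    S_pos (Q.map rc) := by
  intro N
  obtain ⟨c, hc, r0, h⟩ := hR
  set K : ℕ := N + 1 with hK
  set M : ℕ := 18 * K + 2 with hM
  refine ⟨c ^ (ix M).card, by positivity, max (4 * r0) 4, by
    exact le_trans (by norm_num) (le_max_right _ _), fun s hs y₀ m hm h1 h2 => ?_⟩
  have hab1 := abs_nonneg y₀.1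
  have hab2 := abs_nonneg y₀.2
  have hs4 : 4 ≤ s := (le_max_right _ _).trans hs
  have hs0 : 4 * r0 ≤ s := (le_max_left _ _).trans hs
  set r : ℤ := s / 2 with hr
  have hr1 : 2 * r ≤ s := by omega
  have hr2 : s ≤ 3 * r := by omega
  have hr3 : 0 < r := by omega
  have hr4 : r0 ≤ r := by omega
  -- the event
  have hG : IL (fun S => (∀ y ∈ bN N, Ann (s * y.1) (s * y.2) s S) ∧
      Ann (s * y₀.1) (s * y₀.2) (m * s) S) :=
    (IL_ball _ _ fun _ _ => IL_Ann _ _ _).and (IL_Ann _ _ _)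
  obtain ⟨e1, e2⟩ := II_E hint (E' := fun B =>
      (∀ y : Pt, |y.1| ≤ N → |y.2| ≤ N → Zr (s * y.1, s * y.2) s B) ∧
      Zr (s * y₀.1, s * y₀.2) (m * s) B) hG.2 (fun B => by
    constructor
    · rintro ⟨h3, h4⟩
      exact ⟨fun y hy => h3 y (mem_bN.1 hy).1 (mem_bN.1 hy).2, h4⟩
    · rintro ⟨h3, h4⟩
      exact ⟨fun y hy1 hy2 => h3 y (mem_bN.2 ⟨hy1, hy2⟩), h4⟩) (by
    rintro ⟨-, h4⟩
    exact not_ann _ _ _ h4)
  rw [e1, ← ENNReal.ofReal_le_iff_le_toReal e2]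
  refine le_trans (ENNReal.ofReal_le_ofReal (net_ge hQ hc.le (h r hr4) M
    (-((9 * K + 1) * r)) (-((9 * K + 1) * r)))) ((muT_ge hQ (IL_Net _ _ _ _) fun S lev hl hN =>
      hN.level hl hr3).trans (measure_mono ?_))
  intro x hx
  have hx' : Net r M (-((9 * K + 1) * r)) (-((9 * K + 1) * r)) (bl x ∩ Mid) := hx
  have hKs : (K : ℤ) * s ≤ K * (3 * r) := mul_le_mul_of_nonneg_left hr2 (by positivity)
  have hK0 : (0 : ℤ) ≤ K * r := by positivity
  have hNr : -((9 * (K : ℤ) + 1) * r) + ((M : ℤ) + 2) * r = 9 * (K * r) + 3 * r := by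
    rw [hM]; push_cast; ring
  have h9 : -((9 * (K : ℤ) + 1) * r) + r = -(9 * (K * r)) := by ring
  have key : ∀ p q u : ℤ, s ≤ u → u ≤ K * s → |p| ≤ K * s → |q| ≤ K * s →
      Ann p q u (bl x ∩ Mid) := by
    intro p q u h1 h2 h3 h4
    obtain ⟨h5, h6⟩ := abs_le.1 h3
    obtain ⟨h7, h8⟩ := abs_le.1 h4
    refine hx'.ann hr3 (by omega) ?_ ?_ ?_ ?_
    · rw [h9]; linarith
    · rw [hNr]; linarith
    · rw [h9]; linarith
    · rw [hNr]; linarith
  have hb : ∀ z : ℤ, |z| ≤ N → |s * z| ≤ (K : ℤ) * s := by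
    intro z hz
    rw [abs_mul, abs_of_pos (by omega : 0 < s), hK]
    push_cast
    nlinarith
  have hs1 : s ≤ (K : ℤ) * s := by
    rw [hK]; push_cast
    have : (0 : ℤ) ≤ (N : ℤ) * s := by positivity
    linarith
  refine ⟨fun y hy => key _ _ _ le_rfl hs1 (hb _ (mem_bN.1 hy).1) (hb _ (mem_bN.1 hy).2),
    key _ _ _ ?_ ?_ (hb _ (by omega)) (hb _ (by omega))⟩
  · nlinarith
  · have h3 : m ≤ (K : ℤ) := by rw [hK]; push_cast; omega
    exact mul_le_mul_of_nonneg_right h3 (by omega)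

/-! ### The upper bound -/

/-- A circuit at level `0` has measure at most `2`. -/
theorem muT_le {P : Measure (Pt → ℤ)} [IsProbabilityMeasure P] {p q r : ℤ} (hr : 0 < r) :
    muT P {h | Ann p q r (bl h ∩ Mid)} ≤ 2 := by
  classical
  have hM := meas_E (IL_Ann p q r).2
  rw [← lintegral_indicator_one hM, lintegral_muT (measurable_one.indicator hM)]
  have hpt : ∀ φ : Pt → ℤ, ∑' k : ℤ, {h : Hg | Ann p q r (bl h ∩ Mid)}.indicator
      (1 : Hg → ENNReal) (odd k φ) ≤ 2 := by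
    intro φ
    have huniq : ∀ k k' : ℤ, Ann p q r (bl (odd k φ) ∩ Mid) → Ann p q r (bl (odd k' φ) ∩ Mid) →
        |k - k'| ≤ 1 := by
      rintro k k' ⟨⟨x, x', hx, hxa, hxb⟩, -⟩ ⟨-, -, ⟨y, y', hy, hyc, hyd⟩, -⟩
      obtain ⟨z, hz1, hz2⟩ := meetHV (by omega) (by omega) (by omega) (by omega) hx hxa hxb hy
        hyc hyd
      obtain ⟨⟨⟨a, b, hab, hz, ha, hb⟩, -⟩, -⟩ := hz1.right_mem
      obtain ⟨⟨⟨a', b', hab', hz', ha', hb'⟩, -⟩, -⟩ := hz2.right_mem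
      have h1 : |odd k' φ a| = 1 := by
        rcases Up.adj_mid hab hab' (hz.symm.trans hz') with ⟨e1, e2⟩ | ⟨e1, e2⟩
        · rw [← e1]; exact ha'
        · rw [← e2]; exact hb'
      rw [abs_eq (by norm_num)] at ha h1
      unfold odd at ha h1
      rw [abs_le]
      omega
    by_cases hne : ∃ k, Ann p q r (bl (odd k φ) ∩ Mid)
    · obtain ⟨k₁, hk₁⟩ := hne
      have hkey : ∃ k₀ : ℤ, ∀ k, Ann p q r (bl (odd k φ) ∩ Mid) → k = k₀ ∨ k = k₀ + 1 := by
        by_cases h2 : Ann p q r (bl (odd (k₁ - 1) φ) ∩ Mid)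
        · refine ⟨k₁ - 1, fun k hk => ?_⟩
          have h3 := abs_le.1 (huniq _ _ hk hk₁)
          have h4 := abs_le.1 (huniq _ _ hk h2)
          omega
        · refine ⟨k₁, fun k hk => ?_⟩
          have h3 := abs_le.1 (huniq _ _ hk hk₁)
          have h4 : k ≠ k₁ - 1 := fun e => h2 (e ▸ hk)
          omega
      obtain ⟨k₀, hk₀⟩ := hkey
      rw [tsum_eq_sum (s := {k₀, k₀ + 1}) fun k hk => ?_]
      · refine (Finset.sum_le_sum (g := fun _ => (1 : ENNReal)) fun k _ => ?_).trans ?_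
        · exact Set.indicator_le_self' (fun _ _ => zero_le) _
        · rw [Finset.sum_const, nsmul_eq_mul, mul_one]
          have := Finset.card_le_two (a := k₀) (b := k₀ + 1)
          exact_mod_cast this
      · refine Set.indicator_of_notMem (fun hk' => hk ?_) _
        rw [Finset.mem_insert, Finset.mem_singleton]
        exact hk₀ k hk'
    · push Not at hne
      have : ∑' k : ℤ, {h : Hg | Ann p q r (bl h ∩ Mid)}.indicator
          (1 : Hg → ENNReal) (odd k φ) = 0 := by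
        rw [ENNReal.tsum_eq_zero]
        intro k
        exact Set.indicator_of_notMem (s := {h : Hg | Ann p q r (bl h ∩ Mid)})
          (fun hk' => hne k hk') _
      rw [this]
      exact zero_le
  calc _ ≤ ∫⁻ _φ, (2 : ENNReal) ∂P := lintegral_mono hpt
    _ = 2 := by rw [lintegral_const, measure_univ, mul_one]

/-- **RSW.** -/
theorem s_rsw (hQ : A.IsQ Q) (hint : S_int (Q.map rc))
    (hR : ∃ c : ℝ, 0 < c ∧ ∃ r0 : ℤ, ∀ r : ℤ, r0 ≤ r → ∀ p q : ℤ, c ≤ pW Q (Ann p q r)) :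
    S_rsw (Q.map rc) := by
  have := hQ.prob
  have hrc : Measurable rc := A.s_rc.2.2.2.2.2.1
  have hp : IsProbabilityMeasure (Q.map rc) := Measure.isProbabilityMeasure_map hrc.aemeasurable
  obtain ⟨c, hc, r0, h⟩ := hR
  refine ⟨c, hc, max r0 1, le_max_right _ _, fun r hr p => ?_⟩
  have hr1 : 0 < r := lt_of_lt_of_le one_pos ((le_max_right _ _).trans hr)
  obtain ⟨e1, e2⟩ := II_E hint (E' := Zr p r) (IL_Ann p.1 p.2 r).2 (fun B => Iff.rfl)
    (not_ann _ _ _)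
  rw [e1]
  refine ⟨?_, ?_⟩
  · rw [← ENNReal.ofReal_le_iff_le_toReal e2]
    exact (ENNReal.ofReal_le_ofReal (h r ((le_max_left _ _).trans hr) p.1 p.2)).trans
      (muT_ge hQ (IL_Ann _ _ _) fun S lev hl hA => Ann.lev hl hr1 hA)
  · have := ENNReal.toReal_mono (by norm_num) (muT_le (P := Q.map rc) (p := p.1) (q := p.2) hr1)
    simpa using this

end Vale.Agent.P153.F.X.PosT
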