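import Vale.Agent.P153.F.RSW.ChainT

/-!
# P153, block F-X: vertex paths which avoid the blocked edges

A path of vertices of the triangular lattice which does not use the edges of `B` cannot leave a box
surrounded by a circuit of edges of `B`.
-/

namespace Vale.Agent.P153.F.RSW

open Relation Vale.Agent.P153 Vale.Agent.P153.Topo

/-- A step between two vertices along an edge which is not in `B`. -/
def VStep (B : Set (ℤ × ℤ)) (x y : ℤ × ℤ) : Prop := Adj x y ∧ x + y ∉ B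

theorem dbl_notMem {B : Set (ℤ × ℤ)} (x : ℤ × ℤ) : x + x ∉ B ∩ Mid := by
  rintro ⟨_, h⟩
  have h' : Odd (x + x).1 ∨ Odd (x + x).2 := h
  rw [Prod.fst_add, Prod.snd_add, Int.odd_iff, Int.odd_iff] at h'
  omega

theorem adj_half {x y : ℤ × ℤ} (h : Adj x y) : Adj (x + x) (x + y) ∧ Adj (x + y) (y + y) := by
  rw [adj_iff] at h
  rw [adj_iff, adj_iff]
  simp only [Prod.fst_add, Prod.snd_add]
  omega

/-- A vertex path avoiding `B` is a path of the fine lattice avoiding the edges of `B`. -/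
theorem conn_of_vpath {B : Set (ℤ × ℤ)} {x y : ℤ × ℤ} (h : ReflTransGen (VStep B) x y) :
    Conn (B ∩ Mid)ᶜ (x + x) (y + y) := by
  induction h with
  | refl => exact Conn.refl (dbl_notMem x)
  | @tail u v _ huv ih =>
    obtain ⟨h1, h2⟩ := huv
    obtain ⟨h3, h4⟩ := adj_half h1
    exact (ih.tail h3 fun h => h2 h.1).tail h4 (dbl_notMem v)

/-- Confinement by a separating set. -/
theorem SepG.vconf {B C : Set (ℤ × ℤ)} {p q a b : ℤ} (hC : SepG C p q a b) (hCB : C ⊆ B ∩ Mid)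
    {x y : ℤ × ℤ} (hx : |x.1 - p| ≤ a ∧ |x.2 - q| ≤ a) (h : ReflTransGen (VStep B) x y) :
    |y.1 - p| < b ∧ |y.2 - q| < b := by
  obtain ⟨hx1, hx2⟩ := hx
  rw [abs_le] at hx1 hx2
  rw [abs_lt, abs_lt]
  by_contra hc
  obtain ⟨z, hz1, hz2⟩ := hC _ _ _ (conn_of_vpath h)
    (by rw [mem_pr, Prod.fst_add, Prod.snd_add]; omega)
    (by rw [Prod.fst_add, Prod.snd_add]; omega)
  exact hz1 (hCB hz2)

/-- Confinement by a circuit. -/
theorem vconf_of_ann {B : Set (ℤ × ℤ)} {p q r : ℤ} (hr : 0 < r) (hA : Ann p q r (B ∩ Mid))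
    {x y : ℤ × ℤ} (hx : |x.1 - p| ≤ r ∧ |x.2 - q| ≤ r) (h : ReflTransGen (VStep B) x y) :
    |y.1 - p| < 2 * r ∧ |y.2 - q| < 2 * r := by
  obtain ⟨o, ho⟩ := hA.base hr
  exact (ho.sep hr).vconf (fun z hz => hz.right_mem.1) hx h

/-- Locality of the circuit event: it depends on the points in the annulus. -/
theorem ann_congr {p q r : ℤ} (hr : 0 < r) {S T : Set (ℤ × ℤ)} (hST : S ∩ annR p q r ⊆ T)
    (hA : Ann p q r S) : Ann p q r T := by
  obtain ⟨⟨a1, b1, h1, h1a, h1b⟩, ⟨a2, b2, h2, h2a, h2b⟩, ⟨a3, b3, h3, h3a, h3b⟩,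
    ⟨a4, b4, h4, h4a, h4b⟩⟩ := hA
  have key : ∀ {R : Set (ℤ × ℤ)}, R ⊆ annR p q r → ∀ {x y : ℤ × ℤ}, Conn (S ∩ R) x y →
      Conn (T ∩ R) x y := by
    intro R hR x y h
    refine Conn.mono ?_ h
    intro z hz
    exact ⟨hST ⟨hz.1, hR hz.2⟩, hz.2⟩
  exact ⟨⟨a1, b1, key (annR_top hr) h1, h1a, h1b⟩, ⟨a2, b2, key (annR_bot hr) h2, h2a, h2b⟩,
    ⟨a3, b3, key (annR_left hr) h3, h3a, h3b⟩, ⟨a4, b4, key (annR_right hr) h4, h4a, h4b⟩⟩

end Vale.Agent.P153.F.RSW
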