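import Vale.Agent.P153.F.X.Stmt
import Vale.Agent.P153.F.X.ConfA

/-! # P153, block F-X: confinement by a circuit, locality of the circuit event -/

namespace Vale.Agent.P153.F.X

open Relation Vale.Agent.P153 Vale.Agent.P153.Topo
open Vale.Agent.P153.F.RSW (Ann annR pr mem_pr Mid VStep vconf_of_ann ann_congr)

/-- A circuit confines the box inside. -/
theorem s_conf : S_conf := by
  intro p r B hr hZ x hx y hy
  have h1 : ReflTransGen (VStep B) x y := hy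
  obtain ⟨h2, h3⟩ := vconf_of_ann (by omega) hZ hx h1
  exact ⟨h2.le, h3.le⟩

theorem conf_of_sepG {B C : Set Pt} {p : Pt} {a b : ℤ} (hC : RSW.SepG C p.1 p.2 a b)
    (hCB : C ⊆ B ∩ Mid) : Conf B (bx p a) (bx p b) := by
  intro x hx y hy
  obtain ⟨h2, h3⟩ := hC.vconf hCB hx (show ReflTransGen (VStep B) x y from hy)
  exact ⟨h2.le, h3.le⟩

/-- The midpoints of the edges are sums of two neighbours. -/
theorem mid_split {w : Pt} (hw : w ∈ Mid) : ∃ x y : Pt, Adj x y ∧ w = x + y ∧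
    2 * x.1 ≤ w.1 + 1 ∧ w.1 - 1 ≤ 2 * x.1 ∧ 2 * x.2 ≤ w.2 + 1 ∧ w.2 - 1 ≤ 2 * x.2 ∧
    2 * y.1 ≤ w.1 + 1 ∧ w.1 - 1 ≤ 2 * y.1 ∧ 2 * y.2 ≤ w.2 + 1 ∧ w.2 - 1 ≤ 2 * y.2 := by
  have h : Odd w.1 ∨ Odd w.2 := hw
  rw [Int.odd_iff, Int.odd_iff] at h
  refine ⟨(w.1 / 2, (w.2 + 1) / 2), ((w.1 + 1) / 2, w.2 / 2), ?_, Prod.ext ?_ ?_, ?_, ?_, ?_, ?_,
    ?_, ?_, ?_, ?_⟩
  · rw [adj_iff]
    simp only
    omega
  all_goals simp only [Prod.fst_add, Prod.snd_add]; omega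

theorem ann_iE {p : Pt} {r : ℤ} {w : Pt} (hw : w ∈ Mid) (hA : w ∈ annR p.1 p.2 r) :
    w ∈ iE (bx p (2 * r)) ∧ w ∉ iE (bx p (r - 1)) := by
  obtain ⟨h1, h2⟩ := hA
  rw [mem_pr] at h1
  constructor
  · have hodd : Odd w.1 ∨ Odd w.2 := hw
    rw [Int.odd_iff, Int.odd_iff] at hodd
    obtain ⟨x, y, hxy, hw', h3, h4, h5, h6, h7, h8, h9, h10⟩ := mid_split hw
    refine ⟨x, ?_, y, ?_, hxy, hw'⟩
    · show |x.1 - p.1| ≤ 2 * r ∧ |x.2 - p.2| ≤ 2 * r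
      rw [abs_le, abs_le]
      omega
    · show |y.1 - p.1| ≤ 2 * r ∧ |y.2 - p.2| ≤ 2 * r
      rw [abs_le, abs_le]
      omega
  · rintro ⟨x, hx, y, hy, hxy, rfl⟩
    have hx' : |x.1 - p.1| ≤ r - 1 ∧ |x.2 - p.2| ≤ r - 1 := hx
    have hy' : |y.1 - p.1| ≤ r - 1 ∧ |y.2 - p.2| ≤ r - 1 := hy
    rw [abs_le, abs_le] at hx' hy'
    rw [Prod.fst_add, Prod.snd_add] at h2
    omega

/-- **Locality of the circuit event.** -/
theorem s_loc : S_loc := by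
  classical
  intro p r hr
  have hmono : ∀ {B B' : Set Pt}, (∀ w ∈ Mid ∩ annR p.1 p.2 r, w ∈ B → w ∈ B') → Zr p r B →
      Zr p r B' := by
    intro B B' h hZ
    refine ann_congr (by omega) ?_ hZ
    rintro z ⟨⟨h1, h2⟩, h3⟩
    exact ⟨h z ⟨h2, h3⟩ h1, h2⟩
  refine ⟨?_, ?_, ?_, ?_⟩
  · intro B B' hBB
    unfold ind
    by_cases h : Zr p r B
    · rw [if_pos h, if_pos (hmono (fun w _ hw => hBB hw) h)]
    · rw [if_neg h]
      split_ifs
      · exact zero_le_one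
      · exact le_rfl
  · intro B
    unfold ind
    split_ifs
    · exact zero_le_one
    · exact le_rfl
  · have hfin : (Mid ∩ annR p.1 p.2 r).Finite := by
      refine (Set.Finite.subset (Finset.finite_toSet
        (Finset.Icc (2 * (p.1 - 2 * r)) (2 * (p.1 + 2 * r)) ×ˢ
          Finset.Icc (2 * (p.2 - 2 * r)) (2 * (p.2 + 2 * r)))) ?_)
      rintro w ⟨_, h1, _⟩
      rw [mem_pr] at h1
      rw [Finset.mem_coe, Finset.mem_product, Finset.mem_Icc, Finset.mem_Icc]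
      omega
    refine ⟨hfin.toFinset, fun w hw => ?_, fun B B' h => ?_⟩
    · have hw' := hfin.mem_toFinset.1 hw
      exact ann_iE hw'.1 hw'.2
    · have h1 : Zr p r B ↔ Zr p r B' :=
        ⟨hmono fun w hw => (h w (hfin.mem_toFinset.2 hw)).1,
          hmono fun w hw => (h w (hfin.mem_toFinset.2 hw)).2⟩
      unfold ind
      by_cases h2 : Zr p r B
      · rw [if_pos h2, if_pos (h1.1 h2)]
      · rw [if_neg h2, if_neg (fun h3 => h2 (h1.2 h3))]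
  · unfold ind
    rw [if_neg]
    intro h
    obtain ⟨x, y, hxy, _⟩ := h.1
    exact hxy.left_mem.1.1

end Vale.Agent.P153.F.X
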