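import Vale.Agent.P153.F.X.DecP

/-!
P153-F: decay at the boundary, `S_dec` (mirror of `P145.X.Dec`, `DecM`).
-/

namespace Vale.Agent.P153.F.X

open Filter Topology Set MeasureTheory Relation
open Vale.Agent.P153
open Vale.Agent.P153.F.Top (Om Cone EE hv hvl ze dp vh tl Vs ThickC hB)
open Vale.Agent.P145.PT (dd TestOn bump Z0)

theorem ze_nonnegD (F : Finset Pt) {A : Om → ℝ} (h : ∀ x, 0 ≤ A x) : 0 ≤ ze F A :=
  div_nonneg (Finset.sum_nonneg fun _ _ => h _) (Nat.cast_nonneg _)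

/-- Fourth moments of the bump near the boundary. -/
def S_bump (δ : ℕ → ℝ) : Prop :=
  ∀ D : Set (ℝ × ℝ), IsOpen D → Bornology.IsBounded D → ThickC D → ∃ C r : ℝ, 0 < C ∧ 0 < r ∧
    ∀ x ∈ D, dd D x < r → ∀ᶠ n in atTop,
      EE (δ n) D (fun ω => hv (δ n) (bump (dd D x / 2) x) ω ^ 4) ≤ C

theorem s_dec_of {P : Measure (Pt → ℤ)} (hint : S_int P)
    (hlowc : S_lowc P) (hgap : S_gap P) (hrsw : S_rsw P) (hloc : S_loc) (hconf : S_conf)
    {δ : ℕ → ℝ} (hδ : ∀ n, 0 < δ n) (hlim : Tendsto δ atTop (𝓝 0)) (hmb : Top.S_mb δ)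
    (hbump : S_bump δ) : Top.S_dec δ := by
  intro D hD hb hT f hf hf0 k ε hε
  obtain ⟨C, r₁, hC, hr₁, hbump⟩ := hbump D hD hb hT
  obtain ⟨C', hmb⟩ := hmb D hD hb f ⟨hf.1, hf.2.1, Set.subset_univ _⟩ hf0 (4 * k)
  set C'' : ℝ := max C' 1 with hC''
  have hC0 : 0 < C'' := lt_of_lt_of_le one_pos (le_max_right _ _)
  -- the size of the probability
  set η : ℝ := ε ^ 2 / √(C * C'') with hη
  have hCC : 0 < C * C'' := mul_pos hC hC0
  have hη0 : 0 < η := div_pos (pow_pos hε 2) (Real.sqrt_pos.2 hCC)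
  have hη2 : C * C'' * η ^ 2 = ε ^ 4 := by
    rw [hη, div_pow, Real.sq_sqrt hCC.le]
    field_simp
  obtain ⟨r₂, hr₂, hprob⟩ := dec_probD hint hlowc hgap hrsw hloc hconf hδ hlim hD hb hT
    hf.2.1 hf.2.2 hη0
  refine ⟨min r₁ r₂, lt_min hr₁ hr₂, fun x hx hxr => ?_⟩
  have hd0 : 0 < dd D x := (Vale.Agent.P145.PT.dd_pos hD hb).2 hx
  filter_upwards [hbump x hx (hxr.trans_le (min_le_left _ _)),
    hprob x hx (hxr.trans_le (min_le_right _ _)), hmb] with n h1 hp h3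
  have h4 := ze_mixed (δ := δ n) (F := Vs (δ n) D) (b := bump (dd D x / 2) x) (f := f) k
    (O := {v | dp (δ n) v ∈ Metric.closedBall x (dd D x / 2)})
    (I := {v | dp (δ n) v ∈ tsupport f})
    (fun v hv => Vale.Agent.P145.PT.bump_supp (by linarith) x hv)
    (fun v hv => subset_tsupport f hv)
  have n1 : 0 ≤ ze (Vs (δ n) D) (fun x' => hv (δ n) (bump (dd D x / 2) x) x' ^ 4) :=
    ze_nonnegD _ fun x' => by positivity
  have n2 : 0 ≤ ze (Vs (δ n) D) (fun x' => hv (δ n) f x' ^ (4 * k)) :=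
    ze_nonnegD _ fun x' => by
      rw [mul_comm, pow_mul]
      positivity
  have h5 : ze (Vs (δ n) D)
      (fun x' => hv (δ n) (bump (dd D x / 2) x) x' * hv (δ n) f x' ^ k) ^ 4 ≤ ε ^ 4 := by
    refine h4.trans ?_
    rw [← hη2]
    refine mul_le_mul (mul_le_mul h1 (h3.trans (le_max_left _ _)) n2 hC.le)
      (pow_le_pow_left₀ (pcn_nonneg _ _ _) hp 2) (by positivity) hCC.le
  show ze (Vs (δ n) D)
      (fun x' => hv (δ n) (bump (dd D x / 2) x) x' * hv (δ n) f x' ^ k) ≤ ε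
  by_contra hcon
  push Not at hcon
  exact absurd h5 (not_le.2 (pow_lt_pow_left₀ hcon hε.le (by norm_num)))

theorem bump_leD (s : ℝ) (x z : ℝ × ℝ) : bump s x z ≤ Z0⁻¹ * (s ^ 2)⁻¹ := by
  unfold Vale.Agent.P145.PT.bump Vale.Agent.P145.PT.rs
  have h0 : 0 ≤ Z0⁻¹ * (s ^ 2)⁻¹ :=
    mul_nonneg (inv_nonneg.2 Vale.Agent.P145.PT.Z0_pos.le) (inv_nonneg.2 (sq_nonneg _))
  calc Z0⁻¹ * (s ^ 2)⁻¹ * Vale.Agent.P145.PT.kk (Vale.Agent.P145.PT.sqn (z - x) / s ^ 2)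
      ≤ Z0⁻¹ * (s ^ 2)⁻¹ * 1 :=
        mul_le_mul_of_nonneg_left (Vale.Agent.P145.PT.kk_le_one _) h0
    _ = _ := mul_one _

/-- The functional as a finitely supported function. -/
theorem exists_uD {e : ℝ} (he : 0 < e) {b : ℝ × ℝ → ℝ} {x : ℝ × ℝ} {r : ℝ}
    (hb : ∀ z, b z ≠ 0 → z ∈ Metric.closedBall x r) :
    ∃ u : Pt →₀ ℝ, (∀ v : Pt, u v = e ^ 2 * (√3 / 2 * b (dp e v))) ∧
      ∀ ω : Om, (u.sum fun v a => a * ω v) = hv e b ω := by
  obtain ⟨R, hR⟩ := (Metric.isBounded_closedBall (x := x) (r := r)).subset_ball (0 : ℝ × ℝ)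
  have hfin : (Function.support fun v : Pt => e ^ 2 * (√3 / 2 * b (dp e v))).Finite := by
    refine (Top.lat_finite he R).subset fun v hv => ?_
    exact hR (hb _ (right_ne_zero_of_mul (right_ne_zero_of_mul hv)))
  refine ⟨Finsupp.ofSupportFinite _ hfin, fun v => rfl, fun ω => ?_⟩
  unfold hv
  rw [finsum_eq_sum_of_support_subset (s := (Finsupp.ofSupportFinite
    (fun v : Pt => e ^ 2 * (√3 / 2 * b (dp e v))) hfin).support), Finset.mul_sum, Finsupp.sum]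
  · refine Finset.sum_congr rfl fun v _ => ?_
    rw [Top.tl_eq]
    show e ^ 2 * (√3 / 2 * b (dp e v)) * ω v = _
    ring
  · intro v hv
    rw [Finset.mem_coe, Finsupp.mem_support_iff]
    have h1 := right_ne_zero_of_mul hv
    rw [Top.tl_eq] at h1
    exact mul_ne_zero (pow_ne_zero 2 he.ne') h1

theorem cone_hvD {e : ℝ} (he : 0 < e) {b : ℝ × ℝ → ℝ} (h0 : ∀ z, 0 ≤ b z)
    (hb : HasCompactSupport b) (k : ℕ) : Cone fun ω => hv e b ω ^ k := by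
  obtain ⟨R, hR⟩ := hb.isBounded.subset_ball (0 : ℝ × ℝ)
  obtain ⟨B, hB⟩ := Top.hv_eq_hB (R := R) he
  refine (Top.cone_pow (B := B) (δ := e) h0 k).of_eq fun ω => ?_
  rw [hB b fun z hz => hR (subset_tsupport b hz)]

theorem pos_bD {e d : ℝ} (he : 0 < e) {s : ℤ} (hes : d ≤ e * s) (hs : 1 ≤ s)
    {x z : ℝ × ℝ} (hxz : dist x z ≤ d) {p v : Pt}
    (hp1 : |(dp e p).1 - z.1| ≤ 3 * (e * s) + 2 * e) (hp2 : |(dp e p).2 - z.2| ≤ 3 * (e * s) + 2 * e)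
    (hv : dp e v ∈ Metric.closedBall x (d / 2)) {K : ℝ} (hK : 16 ≤ K) :
    |((v.1 - p.1 : ℤ) : ℝ)| ≤ K * s ∧ |((v.2 - p.2 : ℤ) : ℝ)| ≤ K * s := by
  rw [Metric.mem_closedBall, Prod.dist_eq, Real.dist_eq, Real.dist_eq, max_le_iff] at hv
  rw [Prod.dist_eq, Real.dist_eq, Real.dist_eq, max_le_iff] at hxz
  have hs' : (1 : ℝ) ≤ s := by exact_mod_cast hs
  have h0' : e ≤ e * s := by
    have := mul_le_mul_of_nonneg_left hs' he.le
    linarith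
  have key : ∀ a b c q : ℝ, |a - b| ≤ d / 2 → |b - c| ≤ d → |q - c| ≤ 3 * (e * s) + 2 * e →
      |a - q| ≤ e * (10 * s) := by
    intro a b c q h1 h2 h3
    have : a - q = (a - b) + (b - c) - (q - c) := by ring
    rw [this]
    have i1 := abs_sub ((a - b) + (b - c)) (q - c)
    have i2 := abs_add_le (a - b) (b - c)
    linarith
  obtain ⟨a1, a2⟩ := dp_ge he (key _ _ _ _ hv.1 hxz.1 hp1) (key _ _ _ _ hv.2 hxz.2 hp2)
  have h3 : 16 * (s : ℝ) ≤ K * s := mul_le_mul_of_nonneg_right hK (by linarith)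
  push_cast
  exact ⟨a1.trans (by linarith), a2.trans (by linarith)⟩

theorem u_leD {e d s : ℝ} (he : 0 < e) (hd : 0 < d) (hs : 0 < s) (hes : e * s ≤ 101 / 100 * d)
    {y K : ℝ} (hy : y ≤ Z0⁻¹ * ((d / 2) ^ 2)⁻¹) (hK : 5 * Z0⁻¹ ≤ K) : e ^ 2 * y ≤ K / s ^ 2 := by
  have hZ : 0 < Z0⁻¹ := inv_pos.2 Vale.Agent.P145.PT.Z0_pos
  have h1 : (e * s) ^ 2 ≤ (101 / 100 * d) ^ 2 := pow_le_pow_left₀ (by positivity) hes 2
  rw [le_div_iff₀ (by positivity)]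
  calc e ^ 2 * y * s ^ 2 = (e * s) ^ 2 * y := by ring
    _ ≤ (e * s) ^ 2 * (Z0⁻¹ * ((d / 2) ^ 2)⁻¹) := mul_le_mul_of_nonneg_left hy (sq_nonneg _)
    _ ≤ (101 / 100 * d) ^ 2 * (Z0⁻¹ * ((d / 2) ^ 2)⁻¹) :=
        mul_le_mul_of_nonneg_right h1 (by positivity)
    _ = (101 / 100) ^ 2 * 4 * Z0⁻¹ := by field_simp; ring
    _ ≤ 5 * Z0⁻¹ := by nlinarith
    _ ≤ K := hK

theorem s_bump {P : Measure (Pt → ℤ)} (hlow : S_low P)
    (hmom : S_mom P) (hrsw : S_rsw P) (hloc : S_loc) {δ : ℕ → ℝ} (hδ : ∀ n, 0 < δ n)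
    (hlim : Tendsto δ atTop (𝓝 0)) : S_bump δ := by
  intro D hD hb hT
  obtain ⟨g, hg, hT⟩ := hT
  set K : ℝ := max 16 (5 * Z0⁻¹) with hK
  have hK10 : 16 ≤ K := le_max_left _ _
  obtain ⟨C, s₁, hs₁, hmom⟩ := hmom K 2 (by linarith)
  obtain ⟨c₁, hc₁, r₀, hr₀, hrsw⟩ := hrsw
  refine ⟨|C| / c₁ + 1, g / 16, by positivity, by positivity, fun x hx hxr => ?_⟩
  have hd0 : 0 < dd D x := (Vale.Agent.P145.PT.dd_pos hD hb).2 hx
  obtain ⟨z₀, hz₀, hdz⟩ :=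
    hD.isClosed_compl.exists_infDist_eq_dist (Vale.Agent.P145.PT.compl_ne hb) x
  have hdz' : dist x z₀ = dd D x := hdz.symm
  generalize dd D x = d at hxr hd0 hdz' ⊢
  have hN₀1 : (1 : ℝ) ≤ max (s₁ : ℝ) r₀ := le_max_of_le_left (by exact_mod_cast hs₁)
  have hev : ∀ᶠ n in atTop, δ n < min (d / 100) (d / max (s₁ : ℝ) r₀) :=
    (tendsto_order.1 hlim).2 _ (lt_min (by positivity) (by positivity))
  filter_upwards [hev] with n hn
  have hδn := hδ n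
  generalize δ n = e at hn hδn ⊢
  have he1 : e < d / 100 := hn.trans_le (min_le_left _ _)
  obtain ⟨hes1, hes3, hsN⟩ := scaleD hδn hN₀1 he1 (hn.trans_le (min_le_right _ _))
  generalize ⌈d / e⌉ = s at hes1 hes3 hsN
  have hss : s₁ ≤ s := by exact_mod_cast (le_max_left (s₁ : ℝ) r₀).trans hsN
  have hsr : r₀ ≤ s := by exact_mod_cast (le_max_right (s₁ : ℝ) r₀).trans hsN
  have hs0 : 1 ≤ s := hs₁.trans hss
  have hs0' : (0 : ℝ) < s := by exact_mod_cast hs0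
  obtain ⟨p, hp, hpz1, hpz2⟩ := exists_boxD hg hT hz₀ hδn (W := s) hs0 (by linarith)
  set b : ℝ × ℝ → ℝ := bump (d / 2) x with hbdef
  have hbs : ∀ z, b z ≠ 0 → z ∈ Metric.closedBall x (d / 2) := fun z hz =>
    Vale.Agent.P145.PT.bump_supp (by linarith) x hz
  have hb0 : ∀ z, 0 ≤ b z := fun z => Vale.Agent.P145.PT.bump_nonneg _ _ _
  obtain ⟨u, hu, hus⟩ := exists_uD hδn hbs
  have hs3 : √3 / 2 ≤ 1 := by
    have : √3 ≤ 2 := by
      rw [Real.sqrt_le_left (by norm_num)]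
      norm_num
    linarith
  have h1 := hmom s hss p u (fun v => by
      rw [hu]
      refine ⟨mul_nonneg (sq_nonneg _) (mul_nonneg (by positivity) (hb0 _)),
        u_leD hδn hd0 hs0' hes3 ?_ (le_max_right _ _)⟩
      have h2 : √3 / 2 * b (dp e v) ≤ 1 * b (dp e v) := mul_le_mul_of_nonneg_right hs3 (hb0 _)
      rw [one_mul] at h2
      exact h2.trans (bump_leD _ _ _))
    (fun v hv => by
      rw [hu] at hv
      exact pos_bD hδn hes1 hs0 hdz'.le hpz1 hpz2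
        (hbs _ (right_ne_zero_of_mul (right_ne_zero_of_mul hv))) hK10)
  have e1 : (fun ω : Om => (u.sum fun v a => a * ω v) ^ (2 * 2)) = fun ω => hv e b ω ^ 4 := by
    funext ω
    rw [hus]
  rw [e1] at h1
  obtain ⟨-, hf1⟩ := hloc p s hs0
  have hΘ : Fn (tE (Vs e D : Set Pt))ᶜ (ind (Zr p s)) :=
    hf1.monoD fun w hw => iE_compl hδn hb hp hw.1
  have h2 := hlow (Vs e D) (ind (Zr p s)) (fun ω => hv e b ω ^ 4) hΘ
    (cone_hvD hδn hb0
      (HasCompactSupport.intro' (isCompact_closedBall x (d / 2)) Metric.isClosed_closedBall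
        fun z hz => by_contra fun h => hz (hbs z h)) 4)
  have h3 := (hrsw s hsr p).1
  show ze (Vs e D) (fun x' => hv e b x' ^ 4) ≤ |C| / c₁ + 1
  have n1 : 0 ≤ ze (Vs e D) (fun x' => hv e b x' ^ 4) :=
    ze_nonnegD _ fun x' => by positivity
  have h4 : ze (Vs e D) (fun x' => hv e b x' ^ 4) * c₁ ≤ |C| :=
    (mul_le_mul_of_nonneg_left h3 n1).trans (h2.trans (h1.trans (le_abs_self C)))
  have h5 : ze (Vs e D) (fun x' => hv e b x' ^ 4) ≤ |C| / c₁ := by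
    rw [le_div_iff₀ hc₁]; exact h4
  linarith

/-- The decay at the boundary. -/
theorem s_dec {P : Measure (Pt → ℤ)} (hint : S_int P)
    (hlow : S_low P) (hlowc : S_lowc P) (hgap : S_gap P) (hmom : S_mom P)
    (hrsw : S_rsw P) (hloc : S_loc) (hconf : S_conf) {δ : ℕ → ℝ} (hδ : ∀ n, 0 < δ n)
    (hlim : Tendsto δ atTop (𝓝 0)) (hmb : Top.S_mb δ) : Top.S_dec δ :=
  s_dec_of hint hlowc hgap hrsw hloc hconf hδ hlim hmb
    (s_bump hlow hmom hrsw hloc hδ hlim)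

end Vale.Agent.P153.F.X
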