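import Vale.Agent.P153.F.X.Stmt

/-!
P153-F, block X: FAR, a big circuit far away on the left, at a centre of the same net (mirror of
`P145/X/Far.lean`).
-/

namespace Vale.Agent.P153.F.X

open Filter Topology Set MeasureTheory
open Vale.Agent.P153
open Vale.Agent.P153.F.Top (dp c1)

/-- The lattice coordinate of the end of an edge of a box. -/
theorem far_q {p : Pt} {r : ℤ} {w x y : Pt} (hw : w ∈ iE (bx p r)) (h : Adj x y) (hxy : w = x + y) :
    x.1 ≤ p.1 + r := by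
  obtain ⟨x', hx', y', hy', -, rfl⟩ := hw
  have h1 := (abs_le.1 hx'.1).2
  have h2 := (abs_le.1 hy'.1).2
  have h3 := congrArg Prod.fst hxy
  simp only [Prod.fst_add] at h3
  have h4 : x.1 ≤ y.1 + 1 := by
    simp only [Adj, Set.mem_insert_iff, Set.mem_singleton_iff, Prod.mk.injEq] at h
    omega
  omega

theorem far_c1 (δ : ℝ) (x : Pt) : c1 (dp δ x) = δ * x.1 := by
  unfold c1 dp
  have h3 : (√3 : ℝ) ≠ 0 := by positivity
  field_simp
  ring

/-- FAR. -/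
theorem far : S_far := by
  intro D a hD
  obtain ⟨ρ, hρ⟩ := hD.subset_ball (0 : ℝ × ℝ)
  obtain ⟨K, hK⟩ : ∃ K : ℝ, K = |a| + 2 * |ρ| + 40 := ⟨_, rfl⟩
  have hx0 := abs_nonneg a
  have hx1 := neg_abs_le a
  have hr0 := abs_nonneg ρ
  have hr1 := le_abs_self ρ
  have hR1 : (1 : ℝ) ≤ 2 * K + 1 := by linarith
  refine ⟨2 * K + 1, hR1, hρ.trans (Metric.ball_subset_ball (by linarith)), ?_⟩
  intro m ε hε hme
  refine ⟨(⌈2 * K / ε⌉ + 8 * ⌈1 / ε⌉).toNat, fun j hj => ?_⟩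
  obtain ⟨σ, hσ⟩ : ∃ σ : ℝ, σ = 4 ^ (j + 1) * ε := ⟨_, rfl⟩
  have hσε : ε ≤ σ := by
    rw [hσ]
    have : (1 : ℝ) ≤ 4 ^ (j + 1) := one_le_pow₀ (by norm_num)
    nlinarith
  have hσ0 : 0 < σ := lt_of_lt_of_le hε hσε
  have hσ1 : σ ≤ 1 := by
    have h : (4 : ℝ) ^ (j + 1) ≤ 4 ^ (m + 2) := pow_le_pow_right₀ (by norm_num) (by omega)
    rw [hσ]
    exact (mul_le_mul_of_nonneg_right h hε.le).trans hme
  have hev : ∀ᶠ δ in 𝓝[>] (0 : ℝ), δ ∈ Set.Ioo (0 : ℝ) (min 1 (ε / 2)) :=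
    Ioo_mem_nhdsGT (lt_min one_pos (by positivity))
  filter_upwards [hev] with δ hδ
  obtain ⟨h0, h12⟩ := hδ
  have h1 : δ < 1 := h12.trans_le (min_le_left _ _)
  have h2 : δ < ε / 2 := h12.trans_le (min_le_right _ _)
  obtain ⟨s, hs⟩ : ∃ s : ℤ, s = sc ε δ (j + 1) := ⟨_, rfl⟩
  have hfl1 : δ * (⌊ε / δ⌋ : ℝ) ≤ ε := by
    have := Int.floor_le (ε / δ)
    calc δ * (⌊ε / δ⌋ : ℝ) ≤ δ * (ε / δ) := mul_le_mul_of_nonneg_left this h0.le
      _ = ε := by field_simp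
  have hfl2 : ε / 2 ≤ δ * (⌊ε / δ⌋ : ℝ) := by
    have := Int.lt_floor_add_one (ε / δ)
    have h3 : ε < δ * ((⌊ε / δ⌋ : ℝ) + 1) := by
      rw [div_lt_iff₀ h0] at this
      linarith
    linarith
  have hsr : δ * (s : ℝ) = 4 ^ (j + 1) * (δ * (⌊ε / δ⌋ : ℝ)) := by
    rw [hs, sc]; push_cast; ring
  have hp : (0 : ℝ) ≤ 4 ^ (j + 1) := by positivity
  have hs1 : σ / 2 ≤ δ * (s : ℝ) := by
    rw [hsr, hσ]
    nlinarith [mul_le_mul_of_nonneg_left hfl2 hp]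
  have hs2 : δ * (s : ℝ) ≤ σ := by
    rw [hsr, hσ]
    exact mul_le_mul_of_nonneg_left hfl1 hp
  rw [← hs]
  obtain ⟨M, hM⟩ : ∃ M : ℤ, M = ⌈2 * K / σ⌉ := ⟨_, rfl⟩
  obtain ⟨l, hl⟩ : ∃ l : ℤ, l = ⌈1 / σ⌉ := ⟨_, rfl⟩
  have hK0 : 0 < K := by linarith
  have hM1 : 2 * K / σ ≤ M := by rw [hM]; exact Int.le_ceil _
  have hM2 : (M : ℝ) < 2 * K / σ + 1 := by rw [hM]; exact Int.ceil_lt_add_one _
  have hl1 : 1 / σ ≤ l := by rw [hl]; exact Int.le_ceil _
  have hl2 : (l : ℝ) < 1 / σ + 1 := by rw [hl]; exact Int.ceil_lt_add_one _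
  rw [div_le_iff₀ hσ0] at hM1 hl1
  have hM3 : (M : ℝ) * σ ≤ 2 * K + σ := by
    have := mul_le_mul_of_nonneg_right hM2.le hσ0.le
    rwa [add_mul, one_mul, div_mul_cancel₀ _ hσ0.ne'] at this
  have hl3 : (l : ℝ) * σ ≤ 1 + σ := by
    have := mul_le_mul_of_nonneg_right hl2.le hσ0.le
    rwa [add_mul, one_mul, div_mul_cancel₀ _ hσ0.ne'] at this
  have hlp : 0 < l := by rw [hl]; exact Int.ceil_pos.2 (by positivity)
  have hMp : 0 < M := by rw [hM]; exact Int.ceil_pos.2 (by positivity)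
  have hlr : (0 : ℝ) < l := by exact_mod_cast hlp
  have hMr : (0 : ℝ) < M := by exact_mod_cast hMp
  have hMN : M ≤ ⌈2 * K / ε⌉ := by
    rw [hM]
    exact Int.ceil_le_ceil (div_le_div_of_nonneg_left (by positivity) hε hσε)
  have hlN : l ≤ ⌈1 / ε⌉ := by
    rw [hl]
    exact Int.ceil_le_ceil (div_le_div_of_nonneg_left (by positivity) hε hσε)
  -- the scaled centre and radius
  have hc1 : K ≤ (M : ℝ) * (δ * s) := by
    have := mul_le_mul_of_nonneg_left hs1 hMr.le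
    linarith
  have hc2 : (M : ℝ) * (δ * s) ≤ 2 * K + 1 := by
    have := mul_le_mul_of_nonneg_left hs2 hMr.le
    linarith
  have hd1 : 1 / 2 ≤ (l : ℝ) * (δ * s) := by
    have := mul_le_mul_of_nonneg_left hs1 hlr.le
    linarith
  have hd2 : (l : ℝ) * (δ * s) ≤ 2 := by
    have := mul_le_mul_of_nonneg_left hs2 hlr.le
    linarith
  refine ⟨(-M, 0), l, by omega, ?_, ?_, ?_, ?_, ?_, ?_, ?_, ?_⟩
  · simp only [abs_neg, abs_of_pos hMp]
    rw [Int.toNat_of_nonneg (by omega)]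
    omega
  · simp only [abs_zero]
    rw [Int.toNat_of_nonneg (by omega)]
    omega
  · have : δ * ((ce s (-M, 0)).1 : ℝ) = -((M : ℝ) * (δ * s)) := by
      simp only [ce]; push_cast; ring
    rw [this, abs_neg, abs_of_nonneg (by linarith)]
    exact hc2
  · have : δ * ((ce s (-M, 0)).2 : ℝ) = 0 := by
      simp only [ce]; push_cast; ring
    rw [this, abs_zero]
    linarith
  · have h5 : (2 * K + 1)⁻¹ ≤ 1 / 2 := by
      rw [inv_eq_one_div]
      exact one_div_le_one_div_of_le two_pos (by linarith)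
    push_cast
    nlinarith
  · push_cast
    nlinarith
  · intro w hw x y hxy hwxy
    have h6 := far_q hw hxy hwxy
    simp only [ce] at h6
    have h7 : (x.1 : ℝ) ≤ s * (-M) + 8 * (l * s) := by exact_mod_cast h6
    have h8 := mul_le_mul_of_nonneg_left h7 h0.le
    show c1 (dp δ x) ≤ a - 1
    rw [far_c1]
    have h9 : δ * ((s : ℝ) * (-M) + 8 * (l * s)) =
        -((M : ℝ) * (δ * s)) + 8 * ((l : ℝ) * (δ * s)) := by ring
    rw [h9] at h8
    linarith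
  · intro v hv hvb
    have hb := hρ hv
    rw [mem_ball_zero_iff, Prod.norm_def, max_lt_iff] at hb
    have hb1 := (abs_lt.1 hb.1).1
    have hb2 := (abs_lt.1 hb.2).2
    simp only [dp] at hb1 hb2
    have h3 : (1 : ℝ) ≤ √3 := by
      rw [Real.le_sqrt (by norm_num) (by norm_num)]
      norm_num
    have h10 : δ * (v.2 : ℝ) / 2 ≤ |ρ| := by
      by_cases hneg : δ * (v.2 : ℝ) ≤ 0
      · linarith
      · push Not at hneg
        nlinarith
    obtain ⟨hv1, -⟩ := hvb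
    have h6 := (abs_le.1 hv1).2
    simp only [ce] at h6
    have h7 : (v.1 : ℝ) ≤ s * (-M) + 8 * (l * s) := by
      have : v.1 ≤ s * (-M) + 8 * (l * s) := by linarith
      exact_mod_cast this
    have h8 := mul_le_mul_of_nonneg_left h7 h0.le
    have h9 : δ * ((s : ℝ) * (-M) + 8 * (l * s)) =
      -((M : ℝ) * (δ * s)) + 8 * ((l : ℝ) * (δ * s)) := by ring
    rw [h9] at h8
    linarith

end Vale.Agent.P153.F.X
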