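import Vale.Agent.P153.F.X.Frame
import Vale.Agent.P153.F.X.SandT

/-!
P153-F, X-level (mirror of `P145.X.FrB`): the sandwich half of the frame from `Sb.sand_n`.
-/

set_option autoImplicit false

namespace Vale.Agent.P153.F.X

open Filter Topology Set MeasureTheory
open Vale.Agent.P153
open Vale.Agent.P145.PT Vale.Agent.P153.F.Top

theorem nuInt_of {P : Measure (Pt → ℤ)} (hint : S_int P) : NuInt P (Sb.nuX P) :=
  fun _ h h0 hpos _ hA => Sb.nuX_int hint h h0 hpos hA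

theorem sandH_of {P : Measure (Pt → ℤ)} {δ : ℕ → ℝ} (hm : S_mono)
    (hint : S_int P) (hlow : S_low P) (hup : S_up P) (hemom : S_emom P)
    (hloc : S_loc) (hrsw : S_rsw P) (hδ : ∀ n, 0 < δ n) (hlim : Tendsto δ atTop (𝓝 0))
    (hmm : S_mm P δ) : SandH P δ (Sb.nuX P) := by
  intro D₁ D₂ hD1 _ hb hcl R hR hDR L hL
  obtain ⟨C, hC0, hC⟩ := Sb.sand_n hm hint hlow hup hemom hloc hrsw hδ hlim hmm hD1 hb
    (subset_closure.trans hcl) hR hDR L hL
  refine ⟨C, hC0, fun η hη => ?_⟩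
  filter_upwards [hC] with n hn Q p s
  exact hn η Q p s hη

/-- `S_xst0` from the X-level statements and the Schwinger-Dyson half. -/
theorem xst0_of' {κ : ℝ} {P : Measure (Pt → ℤ)} {δ : ℕ → ℝ}
    (hδ : ∀ n, 0 < δ n) (hlim : Tendsto δ atTop (𝓝 0)) (hm : S_mono) (hint : S_int P)
    (hlow : S_low P) (hup : S_up P) (hL : S_loc) (hrsw : S_rsw P) (hgap : S_gap P)
    (hpos : S_pos P) (hemom : S_emom P) (hmm : S_mm P δ) (hgeom : S_geom) (hfar : S_far)
    (hsd : SdH κ P δ) : S_xst0 κ δ :=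
  xst0_of hδ hlim hint hL hrsw hgap hpos hemom hmm hgeom hfar (nuInt_of hint)
    (sandH_of hm hint hlow hup hemom hL hrsw hδ hlim hmm) hsd

end Vale.Agent.P153.F.X
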