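import Vale.Agent.P153.F.X.Shell
import Vale.Agent.P153.F.X.Stmt
import Vale.Agent.P153.F.Top.Zm

/-!
P153-F, block X: SHELL, the net of circuits and the closing circuits.
-/

namespace Vale.Agent.P153.F.X

open Filter Topology Set Relation Metric
open Vale.Agent.P153
open Vale.Agent.P153.F.Top (dp c1 c2 Vs mem_Vs)
open Vale.Agent.P145.X (CBox fpt cen shell_symm dist_fpt_le abs_infDist_sub_le shell_bdd)

/-! ### Steps -/

theorem adj_le {x y : Pt} (h : Adj x y) : |x.1 - y.1| ≤ 1 ∧ |x.2 - y.2| ≤ 1 := by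
  unfold Adj at h
  simp only [mem_insert_iff, mem_singleton_iff, Prod.mk.injEq] at h
  rw [abs_le, abs_le]
  omega

theorem adj_symm' {x y : Pt} (h : Adj x y) : Adj y x := by
  unfold Adj at h ⊢
  simp only [mem_insert_iff, mem_singleton_iff, Prod.mk.injEq] at h ⊢
  omega

theorem stp_symm (B : Set Pt) (x y : Pt) (h : stp B x y) : stp B y x :=
  ⟨adj_symm' h.1, by rw [add_comm]; exact h.2⟩

theorem stp_le (B : Set Pt) (x y : Pt) (h : stp B x y) : |x.1 - y.1| ≤ 1 ∧ |x.2 - y.2| ≤ 1 :=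
  adj_le h.1

theorem iE_near {F : Set Pt} {w x y : Pt} (hw : w ∈ iE F) (hxy : Adj x y) (e : w = x + y) :
    ∃ x' ∈ F, |x.1 - x'.1| ≤ 1 ∧ |x.2 - x'.2| ≤ 1 := by
  obtain ⟨x', hx', y', -, hxy', e'⟩ := hw
  refine ⟨x', hx', ?_⟩
  have h1 := adj_le hxy
  have h2 := adj_le hxy'
  rw [abs_le, abs_le] at h1 h2 ⊢
  rw [e] at e'
  have h3 := congrArg Prod.fst e'
  have h4 := congrArg Prod.snd e'
  simp only [Prod.fst_add, Prod.snd_add] at h3 h4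
  omega

/-! ### Lattice coordinates -/

/-- The point with lattice coordinates `q`. -/
noncomputable def LL (q : ℝ × ℝ) : ℝ × ℝ := (q.1 + q.2 / 2, √3 / 2 * q.2)

theorem dp_eq (δ : ℝ) (v : Pt) : dp δ v = LL (fpt δ v) := by
  unfold dp LL fpt
  exact Prod.ext (by simp only; ring) (by simp only; ring)

theorem c1_LL (q : ℝ × ℝ) : c1 (LL q) = q.1 := by
  have h3 : √3 ≠ 0 := by positivity
  simp only [c1, LL]
  field_simp
  ring

theorem c2_LL (q : ℝ × ℝ) : c2 (LL q) = q.2 := by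
  have h3 : √3 ≠ 0 := by positivity
  simp only [c2, LL]
  field_simp

theorem LL_c (z : ℝ × ℝ) : LL (c1 z, c2 z) = z := by
  have h3 : √3 ≠ 0 := by positivity
  unfold LL c1 c2
  refine Prod.ext ?_ ?_
  · simp only
    field_simp
    ring
  · simp only
    field_simp

theorem LL_cont : Continuous LL := by
  unfold LL
  fun_prop

theorem c_dist (z z' : ℝ × ℝ) : dist (c1 z, c2 z) (c1 z', c2 z') ≤ 2 * dist z z' := by
  have hs : (1 : ℝ) < √3 := by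
    rw [Real.lt_sqrt (by norm_num)]; norm_num
  have h1 := abs_fst_le z z'
  have h2 := abs_snd_le z z'
  have hd : 0 ≤ dist z z' := dist_nonneg
  have h4 : |(z.2 - z'.2) / √3| ≤ |z.2 - z'.2| := by
    rw [abs_div, abs_of_pos (by linarith : (0 : ℝ) < √3)]
    exact div_le_self (abs_nonneg _) hs.le
  refine dist_le_of ?_ ?_
  · simp only [c1]
    rw [show z.1 - z.2 / √3 - (z'.1 - z'.2 / √3) = (z.1 - z'.1) - (z.2 - z'.2) / √3 by ring]
    exact (abs_sub _ _).trans (by linarith)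
  · simp only [c2]
    rw [show 2 * z.2 / √3 - 2 * z'.2 / √3 = 2 * ((z.2 - z'.2) / √3) by ring, abs_mul, abs_two]
    linarith

theorem LL_bdd {D : Set (ℝ × ℝ)} (hD : Bornology.IsBounded D) :
    Bornology.IsBounded (LL ⁻¹' D) := by
  obtain ⟨R, hR⟩ := hD.subset_closedBall (0 : ℝ × ℝ)
  refine (Metric.isBounded_closedBall (x := (0 : ℝ × ℝ)) (r := 2 * R)).subset fun q hq => ?_
  have h1 : dist (LL q) 0 ≤ R := hR hq
  have h2 := c_dist (LL q) 0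
  rw [c1_LL, c2_LL] at h2
  have e : ((c1 (0 : ℝ × ℝ), c2 (0 : ℝ × ℝ)) : ℝ × ℝ) = 0 := by
    simp [c1, c2]
  rw [e] at h2
  show dist q 0 ≤ 2 * R
  exact h2.trans (by linarith)

theorem LL_closure {D₁ D₂ : Set (ℝ × ℝ)} (h : closure D₁ ⊆ D₂) :
    closure (LL ⁻¹' D₁) ⊆ LL ⁻¹' D₂ := by
  have h1 : closure (LL ⁻¹' D₁) ⊆ LL ⁻¹' closure D₁ :=
    closure_minimal (preimage_mono subset_closure) (isClosed_closure.preimage LL_cont)
  exact h1.trans (preimage_mono h)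

/-! ### Domains -/

theorem of_mem_Vs {δ : ℝ} (hδ : 0 < δ) {D : Set (ℝ × ℝ)} (hD : Bornology.IsBounded D) {v : Pt}
    (h : v ∈ Vs δ D) : fpt δ v ∈ LL ⁻¹' D := by
  rw [mem_Vs hδ hD] at h
  show LL (fpt δ v) ∈ D
  rw [← dp_eq]
  exact h (mem_closedBall_self (by positivity))

theorem le_infDist_of_notMem {δ r : ℝ} (hδ : 0 < δ) {D₂ D' : Set (ℝ × ℝ)}
    (hD₂ : Bornology.IsBounded D₂) (h : ∀ z, infDist z D' < r → z ∈ LL ⁻¹' D₂)
    {v : Pt} (hv : v ∉ Vs δ D₂) : r - 4 * δ ≤ infDist (fpt δ v) D' := by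
  rw [mem_Vs hδ hD₂] at hv
  obtain ⟨z, hz, hzD⟩ := Set.not_subset.1 hv
  have h1 : r ≤ infDist (c1 z, c2 z) D' := by
    by_contra hc
    have h2 := h _ (not_le.1 hc)
    rw [mem_preimage, LL_c] at h2
    exact hzD h2
  have h2 := abs_le.1 (abs_infDist_sub_le D' (c1 z, c2 z) (fpt δ v))
  have h3 := c_dist z (dp δ v)
  rw [dp_eq, c1_LL, c2_LL, ← dp_eq] at h3
  have h4 : dist z (dp δ v) ≤ 2 * δ := hz
  have h5 : dist ((c1 z, c2 z) : ℝ × ℝ) (fpt δ v) ≤ 4 * δ := h3.trans (by linarith)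
  linarith [h2.1, h2.2]

theorem exists_thick {D₁ D₂ : Set (ℝ × ℝ)} (h0 : D₁.Nonempty) (h2 : IsOpen D₂)
    (hb : Bornology.IsBounded D₂) (h : closure D₁ ⊆ D₂) :
    ∃ r : ℝ, 0 < r ∧ ∀ z, infDist z D₁ < r → z ∈ D₂ := by
  have hc : IsCompact (closure D₁) :=
    Metric.isCompact_of_isClosed_isBounded isClosed_closure (hb.subset h)
  obtain ⟨r, hr, hr'⟩ := hc.exists_thickening_subset_open h2 h
  refine ⟨r, hr, fun z hz => hr' ?_⟩
  rw [Metric.mem_thickening_iff]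
  obtain ⟨p, hp, hpz⟩ := (infDist_lt_iff h0).1 hz
  exact ⟨p, subset_closure hp, hpz⟩

theorem dist_near {δ : ℝ} (hδ : 0 ≤ δ) {p x x' : Pt} {r : ℤ} (hx' : x' ∈ bx p r)
    (h1 : |x.1 - x'.1| ≤ 1) (h2 : |x.2 - x'.2| ≤ 1) :
    dist (fpt δ x) (fpt δ p) ≤ δ * (r + 1) := by
  obtain ⟨h3, h4⟩ := hx'
  have h5 : dist (fpt δ x) (fpt δ p) ≤ δ * ((r + 1 : ℤ) : ℝ) := by
    refine dist_fpt_le hδ ?_ ?_ <;> rw [abs_le] at * <;> omega
  push_cast at h5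
  exact h5

theorem iE_bx_sub {δ : ℝ} (hδ : 0 < δ) {D₁ : Set (ℝ × ℝ)} (hb : Bornology.IsBounded D₁)
    {p : Pt} {r : ℤ} (h : δ * (r + 1) < infDist (fpt δ p) (LL ⁻¹' D₁)) :
    iE (bx p r) ⊆ (tE (Vs δ D₁ : Set Pt))ᶜ := by
  rintro w hw ⟨x, hx, y, hxy, e⟩
  obtain ⟨x', hx', h1, h2⟩ := iE_near hw hxy e
  have h3 := dist_near hδ.le hx' h1 h2
  have h4 := infDist_le_dist_of_mem (x := fpt δ p) (of_mem_Vs hδ hb hx)
  rw [dist_comm] at h4
  linarith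

/-! ### Scales -/

theorem cen_ce {δ : ℝ} (hδ : 0 < δ) (w : ℤ) (y : Pt) : cen (δ * w) δ y = ce w y := by
  have key : ∀ x : ℤ, ⌊δ * (w : ℝ) * (x : ℝ) / δ⌋ = w * x := by
    intro x
    have : δ * (w : ℝ) * (x : ℝ) / δ = ((w * x : ℤ) : ℝ) := by
      push_cast
      field_simp
    rw [this, Int.floor_intCast]
  exact Prod.ext (key y.1) (key y.2)

theorem fpt_ce (δ : ℝ) (w : ℤ) (y : Pt) : fpt (δ * w) y = fpt δ (ce w y) := by
  refine Prod.ext ?_ ?_ <;> simp only [fpt, ce] <;> push_cast <;> ring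

theorem sc_le {ε δ : ℝ} (hδ : 0 < δ) (i : ℕ) : δ * (sc ε δ i : ℝ) ≤ 4 ^ i * ε := by
  have h := Int.floor_le (ε / δ)
  rw [le_div_iff₀ hδ] at h
  have h2 : δ * (sc ε δ i : ℝ) = 4 ^ i * ((⌊ε / δ⌋ : ℝ) * δ) := by
    unfold sc
    push_cast
    ring
  rw [h2]
  exact mul_le_mul_of_nonneg_left h (by positivity)

theorem le_sc {ε δ : ℝ} (hδ : 0 < δ) (hε : 2 * δ ≤ ε) (i : ℕ) :
    4 ^ i * (ε / 2) ≤ δ * (sc ε δ i : ℝ) := by
  have h := Int.lt_floor_add_one (ε / δ)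
  rw [div_lt_iff₀ hδ] at h
  have h2 : δ * (sc ε δ i : ℝ) = 4 ^ i * ((⌊ε / δ⌋ : ℝ) * δ) := by
    unfold sc
    push_cast
    ring
  rw [h2]
  exact mul_le_mul_of_nonneg_left (by linarith) (by positivity)

theorem sc_add (ε δ : ℝ) (i k : ℕ) : sc ε δ (i + k) = 4 ^ k * sc ε δ i := by
  unfold sc
  rw [pow_add]
  ring

theorem abs_le_of_sc {ε δ M : ℝ} (hδ : 0 < δ) (hε : 2 * δ ≤ ε) (i : ℕ) {x : ℤ}
    (h : |δ * ((sc ε δ i * x : ℤ) : ℝ)| ≤ M) : |x| ≤ (⌈2 * M / ε⌉₊ : ℤ) := by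
  have hε0 : 0 < ε := by linarith
  have h1 := le_sc hδ hε i
  have h2 : (1 : ℝ) ≤ 4 ^ i := one_le_pow₀ (by norm_num)
  have h3 : ε / 2 ≤ δ * (sc ε δ i : ℝ) := by nlinarith
  have h4 : |δ * ((sc ε δ i * x : ℤ) : ℝ)| = δ * (sc ε δ i : ℝ) * |(x : ℝ)| := by
    push_cast
    rw [← mul_assoc, abs_mul, abs_of_nonneg (by linarith : (0 : ℝ) ≤ δ * (sc ε δ i : ℝ))]
  rw [h4] at h
  have h5 : |(x : ℝ)| ≤ 2 * M / ε := by
    rw [le_div_iff₀ hε0]
    nlinarith [abs_nonneg (x : ℝ)]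
  have h6 := h5.trans (Nat.le_ceil _)
  exact_mod_cast h6

/-! ### The theorem -/

theorem geo_cbox {B : Set Pt} {p : Pt} {r : ℤ} (hr : 0 ≤ r)
    (h : Conf B (bx p r) (bx p (2 * r))) : CBox (stp B) p r (3 * r) := by
  intro u v h1 h2 huv
  obtain ⟨h3, h4⟩ := h u ⟨h1, h2⟩ v huv
  exact ⟨h3.trans (by omega), h4.trans (by omega)⟩

/-- The circuits at the centres and the closing circuits confine the clusters. -/
theorem geo_path (hC : S_conf) {D' D₂ : Set (ℝ × ℝ)} (hb : Bornology.IsBounded D₂)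
    {g : ℝ} (hgD : ∀ z, infDist z D' < g → z ∈ LL ⁻¹' D₂) {a c ε δ w : ℝ} (hδ : 0 < δ)
    (hε : 0 < ε) (hδε : 100 * δ ≤ ε) {n : ℤ} {j m : ℕ} (hn : n = sc ε δ (j + 1))
    (hw : w = δ * (n : ℝ)) (hεw : ε ≤ w) (hwg : 1000 * w ≤ g)
    (hTε : 1000 * (4 ^ m * ε) ≤ g) (hq₀ : (a - ε / 2, c + ε / 2 - (a - ε / 2)) ∈ D') {B : Set Pt}
    (hY : ∀ y, Good D' (a - ε / 2) (c + ε / 2) (ε / 2) w (g / 4) (g / 2) y → Zr (ce n y) n B)
    (hQ : ∀ i k, Sp D' (a - ε / 2) (c + ε / 2) (g / 16) (g / 4) (g / 2) i k →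
      ∃ y i', dist (sp (a - ε / 2) (c + ε / 2) (g / 16) i k) (fpt w y) ≤
        ε / 2 + 17 / 2 * w ∧ j + 4 ≤ i' ∧ i' ≤ m ∧ Zr (ce n y) (sc ε δ i') B)
    {f f' : Pt} (hf : f ∉ Vs δ D₂) (hf' : fpt δ f' ∈ D') : ¬ ReflTransGen (stp B) f f' := by
  intro hff'
  have hw0 : 0 < w := by linarith
  have hn1 : 1 ≤ n := by
    have h1 : δ * 0 < δ * (n : ℝ) := by rw [← hw]; linarith
    have h2 : (0 : ℝ) < n := lt_of_mul_lt_mul_left h1 hδ.le
    have h3 : 0 < n := by exact_mod_cast h2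
    omega
  have hf1 := le_infDist_of_notMem hδ hb hgD hf
  have hf2 : infDist (fpt δ f') D' = 0 := infDist_zero_of_mem hf'
  have hrev : ReflTransGen (stp B) f' f := shell_symm (stp_symm B) hff'
  have hXB : ∀ y, Good D' (a - ε / 2) (c + ε / 2) (ε / 2) w (g / 4) (g / 2) y →
      CBox (stp B) (cen w δ y) n (3 * n) := by
    intro y hy
    rw [hw, cen_ce hδ]
    exact geo_cbox (by omega) (hC _ _ _ hn1 (hY y hy))
  have hZB : ∀ i k, Sp D' (a - ε / 2) (c + ε / 2) (g / 16) (g / 4) (g / 2) i k →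
      ∃ (y : ℤ × ℤ) (R : ℤ),
      dist (sp (a - ε / 2) (c + ε / 2) (g / 16) i k) (fpt w y) ≤ ε / 2 + 17 / 2 * w ∧
      2 * (ε / 2) + 31 / 2 * w + 2 * δ ≤ δ * R ∧ 4 * δ * R < g / 8 ∧
      CBox (stp B) (cen w δ y) R (3 * R) := by
    intro i k hik
    obtain ⟨y, i', hd, hi1, hi2, hZ⟩ := hQ i k hik
    obtain ⟨k', rfl⟩ : ∃ k', i' = j + 1 + (3 + k') := ⟨i' - (j + 4), by omega⟩
    have h1 := sc_add ε δ (j + 1) (3 + k')
    have h2 : (64 : ℤ) ≤ 4 ^ (3 + k') := by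
      rw [pow_add]
      have : (1 : ℤ) ≤ 4 ^ k' := one_le_pow₀ (by norm_num)
      linarith
    rw [← hn] at h1
    obtain ⟨S, hS⟩ : ∃ S : ℤ, S = sc ε δ (j + 1 + (3 + k')) := ⟨_, rfl⟩
    have h4 : δ * (S : ℝ) ≤ 4 ^ m * ε := by
      rw [hS]
      refine (sc_le hδ _).trans (mul_le_mul_of_nonneg_right ?_ hε.le)
      exact pow_le_pow_right₀ (by norm_num) hi2
    rw [← hS] at h1 hZ
    have h3 : 64 * n ≤ S := by
      rw [h1]
      exact mul_le_mul_of_nonneg_right h2 (by omega)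
    have h5 : 64 * w ≤ δ * (S : ℝ) := by
      have h6 : (64 : ℝ) * n ≤ (S : ℝ) := by exact_mod_cast h3
      have h7 := mul_le_mul_of_nonneg_left h6 hδ.le
      rw [hw]
      linarith
    refine ⟨y, S, hd, by linarith, by linarith, ?_⟩
    rw [hw, cen_ce hδ]
    exact geo_cbox (by omega) (hC _ _ _ (by omega) hZ)
  refine shell_grid (E := stp B) (stp_symm B) (stp_le B) hq₀ (δ := δ) (W₀ := ε / 2) (w := w)
    (l := g / 16) (h := g / 8) (a := g / 4) (b := g / 2) hδ hw0 (by linarith) (by linarith)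
    (by linarith) (by linarith) (by linarith) (by linarith) (r := n) ?_ ?_ hXB hZB
    (u := f') (v := f) (by linarith) (by linarith) hrev
  · rw [← hw]
    linarith
  · rw [mul_assoc, ← hw]
    linarith

/-- The finite sets of centres. -/
theorem geo_sets {D' : Set (ℝ × ℝ)} (hb₁ : Bornology.IsBounded D') (hne : D'.Nonempty)
    {g M : ℝ} (hM : ∀ z, infDist z D' ≤ 2 * g → |z.1| ≤ M ∧ |z.2| ≤ M) {a c ε w : ℝ}
    (hε : 0 < ε) (hw0 : 0 < w) (hεw : ε ≤ w) (hwg : 1000 * w ≤ g)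
    (hq₀ : (a - ε / 2, c + ε / 2 - (a - ε / 2)) ∈ D') :
    ∃ Y Q : Finset Pt, Q ⊆ Y ∧
      Q.card ≤ ((Finset.univ : Finset (Fin 2)) ×ˢ
        Finset.Icc (-⌈M / (g / 16)⌉) ⌈M / (g / 16)⌉).card ∧
      (∀ y, y ∈ Y ↔ Good D' (a - ε / 2) (c + ε / 2) (ε / 2) w (g / 4) (g / 2) y) ∧
      ∀ i k, Sp D' (a - ε / 2) (c + ε / 2) (g / 16) (g / 4) (g / 2) i k →
        ∃ y ∈ Q, dist (sp (a - ε / 2) (c + ε / 2) (g / 16) i k) (fpt w y) ≤
          ε / 2 + 17 / 2 * w := by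
  classical
  have hfin := good_finite hb₁ hne (a₁ := a - ε / 2) (c₁ := c + ε / 2) (W₀ := ε / 2)
    (a := g / 4) (b := g / 2) hw0
  have hxc : ∀ q : Fin 2 × ℤ, ∃ y, Sp D' (a - ε / 2) (c + ε / 2) (g / 16) (g / 4) (g / 2) q.1
      q.2 → Good D' (a - ε / 2) (c + ε / 2) (ε / 2) w (g / 4) (g / 2) y ∧
      dist (sp (a - ε / 2) (c + ε / 2) (g / 16) q.1 q.2) (fpt w y) ≤ ε / 2 + 17 / 2 * w := by
    intro q
    by_cases h : Sp D' (a - ε / 2) (c + ε / 2) (g / 16) (g / 4) (g / 2) q.1 q.2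
    · obtain ⟨y, hy⟩ := exists_xc hq₀ hw0 (by linarith : 0 ≤ ε / 2) (by linarith) (by linarith) h
      exact ⟨y, fun _ => hy⟩
    · exact ⟨0, fun h' => absurd h' h⟩
  choose xc hxc using hxc
  refine ⟨hfin.toFinset, ((Finset.univ ×ˢ Finset.Icc (-⌈M / (g / 16)⌉)
    ⌈M / (g / 16)⌉).filter fun q => Sp D' (a - ε / 2) (c + ε / 2) (g / 16)
    (g / 4) (g / 2) q.1 q.2).image xc, ?_, ?_, ?_, ?_⟩
  · intro y hy
    obtain ⟨q, hq, rfl⟩ := Finset.mem_image.1 hy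
    rw [Set.Finite.mem_toFinset]
    rw [Finset.mem_filter] at hq
    exact (hxc q hq.2).1
  · exact Finset.card_image_le.trans (Finset.card_filter_le _ _)
  · intro y
    rw [Set.Finite.mem_toFinset]
    rfl
  · intro i k hik
    refine ⟨xc (i, k), Finset.mem_image_of_mem _ ?_, (hxc (i, k) hik).2⟩
    rw [Finset.mem_filter, Finset.mem_product]
    refine ⟨⟨Finset.mem_univ _, ?_⟩, hik⟩
    have h1 := sp_le (M := M) (fun z hz => hM z (by linarith)) hik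
    rw [abs_mul, abs_of_pos (by linarith : 0 < g / 16), mul_comm, ← le_div_iff₀ (by linarith)]
      at h1
    have h2 := h1.trans (Int.le_ceil _)
    rw [Finset.mem_Icc]
    exact abs_le.1 (by exact_mod_cast h2)

/-- SHELL. -/
theorem s_geom (hC : S_conf) : S_geom := by
  intro D₁ D₂ hD₁ hD₂ hb hcl a b c habc hcc
  have hb₁ : Bornology.IsBounded D₁ := hb.subset (subset_closure.trans hcl)
  obtain ⟨D', hD'⟩ : ∃ D' : Set (ℝ × ℝ), D' = LL ⁻¹' D₁ := ⟨_, rfl⟩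
  have hcc' : {z : ℝ × ℝ | a ≤ z.1 ∧ b ≤ z.2 ∧ z.1 + z.2 ≤ c} ⊆ D' := by
    rintro z ⟨h1, h2, h3⟩
    rw [hD']
    refine hcc ⟨?_, ?_, ?_⟩
    · rw [c1_LL]; exact h1
    · rw [c2_LL]; exact h2
    · rw [c1_LL, c2_LL]; exact h3
  have hc₀ : (a, c - a) ∈ D' := hcc' ⟨le_rfl, by simp only; linarith, by simp only; linarith⟩
  have hne : D'.Nonempty := ⟨_, hc₀⟩
  have hbD : Bornology.IsBounded D' := by rw [hD']; exact LL_bdd hb₁
  have hopen : IsOpen D' := by rw [hD']; exact hD₁.preimage LL_cont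
  obtain ⟨g, hg, hgD⟩ := exists_thick hne (hD₂.preimage LL_cont) (LL_bdd hb)
    (by rw [hD']; exact LL_closure hcl)
  obtain ⟨r₀, hr₀, hr₀D⟩ := Metric.isOpen_iff.1 hopen _ hc₀
  obtain ⟨M, hM⟩ := shell_bdd hbD hne (2 * g)
  refine ⟨((Finset.univ : Finset (Fin 2)) ×ˢ
        Finset.Icc (-⌈M / (g / 16)⌉) ⌈M / (g / 16)⌉).card, fun m => ?_⟩
  obtain ⟨G, hG⟩ : ∃ G : ℝ, G = min g r₀ := ⟨_, rfl⟩
  have hG0 : 0 < G := by
    rw [hG]
    exact lt_min hg hr₀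
  have hGg : G ≤ g := by rw [hG]; exact min_le_left _ _
  have hG₀ : G ≤ r₀ := by rw [hG]; exact min_le_right _ _
  have hT : (1 : ℝ) ≤ 4 ^ m := one_le_pow₀ (by norm_num)
  refine ⟨G / (1000 * 4 ^ m), by positivity, fun ε hε hε₀ => ?_⟩
  have hTε : 1000 * (4 ^ m * ε) ≤ G := by
    rw [le_div_iff₀ (by positivity)] at hε₀
    linarith
  have hεG : 1000 * ε ≤ G := by nlinarith
  refine ⟨⌈2 * M / ε⌉₊, ε, hε, fun j hj => ?_⟩
  filter_upwards [Ioo_mem_nhdsGT (show (0 : ℝ) < ε / 1000 by positivity)] with δ hδ'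
  obtain ⟨hδ, hδε⟩ := hδ'
  -- the spacing
  obtain ⟨n, hn⟩ : ∃ n : ℤ, n = sc ε δ (j + 1) := ⟨_, rfl⟩
  obtain ⟨w, hw⟩ : ∃ w : ℝ, w = δ * (n : ℝ) := ⟨_, rfl⟩
  have hp1 : (4 : ℝ) ≤ 4 ^ (j + 1) := by
    rw [pow_succ]
    have : (1 : ℝ) ≤ 4 ^ j := one_le_pow₀ (by norm_num)
    linarith
  have hp2 : (4 : ℝ) ^ (j + 1) * 64 ≤ 4 ^ m := by
    have h1 : (4 : ℝ) ^ (j + 1) * 64 = 4 ^ (j + 4) := by
      rw [pow_add, pow_add]
      norm_num
      ring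
    rw [h1]
    exact pow_le_pow_right₀ (by norm_num) hj
  have hw1 : w ≤ 4 ^ (j + 1) * ε := by rw [hw, hn]; exact sc_le hδ _
  have hw2 : 4 ^ (j + 1) * (ε / 2) ≤ w := by rw [hw, hn]; exact le_sc hδ (by linarith) _
  have hw3 : 2 * ε ≤ w := by nlinarith
  have hw4 : 64000 * w ≤ G := by nlinarith
  have hw0 : 0 < w := by linarith
  have hq₀ : (a - ε / 2, c + ε / 2 - (a - ε / 2)) ∈ D' := by
    refine hr₀D (lt_of_le_of_lt (dist_le_of (e := ε) ?_ ?_) (by linarith)) <;> simp only <;>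
      rw [abs_le] <;> constructor <;> linarith
  obtain ⟨Y, Q, hQY, hQc, hY, hQ⟩ := geo_sets hbD hne hM (a := a) (c := c) hε hw0
    (by linarith) (by linarith) hq₀
  rw [← hn]
  have hinf : ∀ y ∈ Y, g / 4 / 4 ≤ infDist (fpt δ (ce n y)) D' := by
    intro y hy
    rw [← fpt_ce, ← hw]
    exact ((hY y).1 hy).1
  refine ⟨Y, Q, hQY, hQc, ?_, ?_, ?_, ?_⟩
  · intro y hy
    have h1 := hM _ (((hY y).1 hy).2.1.trans (by linarith))
    rw [hw, fpt_ce, hn] at h1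
    exact ⟨abs_le_of_sc hδ (by linarith) (j + 1) h1.1, abs_le_of_sc hδ (by linarith) (j + 1) h1.2⟩
  · intro y hy
    have h1 := hinf y hy
    refine ⟨iE_bx_sub hδ hb₁ ?_, ?_⟩
    · rw [← hD']
      push_cast
      linarith
    · have h2 := arms (ρ := 3 * w) (p := fpt w y) habc hε hcc'
        (by rw [hw, fpt_ce]; linarith) ((hY y).1 hy).2.2
      have h3 : ∀ (ω x x' : Pt), ω ∈ iE (bx (ce n y) (2 * n)) → Adj x x' → ω = x + x' →
          dist (fpt δ x) (fpt w y) ≤ 3 * w := by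
        intro ω x x' hω hxx' e
        obtain ⟨x₁, hx₁, h4, h5⟩ := iE_near hω hxx' e
        have h6 := dist_near hδ.le hx₁ h4 h5
        rw [hw, fpt_ce, ← hw]
        push_cast at h6
        linarith
      rcases h2 with h2 | h2 | h2
      · refine ⟨0, fun ω hω x x' hxx' e => Or.inl ⟨rfl, ?_⟩⟩
        rw [dp_eq, c1_LL]
        exact h2 _ (h3 ω x x' hω hxx' e)
      · refine ⟨1, fun ω hω x x' hxx' e => Or.inr (Or.inl ⟨rfl, ?_⟩)⟩
        rw [dp_eq, c1_LL, c2_LL]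
        exact h2 _ (h3 ω x x' hω hxx' e)
      · refine ⟨2, fun ω hω x x' hxx' e => Or.inr (Or.inr ⟨rfl, ?_⟩)⟩
        rw [dp_eq, c1_LL, c2_LL]
        exact h2 _ (h3 ω x x' hω hxx' e)
  · intro y hy
    have h1 := hinf y (hQY hy)
    refine iE_bx_sub hδ hb₁ ?_
    rw [← hD']
    have h2 := sc_le (ε := ε) hδ m
    push_cast
    linarith
  · intro B hYB hQB f hf f' hff' hf'
    have hf'' : fpt δ f' ∈ D' := by rw [hD']; exact of_mem_Vs hδ hb₁ hf'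
    refine geo_path hC hb hgD (a := a) (c := c) (j := j) (m := m) hδ hε (by linarith)
      hn hw (by linarith) (by linarith) (by linarith) hq₀
      (fun y hy => hYB y ((hY y).2 hy)) (fun i k hik => ?_) (f := f) (f' := f') hf hf'' hff'
    obtain ⟨y, hyQ, hd⟩ := hQ i k hik
    obtain ⟨i', hi1, hi2, hZ⟩ := hQB y hyQ
    exact ⟨y, i', hd, hi1, hi2, hZ⟩

end Vale.Agent.P153.F.X
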