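import Vale.Agent.P153.F.X.Stmt
import Vale.Agent.P153.F.Top.Zm

/-!
P153-F, X-level (mirror of `P145.X.Mb`): the bounds `S_mb` and `S_l2` for the moments in bounded
domains, by comparison with the plane given a circuit outside of the domain.
-/

namespace Vale.Agent.P153.F.X

open Filter Topology Set MeasureTheory
open Vale.Agent.P153
open Vale.Agent.P153.F.Top (Om Cone Pol EE hv hvl ze dp Vs exists_meas mem_Vs hv_eq_hB)
open Vale.Agent.P145.PT (TestOn)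

private lemma mb_adj {x y x' y' : Pt} (h : Adj x y) (h' : Adj x' y') (e : x + y = x' + y') :
    x' = x ∨ x' = y := by
  obtain ⟨a, b⟩ := x
  obtain ⟨c, d⟩ := y
  obtain ⟨a', b'⟩ := x'
  obtain ⟨c', d'⟩ := y'
  simp only [Adj, Set.mem_insert_iff, Set.mem_singleton_iff, Prod.mk_add_mk, Prod.mk.injEq] at *
  omega

private lemma mb_cone {δ : ℝ} (hδ : 0 < δ) {R : ℝ} {f : ℝ × ℝ → ℝ}
    (hf : TestOn (Metric.ball 0 R) f) (hf0 : ∀ z, 0 ≤ f z) (k : ℕ) :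
    Cone (fun ω => hv δ f ω ^ k) := by
  obtain ⟨B, hB⟩ := hv_eq_hB (R := R) hδ
  refine (Top.cone_pow (B := B) (δ := δ) hf0 k).of_eq fun ω => ?_
  rw [hB f (fun z hz => hf.2.2 (subset_tsupport _ hz)) ω]

/-- The box around `p` does not meet the domain. -/
private lemma mb_off {δ R : ℝ} (hδ : 0 < δ) {D : Set (ℝ × ℝ)} (hD : D ⊆ Metric.ball 0 R) {p : Pt}
    {r : ℤ} (hp : R ≤ δ * ((p.1 : ℝ) + p.2 / 2 - 3 / 2 * r)) :
    iE (bx p r) ⊆ (tE (Vs δ D : Set Pt))ᶜ := by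
  rintro w ⟨x, hx, y, hy, hxy, rfl⟩ ⟨x', hx', y', hxy', e⟩
  have hb : Bornology.IsBounded D := Metric.isBounded_ball.subset hD
  have h1 : x' ∈ bx p r := by
    rcases mb_adj hxy hxy' e with h | h
    · rw [h]; exact hx
    · rw [h]; exact hy
  have h2 : dp δ x' ∈ D := (mem_Vs hδ hb).1 hx' (Metric.mem_closedBall_self (by positivity))
  have h3 := hD h2
  rw [mem_ball_zero_iff, dp, Prod.norm_mk, Real.norm_eq_abs, Real.norm_eq_abs] at h3
  have h4 : δ * ((x'.1 : ℝ) + x'.2 / 2) < R :=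
    lt_of_le_of_lt (le_abs_self _) (lt_of_le_of_lt (le_max_left _ _) h3)
  have h5 : (p.1 : ℝ) - r ≤ x'.1 := by
    have := (abs_le.1 h1.1).1
    have h6 : p.1 - r ≤ x'.1 := by linarith
    exact_mod_cast h6
  have h7 : (p.2 : ℝ) - r ≤ x'.2 := by
    have := (abs_le.1 h1.2).1
    have h6 : p.2 - r ≤ x'.2 := by linarith
    exact_mod_cast h6
  have h8 : δ * ((p.1 : ℝ) + p.2 / 2 - 3 / 2 * r) ≤ δ * ((x'.1 : ℝ) + x'.2 / 2) :=
    mul_le_mul_of_nonneg_left (by linarith) hδ.le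
  linarith

/-- The moments in a bounded domain. -/
theorem mb_core {P : Measure (Pt → ℤ)} {δ : ℕ → ℝ}
    (hδ : ∀ n, 0 < δ n) (hlim : Tendsto δ atTop (𝓝 0)) (hlow : S_low P) (hmm : S_mm P δ)
    (hrsw : S_rsw P) (hloc : S_loc) {R : ℝ} (hR : 0 < R) (k : ℕ) :
    ∃ C : ℝ, 0 ≤ C ∧ ∀ D : Set (ℝ × ℝ), D ⊆ Metric.ball 0 R →
      ∀ f : ℝ × ℝ → ℝ, TestOn (Metric.ball 0 R) f → (∀ z, 0 ≤ f z) → ∀ ε : ℝ, 0 < ε →
        ∀ᶠ n in atTop, EE (δ n) D (fun ω => hv (δ n) f ω ^ (2 * k)) ≤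
          C * ((∫ z, f z ^ 2) + ε) ^ k := by
  set R' : ℝ := 2 * R + 10 with hR'
  obtain ⟨C, hC0, hC⟩ := hmm R' (by linarith) k
  obtain ⟨c₁, hc₁, r₀, hr₀, hr⟩ := hrsw
  refine ⟨C / c₁, div_nonneg hC0 hc₁.le, fun D hD f hf hf0 ε hε => ?_⟩
  have hf' : TestOn (Metric.ball 0 R') f :=
    ⟨hf.1, hf.2.1, hf.2.2.trans (Metric.ball_subset_ball (by linarith))⟩
  have hsmall : ∀ᶠ n in atTop, δ n < min (1 / 2) (1 / ((r₀ : ℝ) + 2)) :=
    hlim.eventually_lt_const (by positivity)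
  filter_upwards [hC f hf' ε hε, hsmall] with n hn hδn
  have hδ0 := hδ n
  have hd1 : δ n < 1 / 2 := lt_of_lt_of_le hδn (min_le_left _ _)
  have hr₀' : (0 : ℝ) < (r₀ : ℝ) + 2 := by
    have : (1 : ℝ) ≤ (r₀ : ℝ) := by exact_mod_cast hr₀
    linarith
  have hd2 : δ n * ((r₀ : ℝ) + 2) < 1 := by
    have := lt_of_lt_of_le hδn (min_le_right _ _)
    rwa [lt_div_iff₀ hr₀'] at this
  set s : ℤ := ⌊1 / δ n⌋ with hs
  set p : Pt := (⌈(R + 4) / δ n⌉, 0) with hp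
  have s1 : δ n * s ≤ 1 := by
    have := Int.floor_le (1 / δ n)
    rw [le_div_iff₀ hδ0] at this
    linarith
  have s2 : 1 - δ n < δ n * s := by
    have := Int.lt_floor_add_one (1 / δ n)
    rw [div_lt_iff₀ hδ0] at this
    linarith
  have hsr : r₀ ≤ s := by
    have h1 : (r₀ : ℝ) < s + 1 := by
      have h4 : δ n * ((r₀ : ℝ) + 2) < δ n * ((s : ℝ) + 1) := by linarith
      have := lt_of_mul_lt_mul_left h4 hδ0.le
      linarith
    have h2 : r₀ < s + 1 := by exact_mod_cast h1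
    omega
  have hs1 : 1 ≤ s := hr₀.trans hsr
  have p1 : R + 4 ≤ δ n * (p.1 : ℝ) := by
    have := Int.le_ceil ((R + 4) / δ n)
    rw [div_le_iff₀ hδ0] at this
    simp only [hp]
    linarith
  have p2 : δ n * (p.1 : ℝ) < R + 5 := by
    have := Int.ceil_lt_add_one ((R + 4) / δ n)
    have h1 : δ n * (⌈(R + 4) / δ n⌉ : ℝ) < δ n * ((R + 4) / δ n + 1) :=
      mul_lt_mul_of_pos_left this hδ0
    have h2 : δ n * ((R + 4) / δ n + 1) = R + 4 + δ n := by field_simp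
    simp only [hp]
    linarith
  have hoff : iE (bx p (2 * s)) ⊆ (tE (Vs (δ n) D : Set Pt))ᶜ := by
    refine mb_off hδ0 hD ?_
    have e2 : (p.2 : ℝ) = 0 := by simp [hp]
    rw [e2]
    push_cast
    nlinarith
  obtain ⟨-, hFn⟩ := hloc p s hs1
  have hFn' : Fn (tE (Vs (δ n) D : Set Pt))ᶜ (ind (Zr p s)) := by
    refine ⟨hFn.nonneg, ?_, hFn.pin⟩
    obtain ⟨Λ, h1, h2⟩ := hFn.loc
    exact ⟨Λ, fun w hw => hoff (h1 w hw).1, h2⟩
  have hcone := mb_cone hδ0 hf hf0 (2 * k)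
  have h1 := hlow _ _ _ hFn' hcone
  have h2 := (hr s hsr p).1
  have h3 : 0 ≤ ze (Vs (δ n) D) (fun ω => hv (δ n) f ω ^ (2 * k)) := by
    obtain ⟨μ, hμ, hμi⟩ := exists_meas (Vs (δ n) D)
    rw [← hμi (fun ω => hv (δ n) f ω ^ (2 * k))]
    exact integral_nonneg fun ω => by
      simp only [Pi.zero_apply]
      exact (even_two_mul k).pow_nonneg _
  have h4 := hn p s (by rw [abs_le]; constructor <;> linarith)
    (by simp only [hp]; push_cast; rw [mul_zero, abs_zero]; linarith) (by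
      have : R'⁻¹ ≤ 1 / 2 := by
        rw [inv_le_comm₀ (by linarith) (by norm_num)]
        norm_num
        linarith
      linarith) (by linarith)
  show ze (Vs (δ n) D) (fun ω => hv (δ n) f ω ^ (2 * k)) ≤ _
  rw [div_mul_eq_mul_div, le_div_iff₀ hc₁]
  calc ze (Vs (δ n) D) (fun ω => hv (δ n) f ω ^ (2 * k)) * c₁
      ≤ ze (Vs (δ n) D) (fun ω => hv (δ n) f ω ^ (2 * k)) *
        II P (ind (Zr p s)) (fun _ => 1) := mul_le_mul_of_nonneg_left h2 h3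
    _ ≤ II P (ind (Zr p s)) (fun ω => hv (δ n) f ω ^ (2 * k)) := h1
    _ ≤ _ := h4

/-- L2B. -/
theorem s_l2 {P : Measure (Pt → ℤ)} {δ : ℕ → ℝ}
    (hδ : ∀ n, 0 < δ n) (hlim : Tendsto δ atTop (𝓝 0)) (hlow : S_low P) (hmm : S_mm P δ)
    (hrsw : S_rsw P) (hloc : S_loc) : Top.S_l2 δ := by
  intro R hR
  obtain ⟨C, hC0, hC⟩ := mb_core hδ hlim hlow hmm hrsw hloc hR 1
  refine ⟨C, hC0, fun D _ hD f hf hf0 ε hε => ?_⟩
  have h1 : 0 < ε / (C + 1) := by positivity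
  filter_upwards [hC D hD f hf hf0 _ h1] with n hn
  rw [mul_one, pow_one] at hn
  refine hn.trans ?_
  have h2 : C * (ε / (C + 1)) ≤ ε := by
    rw [← mul_div_assoc, div_le_iff₀ (by linarith)]
    nlinarith
  linarith

/-- MB. -/
theorem s_mb {P : Measure (Pt → ℤ)} {δ : ℕ → ℝ}
    (hδ : ∀ n, 0 < δ n) (hlim : Tendsto δ atTop (𝓝 0)) (hlow : S_low P) (hmm : S_mm P δ)
    (hrsw : S_rsw P) (hloc : S_loc) : Top.S_mb δ := by
  intro D _ hD f hf hf0 k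
  obtain ⟨R, hR⟩ := (hD.union hf.2.1.isBounded).subset_ball (0 : ℝ × ℝ)
  have hR1 : Metric.ball (0 : ℝ × ℝ) R ⊆ Metric.ball 0 (max R 1) :=
    Metric.ball_subset_ball (le_max_left _ _)
  have hR0 : 0 < max R 1 := lt_of_lt_of_le one_pos (le_max_right _ _)
  have hf' : TestOn (Metric.ball 0 (max R 1)) f :=
    ⟨hf.1, hf.2.1, fun z hz => hR1 (hR (Or.inr hz))⟩
  have hD' : D ⊆ Metric.ball 0 (max R 1) := fun z hz => hR1 (hR (Or.inl hz))
  obtain ⟨C, hC0, hC⟩ := mb_core hδ hlim hlow hmm hrsw hloc hR0 k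
  refine ⟨1 + C * ((∫ z, f z ^ 2) + 1) ^ k, ?_⟩
  filter_upwards [hC D hD' f hf' hf0 1 one_pos] with n hn
  obtain ⟨μ, hμ, hμi⟩ := exists_meas (Vs (δ n) D)
  have e1 : EE (δ n) D (fun ω => hv (δ n) f ω ^ k) = ∫ ω, hv (δ n) f ω ^ k ∂μ :=
    (hμi (fun ω => hv (δ n) f ω ^ k)).symm
  have e2 : EE (δ n) D (fun ω => hv (δ n) f ω ^ (2 * k)) = ∫ ω, hv (δ n) f ω ^ (2 * k) ∂μ :=
    (hμi (fun ω => hv (δ n) f ω ^ (2 * k))).symm
  rw [e2] at hn
  rw [e1]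
  have i1 := hμ.integrable (mb_cone (hδ n) hf' hf0 k)
  have i2 := hμ.integrable (mb_cone (hδ n) hf' hf0 (2 * k))
  have := hμ.prob
  have h1 : ∫ ω, hv (δ n) f ω ^ k ∂μ ≤ ∫ ω, (1 + hv (δ n) f ω ^ (2 * k)) ∂μ := by
    refine integral_mono i1 ((integrable_const 1).add i2) fun ω => ?_
    simp only
    have h2 : hv (δ n) f ω ^ (2 * k) = (hv (δ n) f ω ^ k) ^ 2 := by rw [mul_comm, pow_mul]
    rw [h2]
    nlinarith [sq_nonneg (hv (δ n) f ω ^ k - 1 / 2)]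
  rw [integral_add (integrable_const 1) i2, integral_const, probReal_univ, one_smul] at h1
  linarith

end Vale.Agent.P153.F.X
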