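import Vale.Agent.P153.F.X.SdA

/-!
P153-F, block X: the Schwinger-Dyson half (mirror of `P145.X.SdX`, `P145.X.SdH`).
-/

namespace Vale.Agent.P153.F.X

open Filter Topology Set MeasureTheory
open Vale.Agent.P153
open Vale.Agent.P153.GFF (var2)
open Vale.Agent.P153.F.SD (Hgt Wd Lf lat PW DatM useM CLT)
open Vale.Agent.P153.F.Top
open Vale.Agent.P145.PT

namespace Sdx

/-! ### Geometry -/

theorem c_le (z q : ℝ × ℝ) : |c1 z - c1 q| ≤ 2 * dist z q ∧ |c2 z - c2 q| ≤ 2 * dist z q := by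
  have h3 : (1 : ℝ) ≤ √3 := by rw [Real.one_le_sqrt]; norm_num
  have h30 : (0 : ℝ) < √3 := by positivity
  have d1 : |z.1 - q.1| ≤ dist z q := by rw [Prod.dist_eq, ← Real.dist_eq]; exact le_max_left _ _
  have d2 : |z.2 - q.2| ≤ dist z q := by rw [Prod.dist_eq, ← Real.dist_eq]; exact le_max_right _ _
  have d3 : |z.2 - q.2| / √3 ≤ |z.2 - q.2| := div_le_self (abs_nonneg _) h3
  constructor
  · have e : c1 z - c1 q = (z.1 - q.1) - (z.2 - q.2) / √3 := by unfold c1; ring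
    rw [e]
    refine (abs_sub _ _).trans ?_
    rw [abs_div, abs_of_pos h30]
    linarith
  · have e : c2 z - c2 q = 2 * ((z.2 - q.2) / √3) := by unfold c2; ring
    rw [e, abs_mul, abs_two, abs_div, abs_of_pos h30]
    linarith

/-- The point with lattice coordinates `u`, `v`. -/
noncomputable def pc (u v : ℝ) : ℝ × ℝ := (u + v / 2, v * (√3 / 2))

theorem c1_pc (u v : ℝ) : c1 (pc u v) = u := by
  have h3 : (0 : ℝ) < √3 := by positivity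
  unfold c1 pc
  simp only
  field_simp
  ring

theorem c2_pc (u v : ℝ) : c2 (pc u v) = v := by
  have h3 : (0 : ℝ) < √3 := by positivity
  unfold c2 pc
  simp only
  field_simp

theorem sc_bd {ε δ : ℝ} (hδ : 0 < δ) (i : ℕ) : δ * (sc ε δ i : ℝ) ≤ 4 ^ i * ε := by
  unfold sc
  push_cast
  have h1 : ((⌊ε / δ⌋ : ℤ) : ℝ) ≤ ε / δ := Int.floor_le _
  calc δ * (4 ^ i * ((⌊ε / δ⌋ : ℤ) : ℝ)) = 4 ^ i * (δ * ((⌊ε / δ⌋ : ℤ) : ℝ)) := by ring
    _ ≤ 4 ^ i * (δ * (ε / δ)) := by gcongr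
    _ = 4 ^ i * ε := by rw [mul_div_cancel₀ _ hδ.ne']

theorem sc_pos {ε δ : ℝ} (hδ : 0 < δ) (h : δ ≤ ε) (i : ℕ) : 1 ≤ sc ε δ i := by
  have h1 : 1 ≤ ⌊ε / δ⌋ := Int.le_floor.2 (by rw [Int.cast_one, le_div_iff₀ hδ]; linarith)
  have h2 : (1 : ℤ) ≤ 4 ^ i := one_le_pow₀ (by norm_num)
  unfold sc
  nlinarith

theorem finT_bd {δ : ℝ} (hδ : 0 < δ) {w : ℤ} {M : ℝ} (hM : δ * (w : ℝ) ≤ M) {K : ℤ} (hK : 0 ≤ K)
    {p : ℤ × ℤ} {r : ℤ} (h : |p.1| + |p.2| + r ≤ w * K) {R : ℝ} (hR : M * K ≤ R) :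
    FinT δ (iE (bx p r)) {z | |c1 z| ≤ R ∧ |c2 z| ≤ R} := by
  rintro w' ⟨x', hx', y', hy', hxy', rfl⟩ x y hxy e
  have hx : x ∈ bx p r := by
    rcases Up.adj_mid hxy' hxy e with ⟨e1, -⟩ | ⟨e1, -⟩
    · rw [e1]; exact hx'
    · rw [e1]; exact hy'
  obtain ⟨h1, h2⟩ := hx
  have hK' : (0 : ℝ) ≤ K := by exact_mod_cast hK
  have key : ∀ u : ℤ, |u| ≤ |p.1| + |p.2| + r → |δ * (u : ℝ)| ≤ R := by
    intro u hu
    have h3 : ((|u| : ℤ) : ℝ) ≤ ((w * K : ℤ) : ℝ) := by exact_mod_cast hu.trans h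
    rw [abs_mul, abs_of_pos hδ]
    push_cast at h3
    calc δ * |(u : ℝ)| ≤ δ * (w * K) := mul_le_mul_of_nonneg_left h3 hδ.le
      _ = δ * w * K := by ring
      _ ≤ M * K := mul_le_mul_of_nonneg_right hM hK'
      _ ≤ R := hR
  have b1 : |x.1| ≤ |p.1| + |p.2| + r := by
    have := abs_sub_abs_le_abs_sub x.1 p.1
    have := abs_nonneg p.2
    linarith
  have b2 : |x.2| ≤ |p.1| + |p.2| + r := by
    have := abs_sub_abs_le_abs_sub x.2 p.2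
    have := abs_nonneg p.1
    linarith
  show |c1 (dp δ x)| ≤ R ∧ |c2 (dp δ x)| ≤ R
  rw [dp_pos, SD.c1_pos, SD.c2_pos]
  exact ⟨key _ b1, key _ b2⟩

theorem finT_mono {δ : ℝ} {A : Set Pt} {K K' : Set (ℝ × ℝ)} (h : FinT δ A K) (hK : K ⊆ K') :
    FinT δ A K' := fun w hw x y hxy e => hK (h w hw x y hxy e)

theorem Kq_mono {a b c e e' : ℝ} (he : e' ≤ e) (i : Fin 3) : Kq a b c e i ⊆ Kq a b c e' i := by
  intro z hz
  rcases hz with ⟨h, h1⟩ | ⟨h, h1, h2⟩ | ⟨h, h1, h2, h3⟩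
  · exact Or.inl ⟨h, by linarith⟩
  · exact Or.inr (Or.inl ⟨h, h1, by linarith⟩)
  · exact Or.inr (Or.inr ⟨h, h1, h2, by linarith⟩)

/-- The family of circuits as a list of centres and radii. -/
noncomputable def TT (w : ℤ) (Y : Finset (ℤ × ℤ)) (p : ℤ × ℤ) (r : ℤ) :
    Finset ((ℤ × ℤ) × ℤ) := by
  classical
  exact insert (p, r) (Y.image fun y => (ce w y, w))

theorem allZ_TT {w : ℤ} {Y : Finset (ℤ × ℤ)} {p : ℤ × ℤ} {r : ℤ} {B : Set Pt} :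
    AllZ (TT w Y p r) B ↔ Fy w Y p r B := by
  classical
  unfold AllZ TT Fy
  simp only [Finset.mem_insert, Finset.mem_image, forall_eq_or_imp, forall_exists_index, and_imp,
    forall_apply_eq_imp_iff₂]
  exact and_comm

theorem ind_TT {w : ℤ} {Y : Finset (ℤ × ℤ)} {p : ℤ × ℤ} {r : ℤ} :
    ind (AllZ (TT w Y p r)) = ind (Fy w Y p r) := by
  have e : AllZ (TT w Y p r) = Fy w Y p r := funext fun _ => propext allZ_TT
  rw [e]

/-! ### Bumps in the arms -/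

theorem exists_rho1 {D : Set (ℝ × ℝ)} (hD : IsOpen D) {a b c m : ℝ} (hp : pc a m ∈ D) :
    ∃ e R : ℝ, 0 < e ∧ 0 < R ∧ ∀ e' R' : ℝ, e' ≤ e → R ≤ R' →
      ∃ ρ : ℝ × ℝ → ℝ, TestOn (PW.K1 ⟨a, b, c, e', R'⟩ ∩ D) ρ ∧ ∫ x, ρ x = 1 := by
  obtain ⟨s, hs, hball⟩ := Metric.isOpen_iff.1 hD _ hp
  refine ⟨s / 4, |a| + |m| + s, by linarith, by positivity, fun e' R' he hR => ?_⟩
  have hs8 : 0 < s / 8 := by linarith
  refine ⟨bump (s / 8) (pc (a - s / 2) m), bump_test hs8 fun z hz => ?_, bump_int hs8 _⟩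
  rw [Metric.mem_closedBall] at hz
  obtain ⟨h1, h2⟩ := c_le z (pc (a - s / 2) m)
  rw [c1_pc, abs_le] at h1
  rw [c2_pc, abs_le] at h2
  have c1' := le_abs_self a
  have c2' := neg_abs_le a
  have c3 := le_abs_self m
  have c4 := neg_abs_le m
  refine ⟨⟨?_, ?_, ?_⟩, hball ?_⟩
  · show c1 z ≤ a - e'
    linarith
  · show |c1 z| ≤ R'
    rw [abs_le]; constructor <;> linarith [abs_nonneg m]
  · show |c2 z| ≤ R'
    rw [abs_le]; constructor <;> linarith [abs_nonneg a]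
  · rw [Metric.mem_ball]
    have e1 : dist (pc (a - s / 2) m) (pc a m) ≤ s / 2 := by
      unfold pc
      rw [Prod.dist_eq, max_le_iff, Real.dist_eq, Real.dist_eq]
      simp only [sub_self, abs_zero]
      refine ⟨?_, by linarith⟩
      rw [show a - s / 2 + m / 2 - (a + m / 2) = -(s / 2) by ring, abs_neg, abs_of_pos (by linarith)]
    linarith [dist_triangle z (pc (a - s / 2) m) (pc a m)]

theorem exists_rho3 {D : Set (ℝ × ℝ)} (hD : IsOpen D) {a b c : ℝ} (habc : a + b < c)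
    (hp : pc ((a + c - b) / 2) b ∈ D) :
    ∃ e R : ℝ, 0 < e ∧ 0 < R ∧ ∀ e' R' : ℝ, e' ≤ e → R ≤ R' →
      ∃ ρ : ℝ × ℝ → ℝ, TestOn (PW.K3 ⟨a, b, c, e', R'⟩ ∩ D) ρ ∧ ∫ x, ρ x = 1 := by
  obtain ⟨s, hs, hball⟩ := Metric.isOpen_iff.1 hD _ hp
  set m : ℝ := (a + c - b) / 2 with hm
  refine ⟨s / 4, |m| + |b| + |c| + s, by linarith, by positivity, fun e' R' he hR => ?_⟩
  set s8 : ℝ := min (s / 16) ((c - b - a) / 8) with hs8d
  have hs8 : 0 < s8 := lt_min (by linarith) (by linarith)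
  have m1 : s8 ≤ s / 16 := min_le_left _ _
  have m2 : s8 ≤ (c - b - a) / 8 := min_le_right _ _
  refine ⟨bump s8 (pc m (b - s / 2)), bump_test hs8 fun z hz => ?_, bump_int hs8 _⟩
  rw [Metric.mem_closedBall] at hz
  obtain ⟨h1, h2⟩ := c_le z (pc m (b - s / 2))
  rw [c1_pc, abs_le] at h1
  rw [c2_pc, abs_le] at h2
  have c1' := le_abs_self m
  have c2' := neg_abs_le m
  have c3 := le_abs_self b
  have c4 := neg_abs_le b
  refine ⟨⟨?_, ?_, ?_, ?_, ?_⟩, hball ?_⟩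
  · show c2 z ≤ b - e'
    linarith
  · show a ≤ c1 z
    linarith
  · show c1 z + c2 z ≤ c
    linarith
  · show |c1 z| ≤ R'
    rw [abs_le]; constructor <;> linarith [abs_nonneg b, abs_nonneg c]
  · show |c2 z| ≤ R'
    rw [abs_le]; constructor <;> linarith [abs_nonneg m, abs_nonneg c]
  · rw [Metric.mem_ball]
    have e1 : dist (pc m (b - s / 2)) (pc m b) ≤ s / 2 := by
      have h3 : √3 / 2 ≤ 1 := by linarith [GFF.sqrt3_le]
      have h30 : 0 ≤ √3 / 2 := by positivity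
      unfold pc
      rw [Prod.dist_eq, max_le_iff, Real.dist_eq, Real.dist_eq]
      simp only
      rw [show m + (b - s / 2) / 2 - (m + b / 2) = -(s / 4) by ring,
        show (b - s / 2) * (√3 / 2) - b * (√3 / 2) = -(s / 2 * (√3 / 2)) by ring, abs_neg, abs_neg,
        abs_of_nonneg (by linarith), abs_of_nonneg (by positivity)]
      constructor
      · linarith
      · nlinarith
    linarith [dist_triangle z (pc m (b - s / 2)) (pc m b)]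

/-- The geometric conditions. -/
def Gd (δ ε : ℝ) (j N : ℕ) (a b c e1 : ℝ) (Y : Finset (ℤ × ℤ)) (y0 : ℤ × ℤ) (l : ℤ) : Prop :=
  (∀ y ∈ Y, |y.1| ≤ N ∧ |y.2| ≤ N ∧
    ∃ i, FinT δ (iE (bx (ce (sc ε δ (j + 1)) y) (2 * sc ε δ (j + 1)))) (Kq a b c e1 i)) ∧
  1 ≤ l ∧ |y0.1| + 8 * l ≤ N ∧ |y0.2| + 8 * l ≤ N ∧
  FinT δ (iE (bx (ce (sc ε δ (j + 1)) y0) (8 * (l * sc ε δ (j + 1))))) {z | c1 z ≤ a - 1}

/-- The product decomposition of the family. -/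
theorem exists_X (hL : S_loc) {δ ε : ℝ} (hδ : 0 < δ) (hδε : δ ≤ ε) {j N : ℕ} {a b c e1 e R : ℝ}
    (hee : e ≤ e1) (he1 : e ≤ 1) (hR : 4 ^ (j + 1) * ε * (2 * N + 2) ≤ R)
    {Y : Finset (ℤ × ℤ)} {y0 : ℤ × ℤ} {l : ℤ} (h : Gd δ ε j N a b c e1 Y y0 l) :
    (LocS univ (ind (QQ (sc ε δ (j + 1)) Y y0 l)) ∧ ind (QQ (sc ε δ (j + 1)) Y y0 l) ∅ = 0) ∧
    ∃ X1 X2 X3 : Hgt → ℝ,
      (SD.Loc (lat δ (PW.K1 ⟨a, b, c, e, R⟩)) X1 ∧ SD.Loc (lat δ (PW.K2 ⟨a, b, c, e, R⟩)) X2 ∧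
        SD.Loc (lat δ (PW.K3 ⟨a, b, c, e, R⟩)) X3) ∧
      ((∀ h, 0 ≤ X1 h ∧ X1 h ≤ 1) ∧ (∀ h, 0 ≤ X2 h ∧ X2 h ≤ 1) ∧ (∀ h, 0 ≤ X3 h ∧ X3 h ≤ 1)) ∧
      ∀ h, ind (QQ (sc ε δ (j + 1)) Y y0 l) (bl h) = X1 h * X2 h * X3 h := by
  classical
  obtain ⟨hY, hl, hy1, hy2, hfar⟩ := h
  set w : ℤ := sc ε δ (j + 1) with hw
  have hw1 : 1 ≤ w := sc_pos hδ hδε _
  have hM : δ * (w : ℝ) ≤ 4 ^ (j + 1) * ε := sc_bd hδ _
  have hlw : 1 ≤ l * w := by nlinarith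
  have hN : (0 : ℤ) ≤ N := Int.natCast_nonneg N
  have hR' : 4 ^ (j + 1) * ε * ((2 * (N : ℤ) + 2 : ℤ) : ℝ) ≤ R := by push_cast; exact hR
  have hT : ∀ s ∈ TT w Y (ce w y0) (4 * (l * w)), 1 ≤ s.2 ∧
      (∃ i, FinT δ (iE (bx s.1 (2 * s.2))) (Kq a b c e i)) ∧
      FinT δ (iE (bx s.1 (2 * s.2))) {z | |c1 z| ≤ R ∧ |c2 z| ≤ R} := by
    intro s hs
    unfold TT at hs
    rcases Finset.mem_insert.1 hs with rfl | hs
    · refine ⟨by simp only; linarith, ⟨0, ?_⟩, ?_⟩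
      · have e8 : 2 * (4 * (l * w)) = 8 * (l * w) := by ring
        simp only
        rw [e8]
        refine finT_mono hfar fun z hz => Or.inl ⟨rfl, ?_⟩
        have : c1 z ≤ a - 1 := hz
        linarith
      · refine finT_bd hδ hM (K := 2 * (N : ℤ) + 2) (by linarith) ?_ hR'
        simp only [ce]
        rw [abs_mul, abs_mul, abs_of_pos (by linarith : (0 : ℤ) < w)]
        nlinarith
    · obtain ⟨y, hy, rfl⟩ := Finset.mem_image.1 hs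
      obtain ⟨h1, h2, i, h3⟩ := hY y hy
      refine ⟨hw1, ⟨i, finT_mono h3 (Kq_mono hee i)⟩, ?_⟩
      refine finT_bd hδ hM (K := 2 * (N : ℤ) + 2) (by linarith) ?_ hR'
      simp only [ce]
      rw [abs_mul, abs_mul, abs_of_pos (by linarith : (0 : ℤ) < w)]
      nlinarith
  have hne : (TT w Y (ce w y0) (4 * (l * w))).Nonempty := by
    unfold TT
    exact Finset.insert_nonempty _ _
  have hloc := locS_allZ hL (A := univ) _ fun s hs => ⟨(hT s hs).1, subset_univ _⟩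
  have hemp := allZ_empty hL hne fun s hs => (hT s hs).1
  obtain ⟨X1, X2, X3, h1, h2, h3⟩ := exists_prod hL _ hT
  rw [ind_TT] at hloc hemp h3
  exact ⟨⟨hloc, hemp⟩, X1, X2, X3, h1, h2, h3⟩

end Sdx

open Sdx in
/-- **The Schwinger-Dyson half of the frame.** -/
theorem sdH_of {κ : ℝ} {P : Measure (Pt → ℤ)} (hP : GFF.Plane P) {A0 : ℝ} (hA0 : 0 ≤ A0)
    (hA : ∀ x : ℤ × ℤ, var2 P x ≤ A0 * (1 + |(x.1 : ℝ)| + |(x.2 : ℝ)|)) (hclt : CLT P κ)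
    (hi : S_int P) (hL : S_loc) {δ : ℕ → ℝ} (hδ : ∀ n, 0 < δ n) (hδ0 : Tendsto δ atTop (𝓝 0)) :
    SdH κ P δ := by
  classical
  intro D hD hDb a b c habc hcell e he ψ f0 g k hψ hf0 hg hgP ε hε j N e1 he1 Y y0 l hY
    c0 hc0 hpos hmom
  set G : ℕ → Set Pt → ℝ := fun n => ind (QQ (sc ε (δ n) (j + 1)) (Y n) (y0 n) (l n)) with hGd
  have hcc : ∀ z, z ∈ ccell a b c → z ∈ D := fun z hz => hcell hz
  obtain ⟨s1, R1, hs1, hR1, hρ1⟩ := exists_rho1 (b := b) (c := c) (m := (b + c - a) / 2) hD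
    (hcc _ ⟨by rw [c1_pc], by rw [c2_pc]; linarith, by rw [c1_pc, c2_pc]; linarith⟩)
  obtain ⟨s3, R3, hs3, hR3, hρ3⟩ := exists_rho3 hD habc
    (hcc _ ⟨by rw [c1_pc]; linarith, by rw [c2_pc], by rw [c1_pc, c2_pc]; linarith⟩)
  obtain ⟨Rg, hRg⟩ := hg.cs.isCompact.isBounded.subset_ball (0 : ℝ × ℝ)
  set E : ℝ := min (min e e1) (min (min s1 s3) 1) with hE
  have hE0 : 0 < E := lt_min (lt_min he he1) (lt_min (lt_min hs1 hs3) one_pos)
  have hEe : E ≤ e := (min_le_left _ _).trans (min_le_left _ _)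
  have hEe1 : E ≤ e1 := (min_le_left _ _).trans (min_le_right _ _)
  have hEs1 : E ≤ s1 := (min_le_right _ _).trans ((min_le_left _ _).trans (min_le_left _ _))
  have hEs3 : E ≤ s3 := (min_le_right _ _).trans ((min_le_left _ _).trans (min_le_right _ _))
  have hE1 : E ≤ 1 := (min_le_right _ _).trans (min_le_right _ _)
  set R : ℝ := R1 + R3 + 2 * |Rg| + 4 ^ (j + 1) * ε * (2 * N + 2) with hR
  have hRN : 0 ≤ 4 ^ (j + 1) * ε * (2 * (N : ℝ) + 2) := by positivity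
  have hRR1 : R1 ≤ R := by rw [hR]; linarith [abs_nonneg Rg]
  have hRR3 : R3 ≤ R := by rw [hR]; linarith [abs_nonneg Rg]
  have hRRg : 2 * Rg ≤ R := by rw [hR]; linarith [le_abs_self Rg]
  have hRRN : 4 ^ (j + 1) * ε * (2 * (N : ℝ) + 2) ≤ R := by rw [hR]; linarith [abs_nonneg Rg]
  -- the three factors
  have key : ∀ n, ∃ X1 X2 X3 : Hgt → ℝ, δ n ≤ ε →
      Gd (δ n) ε j N a b c e1 (Y n) (y0 n) (l n) →
      (LocS univ (G n) ∧ G n ∅ = 0) ∧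
      (SD.Loc (lat (δ n) (PW.K1 ⟨a, b, c, E, R⟩)) X1 ∧
        SD.Loc (lat (δ n) (PW.K2 ⟨a, b, c, E, R⟩)) X2 ∧
        SD.Loc (lat (δ n) (PW.K3 ⟨a, b, c, E, R⟩)) X3) ∧
      ((∀ h, 0 ≤ X1 h ∧ X1 h ≤ 1) ∧ (∀ h, 0 ≤ X2 h ∧ X2 h ≤ 1) ∧ (∀ h, 0 ≤ X3 h ∧ X3 h ≤ 1)) ∧
      ∀ h, G n (bl h) = X1 h * X2 h * X3 h := by
    intro n
    by_cases hn : δ n ≤ ε ∧ Gd (δ n) ε j N a b c e1 (Y n) (y0 n) (l n)
    · obtain ⟨h0, X1, X2, X3, h⟩ := exists_X hL (hδ n) hn.1 hEe1 hE1 hRRN hn.2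
      exact ⟨X1, X2, X3, fun _ _ => ⟨h0, h⟩⟩
    · exact ⟨0, 0, 0, fun h1 h2 => absurd ⟨h1, h2⟩ hn⟩
  choose X1 X2 X3 hX using key
  have hε' : ∀ᶠ n in atTop, δ n ≤ ε := hδ0.eventually (ge_mem_nhds hε)
  have hall : ∀ᶠ n in atTop, (LocS univ (G n) ∧ G n ∅ = 0) ∧
      (SD.Loc (lat (δ n) (PW.K1 ⟨a, b, c, E, R⟩)) (X1 n) ∧
        SD.Loc (lat (δ n) (PW.K2 ⟨a, b, c, E, R⟩)) (X2 n) ∧
        SD.Loc (lat (δ n) (PW.K3 ⟨a, b, c, E, R⟩)) (X3 n)) ∧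
      ((∀ h, 0 ≤ X1 n h ∧ X1 n h ≤ 1) ∧ (∀ h, 0 ≤ X2 n h ∧ X2 n h ≤ 1) ∧
        (∀ h, 0 ≤ X3 n h ∧ X3 n h ≤ 1)) ∧
      ∀ h, G n (bl h) = X1 n h * X2 n h * X3 n h := by
    filter_upwards [hε', hY] with n h1 h2
    exact hX n h1 h2
  set X : ℕ → Hgt → ℝ := fun n h => G n (bl h) with hXd
  have hG0 : ∀ n B, 0 ≤ G n B := fun n B => sd_ind_nonneg _ _
  have hI1 : ∀ n, ∫ h, X n h ∂(muT P) = II P (G n) (fun _ => 1) := by
    intro n
    unfold II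
    refine integral_congr_ae (Eventually.of_forall fun h => ?_)
    simp only [hXd, mul_one]
  have hms := fun {f : ℝ × ℝ → ℝ} (hf : TestOn D f) (k : ℕ) => mom_signed (P := P) hδ hD
    hDb hi (G := G) (hall.mono fun n h => ⟨h.1.1, h.1.2, hG0 n⟩) hmom hf k
  have hbox : PW.box ⟨a, b, c, E, R⟩ = cell a b c := rfl
  have d : DatM P δ ⟨a, b, c, E, R⟩ D X1 X2 X3 X :=
    { hb := habc
      he := hE0
      hbD := fun z hz => hcc z ⟨hz.1.le, hz.2.1.le, hz.2.2.le⟩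
      l1 := hall.mono fun n h => h.2.1.1
      l2 := hall.mono fun n h => h.2.1.2.1
      l3 := hall.mono fun n h => h.2.1.2.2
      n1 := hall.mono fun n h => h.2.2.1.1
      n2 := hall.mono fun n h => h.2.2.1.2.1
      n3 := hall.mono fun n h => h.2.2.1.2.2
      hX := hall.mono fun n h => h.2.2.2
      int := by
        filter_upwards [hall] with n h
        have h1 := hi (G n) (fun _ => 1) h.1.1 h.1.2 Pol.one
        simp only [mul_one] at h1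
        exact h1
      pos := by
        refine ⟨c0, hc0, ?_⟩
        filter_upwards [hpos] with n h
        rw [hI1]
        exact h
      mom := by
        intro f hf k
        obtain ⟨C, hC⟩ := hms hf k
        refine ⟨C, ?_⟩
        filter_upwards [hall, hC] with n h1 h3
        have hAlg : Alg (fun ω => hv (δ n) f ω ^ (2 * k)) := (alg_hv (hδ n) hf.cs).pow _
        have h4 := hi (G n) _ h1.1.1 h1.1.2 hAlg
        have h5 : ∀ h, Lf (δ n) f h ^ (2 * k) * X n h =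
            G n (bl h) * (fun ω => hv (δ n) f ω ^ (2 * k)) (vm h) := by
          intro h
          simp only
          rw [hv_vm (hδ n) hf.1 hf.cs]
          ring
        simp only [h5]
        refine ⟨h4, ?_⟩
        rw [hI1]
        exact h3
      r1 := hρ1 E R hEs1 hRR1
      r3 := hρ3 E R hEs3 hRR3 }
  have hgK : ∀ x, g x ≠ 0 → x ∈ PW.K1 ⟨a, b, c, E, R⟩ ∨ x ∈ PW.K2 ⟨a, b, c, E, R⟩ ∨
      x ∈ PW.K3 ⟨a, b, c, E, R⟩ := by
    intro x hx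
    have h1 := hRg (subset_tsupport _ hx)
    rw [Metric.mem_ball] at h1
    obtain ⟨b1, b2⟩ := c_le x 0
    have e1 : c1 (0 : ℝ × ℝ) = 0 := by unfold c1; simp
    have e2 : c2 (0 : ℝ × ℝ) = 0 := by unfold c2; simp
    rw [e1, sub_zero] at b1
    rw [e2, sub_zero] at b2
    have b1' : |c1 x| ≤ R := by linarith
    have b2' : |c2 x| ≤ R := by linarith
    have h2 := hgP _ hx
    simp only [Pin, Set.mem_ofPred_eq] at h2
    rcases h2 with h2 | ⟨h2, h3⟩ | ⟨h2, h3, h4⟩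
    · exact Or.inl ⟨by simp only; linarith, b1', b2'⟩
    · exact Or.inr (Or.inl ⟨by simp only; linarith, h2, b1', b2'⟩)
    · exact Or.inr (Or.inr ⟨by simp only; linarith, h2, h3, b1', b2'⟩)
  have hδ' : Tendsto δ atTop (𝓝[>] 0) :=
    tendsto_nhdsWithin_iff.2 ⟨hδ0, Eventually.of_forall hδ⟩
  have hmain := useM hP hA0 hA hclt hδ hδ' d hψ hf0 hg hgK k
  refine hmain.congr' ?_
  filter_upwards [hall] with n hr
  have hf : TestOn D (fun x => f0 x + g x) :=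
    (hf0.mono fun z hz => hcc z ⟨hz.1.le, hz.2.1.le, hz.2.2.le⟩).add hg
  have i1 : ∫ h, Lf (δ n) (lap ψ) h * Lf (δ n) (fun x => f0 x + g x) h ^ (k + 1) *
      X n h ∂(muT P) =
        II P (G n) (fun ω => hv (δ n) (lap ψ) ω * hv (δ n) (fun z => f0 z + g z) ω ^ (k + 1)) := by
    unfold II
    refine integral_congr_ae (Eventually.of_forall fun h => ?_)
    simp only
    rw [hv_vm (hδ n) hψ.lap.1 hψ.lap.cs, hv_vm (hδ n) hf.1 hf.cs]
    ring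
  have i2 : ∫ h, Lf (δ n) (fun x => f0 x + g x) h ^ k * X n h ∂(muT P) =
      II P (G n) (fun ω => hv (δ n) (fun z => f0 z + g z) ω ^ k) := by
    unfold II
    refine integral_congr_ae (Eventually.of_forall fun h => ?_)
    simp only
    rw [hv_vm (hδ n) hf.1 hf.cs]
    ring
  rw [i1, i2, hI1]

end Vale.Agent.P153.F.X
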