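import Vale.Agent.P153.F.X.Stmt
import Vale.Agent.P153.F.Top.Zm

/-!
P153-F, X-level (mirror of `P145.X.UpS`): the statement `S_up`, from the sandwich in the plane.
-/

namespace Vale.Agent.P153.F.X

open Filter Topology Set MeasureTheory
open Vale.Agent.P153
open Vale.Agent.P153.F.Top (Om Cone Pol ze vh)

namespace Up

/-- The edges with `|h| ≤ 1` at both ends. -/
def bq (h : Hg) : Set Pt := {w | ∃ x y, Adj x y ∧ w = x + y ∧ |h x| ≤ 1 ∧ |h y| ≤ 1}

lemma adj_symm {x y : Pt} (h : Adj x y) : Adj y x := Fv.adj_comm'.1 h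

/-- An edge is determined by its midpoint. -/
lemma adj_mid {x y x' y' : Pt} (h : Adj x y) (h' : Adj x' y') (e : x + y = x' + y') :
    (x' = x ∧ y' = y) ∨ (x' = y ∧ y' = x) := by
  obtain ⟨a, b⟩ := x
  obtain ⟨c, d⟩ := y
  obtain ⟨a', b'⟩ := x'
  obtain ⟨c', d'⟩ := y'
  rw [Fv.adj_iff] at h h'
  simp only [Prod.mk_add_mk, Prod.mk.injEq] at *
  omega

lemma abs_one_of_le {h : Hg} (hh : Lip h) {x : Pt} (hx : |h x| ≤ 1) : |h x| = 1 := by
  obtain ⟨k, hk⟩ := hh.1 x
  rw [abs_le] at hx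
  rcases (by omega : h x = 1 ∨ h x = -1) with e | e <;> rw [e] <;> norm_num

lemma bq_eq {h : Hg} (hh : Lip h) : bq h = bl h := by
  ext w
  constructor
  · rintro ⟨x, y, h1, h2, h3, h4⟩
    exact ⟨x, y, h1, h2, abs_one_of_le hh h3, abs_one_of_le hh h4⟩
  · rintro ⟨x, y, h1, h2, h3, h4⟩
    exact ⟨x, y, h1, h2, h3.le, h4.le⟩

/-- The possible ends of an edge with midpoint `w`. -/
def nb (w : Pt) : Finset Pt :=
  ({(1, 0), (-1, 0), (0, 1), (0, -1), (1, -1), (-1, 1)} : Finset Pt).image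
    fun d => ((w.1 - d.1) / 2, (w.2 - d.2) / 2)

lemma mem_nb {x y : Pt} (h : Adj x y) : x ∈ nb (x + y) := by
  unfold nb
  rw [Finset.mem_image]
  refine ⟨(y.1 - x.1, y.2 - x.2), ?_, ?_⟩
  · rw [Fv.adj_iff] at h
    simp only [Finset.mem_insert, Finset.mem_singleton, Prod.mk.injEq]
    omega
  · refine Prod.ext ?_ ?_
    · simp only [Prod.fst_add]
      omega
    · simp only [Prod.snd_add]
      omega

lemma mem_nb' {x y : Pt} (h : Adj x y) : y ∈ nb (x + y) := by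
  rw [add_comm]
  exact mem_nb (adj_symm h)

lemma bq_congr {h h' : Hg} {w : Pt} (H : ∀ x y, Adj x y → w = x + y → |h x| = |h' x|) :
    w ∈ bq h ↔ w ∈ bq h' := by
  constructor
  · rintro ⟨x, y, h1, h2, h3, h4⟩
    refine ⟨x, y, h1, h2, ?_, ?_⟩
    · rw [← H x y h1 h2]; exact h3
    · rw [← H y x (adj_symm h1) (by rw [h2, add_comm])]; exact h4
  · rintro ⟨x, y, h1, h2, h3, h4⟩
    refine ⟨x, y, h1, h2, ?_, ?_⟩
    · rw [H x y h1 h2]; exact h3
    · rw [H y x (adj_symm h1) (by rw [h2, add_comm])]; exact h4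

/-- The heights in `F`. -/
noncomputable def rs (F : Finset Pt) (ω : Om) : Om := fun v => if v ∈ F then ω v else 0

/-- The coefficients of a monomial. -/
noncomputable def ph (v : List Pt) : Fin v.length → Pt → ℝ := fun i x => if x = v[i.1] then 1 else 0

lemma pl_ph (F : Finset Pt) (v : List Pt) (h : Hg) :
    pl F (ph v) h = (v.map (rs F (vm h))).prod := by
  rw [← Fin.prod_univ_fun_getElem v (rs F (vm h))]
  unfold pl
  refine Finset.prod_congr rfl fun i _ => ?_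
  unfold ph rs vm
  simp only [ite_mul, one_mul, zero_mul]
  rw [Finset.sum_ite_eq']

lemma rs_vh {F F' : Finset Pt} (hF : F ⊆ F') (h : Hg) : rs F (vh F' h) = rs F (vm h) := by
  funext v
  unfold rs vh vm
  by_cases hv : v ∈ F
  · rw [if_pos hv, if_pos hv, if_pos (hF hv)]
  · rw [if_neg hv, if_neg hv]

lemma ze_add (I : Finset Pt) (A B : Om → ℝ) : ze I (fun ω => A ω + B ω) = ze I A + ze I B := by
  rw [Top.ze_eq, Top.ze_eq, Top.ze_eq, Finset.sum_add_distrib, add_div]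

lemma ze_smul (I : Finset Pt) (c : ℝ) (A : Om → ℝ) : ze I (fun ω => c * A ω) = c * ze I A := by
  rw [Top.ze_eq, Top.ze_eq, ← Finset.mul_sum, mul_div_assoc]

/-- The moments with closed boundary vertices are at most the moments with inner vertices `F'`. -/
lemma mo_le {F F' : Finset Pt} (hF : F ⊆ F') (v : List Pt) :
    Mo F' F (ph v) ≤ ze F' (fun ω => (v.map (rs F ω)).prod) := by
  have hsub : F' ⊆ clo F' := sub_clo F'
  have hφ : ∀ i, ∀ x ∈ F, 0 ≤ ph v i x := by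
    intro i x _
    unfold ph
    split_ifs <;> norm_num
  have e : ze F' (fun ω => (v.map (rs F ω)).prod) = ev (FreeF F' (clo F')) (pl F (ph v)) := by
    unfold ze
    congr 1
    funext h
    show (v.map (rs F (vh F' h))).prod = pl F (ph v) h
    rw [rs_vh hF, pl_ph]
  rw [e, ← Mo_window hsub hF]
  have h1 := master (D' := innF F') (D := F') (U := clo F') (I := F) (φ := ph v) (innF_subset F')
    (fun x hx => hsub hx) (fun _ => 1) (fun _ => 1) (fun _ => zero_le_one)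
    (fun _ => zero_le_one) (fun _ _ _ _ => le_rfl) hφ
  simp only [one_mul, Finset.sum_const, nsmul_eq_mul, mul_one] at h1
  have c1 : (0 : ℝ) < ((FreeF (innF F') (clo F')).card : ℝ) := by
    exact_mod_cast (nonempty_free _ _).card_pos
  have c2 : (0 : ℝ) < ((FreeF F' (clo F')).card : ℝ) := by
    exact_mod_cast (nonempty_free _ _).card_pos
  unfold ev
  rw [div_le_div_iff₀ c1 c2]
  linarith

section
variable {P : Measure (Pt → ℤ)} {F F' : Finset Pt} {g : Set Pt → ℝ}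

lemma wt (hg : Fn (tE (F : Set Pt))ᶜ g) (hgm : Monotone g) (O : Set Pt) :
    Wt O F (fun h => g (bq h)) := by
  obtain ⟨Λ, hΛ, hloc⟩ := hg.loc
  refine ⟨fun h => hg.nonneg _, fun h h' _ hab => hloc _ _ fun w hw => bq_congr ?_,
    fun h h' _ hab => hgm ?_⟩
  · rintro x y hxy rfl
    refine hab x fun hx => hΛ _ hw ?_
    exact ⟨x, hx, y, hxy, rfl⟩
  · rintro w ⟨x, y, h1, h2, h3, h4⟩
    exact ⟨x, y, h1, h2, (hab x).trans h3, (hab y).trans h4⟩

lemma av (hgZ : ∀ B, g B ≠ 0 → Conf B (F' : Set Pt)ᶜ (F : Set Pt)ᶜ) (h : Hg) (hh : Lip h)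
    (hX : g (bq h) ≠ 0) : h ∈ Av ((F' : Set Pt)ᶜ) F := by
  rintro x hx ⟨a, ha, hp⟩
  rw [bq_eq hh] at hX
  refine hgZ _ hX a ha x ?_ hx
  refine Relation.ReflTransGen.mono (r := Op h) ?_ _ _ hp
  refine fun u w huw => ⟨huw.1, ?_⟩
  rintro ⟨u', w', h1, h2, h3, h4⟩
  apply huw.2
  rcases adj_mid huw.1 h1 h2 with ⟨e1, e2⟩ | ⟨e1, e2⟩
  · rw [← e1, ← e2]; exact ⟨h3, h4⟩
  · rw [← e1, ← e2]; exact ⟨h4, h3⟩

lemma core (hP : GFF.Plane P) (hF : F ⊆ F') (hg : Fn (tE (F : Set Pt))ᶜ g) (hgm : Monotone g)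
    (hgZ : ∀ B, g B ≠ 0 → Conf B (F' : Set Pt)ᶜ (F : Set Pt)ᶜ)
    (hi : Integrable (fun h => g (bq h)) (muT P)) {A : Om → ℝ} (hA : Cone A) :
    Integrable (fun h => g (bq h) * A (rs F (vm h))) (muT P) ∧
    ∫ h, g (bq h) * A (rs F (vm h)) ∂(muT P) ≤
      ze F' (fun ω => A (rs F ω)) * ∫ h, g (bq h) ∂(muT P) := by
  have hI0 : 0 ≤ ∫ h, g (bq h) ∂(muT P) := integral_nonneg fun h => hg.nonneg _
  induction hA with
  | mon v =>
    have hφ : ∀ i, ∀ x ∈ F, 0 ≤ ph v i x := by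
      intro i x _
      unfold ph
      split_ifs <;> norm_num
    have hloc : ∃ B : Finset Pt, ∀ h h' : Hg, (∀ x ∈ B, h x = h' x) → g (bq h) = g (bq h') := by
      obtain ⟨Λ, _, hl⟩ := hg.loc
      refine ⟨Λ.biUnion nb, fun h h' hh => hl _ _ fun w hw => bq_congr ?_⟩
      rintro x y hxy rfl
      rw [hh x (Finset.mem_biUnion.2 ⟨_, hw, mem_nb hxy⟩)]
    have h1 := plane_sandwich (gb_of_plane hP) (S := F') (S' := F) (I := F) (φ := ph v)
      (X := fun h => g (bq h)) (Finset.Subset.refl F) (wt hg hgm _) hloc (av hgZ) hi hφ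
    have h2 := integrable_mul_pl (gb_of_plane hP) (S := F') (S' := F) (I := F) (φ := ph v)
      (X := fun h => g (bq h)) (Finset.Subset.refl F) (av hgZ) hi
    simp only [pl_ph] at h1 h2
    exact ⟨h2, h1.2.trans (mul_le_mul_of_nonneg_right (mo_le hF v) hI0)⟩
  | zero =>
    have e : ze F' (fun _ => (0 : ℝ)) = 0 := by
      rw [Top.ze_eq, Finset.sum_const_zero, zero_div]
    simp only [mul_zero, integral_zero]
    rw [e, zero_mul]
    exact ⟨integrable_zero _ _ _, le_rfl⟩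
  | @add f₁ f₂ _ _ h1 h2 =>
    obtain ⟨i1, l1⟩ := h1
    obtain ⟨i2, l2⟩ := h2
    simp only [mul_add]
    refine ⟨i1.add i2, ?_⟩
    rw [integral_add i1 i2, ze_add F' (fun ω => f₁ (rs F ω)) (fun ω => f₂ (rs F ω)), add_mul]
    exact add_le_add l1 l2
  | @smul f₁ c hc _ h1 =>
    obtain ⟨i1, l1⟩ := h1
    have e : (fun h : Hg => g (bq h) * (c * f₁ (rs F (vm h)))) =
        fun h => c * (g (bq h) * f₁ (rs F (vm h))) := by
      funext h; ring
    rw [e]
    refine ⟨i1.const_mul c, ?_⟩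
    rw [integral_const_mul, ze_smul F' c (fun ω => f₁ (rs F ω)), mul_assoc]
    exact mul_le_mul_of_nonneg_left l1 hc

end

end Up

/-- **UP.** -/
theorem s_up {P : Measure (Pt → ℤ)} (hP : GFF.Plane P) (hint : S_int P) : S_up P := by
  intro F F' g A hF hg hgm hgZ hA hAF
  have hlip := (gb_of_plane hP).lip
  have hA1 : ∀ ω, A (Up.rs F ω) = A ω := fun ω => hAF _ _ fun v hv => by
    unfold Up.rs
    rw [if_pos (by exact_mod_cast hv)]
  have i0 : Integrable (fun h => g (Up.bq h)) (muT P) := by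
    obtain ⟨Λ, _, hl⟩ := hg.loc
    have := hint g (fun _ => 1) ⟨Λ, fun w _ => mem_univ w, hl⟩ hg.pin Pol.one
    simp only [mul_one] at this
    refine this.congr ?_
    filter_upwards [hlip] with h hh
    rw [Up.bq_eq hh]
  have key := (Up.core hP hF hg hgm hgZ i0 hA).2
  simp only [hA1] at key
  have e1 : II P g A = ∫ h, g (Up.bq h) * A (vm h) ∂(muT P) := by
    unfold II
    refine integral_congr_ae ?_
    filter_upwards [hlip] with h hh
    rw [Up.bq_eq hh]
  have e2 : II P g (fun _ => 1) = ∫ h, g (Up.bq h) ∂(muT P) := by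
    unfold II
    refine integral_congr_ae ?_
    filter_upwards [hlip] with h hh
    rw [Up.bq_eq hh, mul_one]
  rw [e1, e2]
  exact key

end Vale.Agent.P153.F.X
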