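import Vale.Agent.P153.F.X.Pin
import Vale.Agent.P153.F.Top.Key1
import Vale.Agent.P153.F.Top.Dominate
import Vale.Agent.P153.F.Top.Zm

/-!
P153-F, X-level (mirror of `P145.X.XstA`): reduction of `S_xst` to test functions which vanish on the corridors.
-/

set_option autoImplicit false

namespace Vale.Agent.P153.F.X

open Filter Topology Set MeasureTheory
open Vale.Agent.P145.PT Vale.Agent.P153.F.Top

/-- `S_xst` for test functions vanishing on the corridors of a given width `e`. -/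
def S_xst0 (κ : ℝ) (δ : ℕ → ℝ) : Prop := ∀ D₁ D₂ : Set (ℝ × ℝ), IsOpen D₁ → IsOpen D₂ →
  Bornology.IsBounded D₂ → closure D₁ ⊆ D₂ → ∀ a b c : ℝ, a + b < c →
  ccell a b c ⊆ D₁ → ∀ e : ℝ, 0 < e → ∀ (ψ f0 g : ℝ × ℝ → ℝ) (k : ℕ),
  TestOn (cell a b c) ψ → TestOn (cell a b c) f0 → TestOn D₁ g → (∀ z, 0 ≤ f0 z) →
  (∀ z, 0 ≤ g z) → (∀ z, g z ≠ 0 → z ∈ Pin a b c e) → ∀ L : List (List (ℝ × ℝ → ℝ)),
  (∀ l ∈ L, ∀ g ∈ l, TestOn D₁ g ∧ ∀ z, 0 ≤ g z) → ∀ η : ℝ, 0 < η →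
    ∃ ν : ℕ → Measure Om, (∀ᶠ n in atTop, Mom (ν n)) ∧
    (∀ l ∈ L, ∀ᶠ n in atTop,
      EE (δ n) D₁ (hvl (δ n) l) ≤ (∫ ω, hvl (δ n) l ω ∂(ν n)) + η ∧
      ∫ ω, hvl (δ n) l ω ∂(ν n) ≤ EE (δ n) D₂ (hvl (δ n) l) + η) ∧
    ∀ᶠ n in atTop, |(∫ ω, hv (δ n) (lap ψ) ω * hv (δ n) (fun z => f0 z + g z) ω ^ (k + 1) ∂(ν n)) +
        κ * (k + 1) * (∫ z, ψ z * (f0 z + g z)) *
          ∫ ω, hv (δ n) (fun z => f0 z + g z) ω ^ k ∂(ν n)| ≤ η

/-- the lists of the expansion -/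
def lq (q r f f' : ℝ × ℝ → ℝ) (k i : ℕ) : List (ℝ × ℝ → ℝ) :=
  q :: r :: (List.replicate i f ++ List.replicate (k - i) f')
def lr (r f f' : ℝ × ℝ → ℝ) (k i : ℕ) : List (ℝ × ℝ → ℝ) :=
  r :: (List.replicate i f ++ List.replicate (k - 1 - i) f')

section

variable {B : Finset (ℤ × ℤ)} {δ : ℝ}

theorem hl_lq (q r f f' : ℝ × ℝ → ℝ) (k i : ℕ) (ω : Om) : hl B δ (lq q r f f' k i) ω =
    hB B δ q ω * (hB B δ r ω * (hB B δ f ω ^ i * hB B δ f' ω ^ (k - i))) := by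
  unfold lq hl
  simp

theorem hl_lr (r f f' : ℝ × ℝ → ℝ) (k i : ℕ) (ω : Om) : hl B δ (lr r f f' k i) ω =
    hB B δ r ω * (hB B δ f ω ^ i * hB B δ f' ω ^ (k - 1 - i)) := by
  unfold lr hl
  simp

theorem expand1 {μ : Measure Om} (hμ : Mom μ) {p m f f' : ℝ × ℝ → ℝ} (k : ℕ) :
    (∫ ω, hB B δ (fun z => p z - m z) ω * hB B δ f ω ^ (k + 1) ∂μ) -
      ∫ ω, hB B δ (fun z => p z - m z) ω * hB B δ f' ω ^ (k + 1) ∂μ =
    ∑ i ∈ Finset.range (k + 1), ((∫ ω, hl B δ (lq p (fun z => f z - f' z) f f' k i) ω ∂μ) -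
      ∫ ω, hl B δ (lq m (fun z => f z - f' z) f f' k i) ω ∂μ) := by
  have i1 : ∀ q : ℝ × ℝ → ℝ, Integrable (fun ω => hB B δ (fun z => p z - m z) ω *
      hB B δ q ω ^ (k + 1)) μ := fun q => hμ.integrable (alg_hB.mul (alg_hB.pow _))
  rw [← integral_sub (i1 f) (i1 f')]
  have i2 : ∀ q : ℝ × ℝ → ℝ, ∀ i, Integrable (hl B δ (lq q (fun z => f z - f' z) f f' k i)) μ :=
    fun q i => hμ.integrable (alg_hl _)
  simp_rw [← fun i => integral_sub (i2 p i) (i2 m i)]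
  have i3 : ∀ i, Integrable (fun ω => hl B δ (lq p (fun z => f z - f' z) f f' k i) ω -
    hl B δ (lq m (fun z => f z - f' z) f f' k i) ω) μ := fun i => (i2 p i).sub (i2 m i)
  rw [← integral_finsetSum _ fun i _ => i3 i]
  congr 1
  funext ω
  simp only [hl_lq]
  rw [hB_sub, hB_sub]
  set x := hB B δ f ω
  set y := hB B δ f' ω
  have h := geom_sum₂_mul x y (k + 1)
  rw [← mul_sub, ← h, Finset.sum_mul, Finset.mul_sum]
  refine Finset.sum_congr rfl fun i _ => ?_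
  rw [Nat.add_sub_cancel]
  ring

theorem expand2 {μ : Measure Om} (hμ : Mom μ) {f f' : ℝ × ℝ → ℝ} (k : ℕ) :
    (∫ ω, hB B δ f ω ^ k ∂μ) - ∫ ω, hB B δ f' ω ^ k ∂μ =
    ∑ i ∈ Finset.range k, ∫ ω, hl B δ (lr (fun z => f z - f' z) f f' k i) ω ∂μ := by
  have i1 : ∀ q : ℝ × ℝ → ℝ, Integrable (fun ω => hB B δ q ω ^ k) μ :=
    fun q => hμ.integrable (alg_hB.pow _)
  rw [← integral_sub (i1 f) (i1 f')]
  have i2 : ∀ i, Integrable (hl B δ (lr (fun z => f z - f' z) f f' k i)) μ :=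
    fun i => hμ.integrable (alg_hl _)
  rw [← integral_finsetSum _ fun i _ => i2 i]
  congr 1
  funext ω
  simp only [hl_lr]
  rw [hB_sub]
  set x := hB B δ f ω
  set y := hB B δ f' ω
  have h := geom_sum₂_mul x y k
  rw [← h, Finset.sum_mul]
  exact Finset.sum_congr rfl fun i _ => by ring

/-- A product containing the small function `r`. -/
theorem small_list {μ : Measure Om} (h : Pos μ) {r g0 : ℝ × ℝ → ℝ} (hr : ∀ z, 0 ≤ r z)
    (hg0 : ∀ z, 0 ≤ g0 z) {l : List (ℝ × ℝ → ℝ)} (hl' : ∀ f ∈ l, ∀ z, 0 ≤ f z ∧ f z ≤ g0 z)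
    {X M θ : ℝ} (hX : ∫ ω, hB B δ r ω ^ 2 ∂μ ≤ X)
    (hM : ∫ ω, hB B δ g0 ω ^ (2 * l.length) ∂μ ≤ M) (_hM0 : 0 ≤ M) (hθ : 0 ≤ θ)
    (hXM : X * M ≤ θ ^ 2) : ∫ ω, hB B δ r ω * hl B δ l ω ∂μ ≤ θ := by
  have h1 := cone_dom (B := B) (δ := δ) hg0 (zero_le_one (α := ℝ)) l
    (fun f hf z => ⟨(hl' f hf z).1, by rw [one_mul]; exact (hl' f hf z).2⟩)
  have h2 := h.mom.nonneg h.pos (Cone.hB (B := B) (δ := δ) h1 hr)
  have e : ∀ ω, hB B δ r ω * (1 ^ l.length * hB B δ g0 ω ^ l.length - hl B δ l ω) =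
      hB B δ r ω * hB B δ g0 ω ^ l.length - hB B δ r ω * hl B δ l ω := fun ω => by ring
  simp_rw [e] at h2
  rw [integral_sub (h.mom.integrable (alg_hB.mul (alg_hB.pow _)))
    (h.mom.integrable (alg_hB.mul (alg_hl _)))] at h2
  have h3 := h.mixed_sq_le (B := B) (δ := δ) r g0 l.length
  have h4 : (∫ ω, hB B δ r ω * hB B δ g0 ω ^ l.length ∂μ) ^ 2 ≤ θ ^ 2 := by
    refine h3.trans (le_trans ?_ hXM)
    refine mul_le_mul hX hM ?_ ?_
    · exact integral_nonneg fun ω => by rw [pow_mul]; positivity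
    · exact (integral_nonneg fun ω => sq_nonneg _).trans hX
  have h5 : ∫ ω, hB B δ r ω * hB B δ g0 ω ^ l.length ∂μ ≤ θ := by
    exact (abs_le_of_sq_le_sq' h4 hθ).2
  linarith

end

/-- arithmetic of the comparison -/
theorem final_arith {S S' E E' I I' κ M θ ε' η : ℝ} {k : ℕ} (h1 : |S - S'| ≤ 4 * (k + 1) * θ)
    (h2 : |E - E'| ≤ 2 * k * θ) (h3 : |E'| ≤ M) (h4 : |I - I'| ≤ ε')
    (h5 : |S' + κ * (k + 1) * I' * E'| ≤ η / 3)
    (h6 : θ * (4 * (k + 1) + 2 * |κ| * (k + 1) * k * |I|) ≤ η / 3)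
    (h7 : |κ| * (k + 1) * (ε' * M) ≤ η / 3) : |S + κ * (k + 1) * I * E| ≤ η := by
  have e : S + κ * (k + 1) * I * E = (S - S') + (S' + κ * (k + 1) * I' * E') +
      (κ * (k + 1) * (I * (E - E')) + κ * (k + 1) * ((I - I') * E')) := by ring
  have hk : (0 : ℝ) ≤ (k : ℝ) + 1 := by positivity
  have a1 : |κ * (k + 1) * (I * (E - E'))| ≤ |κ| * (k + 1) * (|I| * (2 * k * θ)) := by
    rw [abs_mul, abs_mul κ, abs_of_nonneg hk, abs_mul]
    refine mul_le_mul_of_nonneg_left ?_ (by positivity)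
    exact mul_le_mul_of_nonneg_left h2 (abs_nonneg _)
  have a2 : |κ * (k + 1) * ((I - I') * E')| ≤ |κ| * (k + 1) * (ε' * M) := by
    rw [abs_mul, abs_mul κ, abs_of_nonneg hk, abs_mul]
    refine mul_le_mul_of_nonneg_left ?_ (by positivity)
    exact mul_le_mul h4 h3 (abs_nonneg _) ((abs_nonneg _).trans h4)
  rw [e]
  have b1 := abs_add_le ((S - S') + (S' + κ * (k + 1) * I' * E'))
    (κ * (k + 1) * (I * (E - E')) + κ * (k + 1) * ((I - I') * E'))
  have b2 := abs_add_le (S - S') (S' + κ * (k + 1) * I' * E')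
  have b3 := abs_add_le (κ * (k + 1) * (I * (E - E'))) (κ * (k + 1) * ((I - I') * E'))
  have e2 : θ * (4 * (k + 1) + 2 * |κ| * (k + 1) * k * |I|) =
      4 * (k + 1) * θ + |κ| * (k + 1) * (|I| * (2 * k * θ)) := by ring
  rw [e2] at h6
  linarith

theorem sum_abs_le {ι : Type*} (s : Finset ι) (x : ι → ℝ) {t : ℝ} (h : ∀ i ∈ s, |x i| ≤ t) :
    |∑ i ∈ s, x i| ≤ s.card * t := by
  refine (Finset.abs_sum_le_sum_abs _ _).trans ?_
  have := Finset.sum_le_card_nsmul s (fun i => |x i|) t h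
  rwa [nsmul_eq_mul] at this

/-- **`S_xst` from its version with corridors** -/
theorem xst_of_xst0 {κ : ℝ} {δ : ℕ → ℝ} (hδ : ∀ n, 0 < δ n) (hm : S_mono)
    (hmb : S_mb δ) (hl2 : S_l2 δ) (h0 : S_xst0 κ δ) : S_xst κ δ := by
  classical
  intro D₁ D₂ hD1 hD2 hb hcl a b c hab hcc ψ f k hψ hf hf0 L hL η hη
  -- radius
  obtain ⟨R0, hR0⟩ := hb.subset_ball (0 : ℝ × ℝ)
  obtain ⟨R, hR, hD2R⟩ : ∃ R : ℝ, 0 < R ∧ D₂ ⊆ Metric.ball (0 : ℝ × ℝ) R :=
    ⟨max R0 1, lt_max_of_lt_right one_pos, hR0.trans (Metric.ball_subset_ball (le_max_left _ _))⟩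
  have hD12 : D₁ ⊆ D₂ := subset_closure.trans hcl
  have hD1R : D₁ ⊆ Metric.ball (0 : ℝ × ℝ) R := hD12.trans hD2R
  have hb1 : Bornology.IsBounded D₁ := hb.subset hD12
  have hcell : cell a b c ⊆ D₁ := fun z hz => hcc ⟨hz.1.le, hz.2.1.le, hz.2.2.le⟩
  have hψ1 : TestOn D₁ ψ := hψ.mono hcell
  obtain ⟨p, m, hp, hmt, hp0, hm0, hpm⟩ := exists_decomp hD1 hb1 hψ1.lap
  have hpm' : lap ψ = fun z => p z - m z := funext hpm
  set g0 : ℝ × ℝ → ℝ := fun z => p z + m z + f z with hg0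
  have hg0t : TestOn D₁ g0 := (hp.add hmt).add hf
  have hg00 : ∀ z, 0 ≤ g0 z := fun z => add_nonneg (add_nonneg (hp0 z) (hm0 z)) (hf0 z)
  -- measures
  choose B hB' using fun n => hv_eq_hB (R := R) (hδ n)
  choose μ hμ hμE using fun n => exists_meas (Vs (δ n) D₂)
  choose μ' hμ' hμE' using fun n => exists_meas (Vs (δ n) D₁)
  have hPos : ∀ n, Pos (μ n) := fun n => ⟨hμ n, fun v => by
    rw [hμE n]; exact (hm _ _ (Finset.Subset.refl (Vs (δ n) D₂)) v).1⟩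
  have hPos' : ∀ n, Pos (μ' n) := fun n => ⟨hμ' n, fun v => by
    rw [hμE' n]; exact (hm _ _ (Finset.Subset.refl (Vs (δ n) D₁)) v).1⟩
  have hvB : ∀ n q, TestOn D₁ q → ∀ ω, hv (δ n) q ω = hB (B n) (δ n) q ω := fun n q hq ω =>
    hB' n q (fun z hz => hD1R (hq.2.2 (subset_tsupport _ hz))) ω
  have hvlB : ∀ n (l : List (ℝ × ℝ → ℝ)), (∀ q ∈ l, TestOn D₁ q) → ∀ ω,
      hvl (δ n) l ω = hl (B n) (δ n) l ω := by
    intro n l hl' ω
    unfold hvl hl
    congr 1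
    exact List.map_congr_left fun q hq => hvB n q (hl' q hq) ω
  -- moments of `g0`
  have hmom : ∀ j : ℕ, ∃ C : ℝ, ∀ᶠ n in atTop, ∫ ω, hB (B n) (δ n) g0 ω ^ j ∂(μ n) ≤ C := by
    intro j
    obtain ⟨C, hC⟩ := hmb D₂ hD2 hb g0 (hg0t.mono (subset_univ _)) hg00 j
    refine ⟨C, ?_⟩
    filter_upwards [hC] with n hn
    have e1 := hμE n (fun ω => hv (δ n) g0 ω ^ j)
    have e2 : EE (δ n) D₂ (fun ω => hv (δ n) g0 ω ^ j) = ∫ ω, hv (δ n) g0 ω ^ j ∂(μ n) := e1.symm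
    rw [e2] at hn
    refine le_trans (le_of_eq ?_) hn
    congr 1
    funext ω
    rw [hvB n g0 hg0t]
  choose C hC using hmom
  set M : ℝ := 1 + ∑ j ∈ Finset.range (2 * k + 5), |C j| with hMd
  have hM1 : 1 ≤ M := by
    have : 0 ≤ ∑ j ∈ Finset.range (2 * k + 5), |C j| := Finset.sum_nonneg fun _ _ => abs_nonneg _
    linarith
  have hM : ∀ᶠ n in atTop, ∀ j ∈ Finset.range (2 * k + 5),
      ∫ ω, hB (B n) (δ n) g0 ω ^ j ∂(μ n) ≤ M := by
    rw [Filter.eventually_all_finset]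
    intro j hj
    filter_upwards [hC j] with n hn
    have h1 : |C j| ≤ ∑ j ∈ Finset.range (2 * k + 5), |C j| :=
      Finset.single_le_sum (f := fun j => |C j|) (fun _ _ => abs_nonneg _) hj
    have h2 := le_abs_self (C j)
    linarith
  -- constants
  obtain ⟨C2, hC20, hC2⟩ := hl2 R hR
  obtain ⟨Bψ, hBψ⟩ := hψ.cs.exists_bound_of_continuous hψ.cont
  have hBψ0 : 0 ≤ Bψ := (norm_nonneg _).trans (hBψ 0)
  set I : ℝ := ∫ z, ψ z * f z with hI
  set A : ℝ := 4 * (k + 1) + 2 * |κ| * (k + 1) * k * |I| with hA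
  have hA0 : 0 ≤ A := by positivity
  set θ : ℝ := min 1 (η / (3 * (A + 1))) with hθ
  have hθ0 : 0 < θ := lt_min one_pos (by positivity)
  have hθ1 : θ ≤ 1 := min_le_left _ _
  have hθA : θ * A ≤ η / 3 := by
    have h1 : θ ≤ η / (3 * (A + 1)) := min_le_right _ _
    have h2 : θ * A ≤ η / (3 * (A + 1)) * (A + 1) :=
      mul_le_mul h1 (by linarith) hA0 (by positivity)
    have h3 : η / (3 * (A + 1)) * (A + 1) = η / 3 := by field_simp
    linarith
  obtain ⟨ρ, hρ0, hρ1, hρ2⟩ : ∃ ρ : ℝ, 0 < ρ ∧ (C2 * ρ + θ ^ 2 / (2 * M)) * M ≤ θ ^ 2 ∧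
      |κ| * (k + 1) * ((Bψ * ρ) * (M + 1)) ≤ η / 3 := by
    refine ⟨min (θ ^ 2 / (2 * M * (C2 + 1))) (η / (3 * (|κ| * (k + 1) * (Bψ * (M + 1)) + 1))),
      lt_min (by positivity) (by positivity), ?_, ?_⟩
    · have h1 := min_le_left (θ ^ 2 / (2 * M * (C2 + 1)))
        (η / (3 * (|κ| * (k + 1) * (Bψ * (M + 1)) + 1)))
      have h2 : C2 * min (θ ^ 2 / (2 * M * (C2 + 1)))
          (η / (3 * (|κ| * (k + 1) * (Bψ * (M + 1)) + 1))) ≤
          (C2 + 1) * (θ ^ 2 / (2 * M * (C2 + 1))) :=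
        mul_le_mul (by linarith) h1 (le_of_lt (lt_min (by positivity) (by positivity)))
          (by linarith)
      have h3 : (C2 + 1) * (θ ^ 2 / (2 * M * (C2 + 1))) = θ ^ 2 / (2 * M) := by field_simp
      have h4 : (θ ^ 2 / (2 * M) + θ ^ 2 / (2 * M)) * M = θ ^ 2 := by field_simp; ring
      refine le_trans ?_ h4.le
      refine mul_le_mul_of_nonneg_right ?_ (by linarith)
      linarith
    · set Q : ℝ := |κ| * (k + 1) * (Bψ * (M + 1)) with hQ
      have hQ0 : 0 ≤ Q := by positivity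
      have h1 := min_le_right (θ ^ 2 / (2 * M * (C2 + 1))) (η / (3 * (Q + 1)))
      set ρ' : ℝ := min (θ ^ 2 / (2 * M * (C2 + 1))) (η / (3 * (Q + 1))) with hρ'
      have hρ'0 : 0 ≤ ρ' := le_of_lt (lt_min (by positivity) (by positivity))
      have h2 : |κ| * (k + 1) * ((Bψ * ρ') * (M + 1)) = Q * ρ' := by rw [hQ]; ring
      rw [h2]
      have h3 : Q * ρ' ≤ (Q + 1) * (η / (3 * (Q + 1))) :=
        mul_le_mul (by linarith) h1 hρ'0 (by linarith)
      have h4 : (Q + 1) * (η / (3 * (Q + 1))) = η / 3 := by field_simp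
      linarith
  -- partition
  obtain ⟨e, he, f0, g, hf0c, hf0t, hgt, hf00, hg0', hgPin, hle, hr2, hr1⟩ :=
    exists_pin hf hf0 a b c hρ0
  set f' : ℝ × ℝ → ℝ := fun z => f0 z + g z with hf'
  have hf't : TestOn D₁ f' := hf0t.add hgt
  have hf'0 : ∀ z, 0 ≤ f' z := fun z => add_nonneg (hf00 z) (hg0' z)
  set r : ℝ × ℝ → ℝ := fun z => f z - f' z with hr
  have hrt : TestOn D₁ r := hf.sub hf't
  have hr0 : ∀ z, 0 ≤ r z := fun z => sub_nonneg.2 (hle z)
  -- the lists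
  set LL : List (List (ℝ × ℝ → ℝ)) := L ++ ((List.range (k + 1)).map (lq p r f f' k) ++
    ((List.range (k + 1)).map (lq m r f f' k) ++ ((List.range k).map (lr r f f' k) ++
      [List.replicate k f']))) with hLL
  have good : ∀ q ∈ [p, m, r, f, f'], TestOn D₁ q ∧ ∀ z, 0 ≤ q z := by
    intro q hq
    simp only [List.mem_cons, List.not_mem_nil, or_false] at hq
    rcases hq with rfl | rfl | rfl | rfl | rfl
    exacts [⟨hp, hp0⟩, ⟨hmt, hm0⟩, ⟨hrt, hr0⟩, ⟨hf, hf0⟩, ⟨hf't, hf'0⟩]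
  have memlq : ∀ q ∈ [p, m], ∀ i, ∀ t ∈ lq q r f f' k i, t ∈ [p, m, r, f, f'] := by
    intro q hq i t ht
    simp only [lq, List.mem_cons, List.mem_append, List.mem_replicate] at ht
    simp only [List.mem_cons, List.not_mem_nil, or_false] at hq ⊢
    rcases ht with rfl | rfl | ⟨-, rfl⟩ | ⟨-, rfl⟩
    · rcases hq with rfl | rfl <;> simp
    · simp
    · simp
    · simp
  have memlr : ∀ i, ∀ t ∈ lr r f f' k i, t ∈ [p, m, r, f, f'] := by
    intro i t ht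
    simp only [lr, List.mem_cons, List.mem_append, List.mem_replicate] at ht
    simp only [List.mem_cons, List.not_mem_nil, or_false]
    rcases ht with rfl | ⟨-, rfl⟩ | ⟨-, rfl⟩ <;> simp
  have hLLg : ∀ l ∈ LL, ∀ q ∈ l, TestOn D₁ q ∧ ∀ z, 0 ≤ q z := by
    intro l hl' q hq
    simp only [hLL, List.mem_append, List.mem_map, List.mem_range, List.mem_cons,
      List.not_mem_nil, or_false] at hl'
    rcases hl' with h1 | ⟨i, -, rfl⟩ | ⟨i, -, rfl⟩ | ⟨i, -, rfl⟩ | rfl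
    · exact hL l h1 q hq
    · exact good q (memlq p (by simp) i q hq)
    · exact good q (memlq m (by simp) i q hq)
    · exact good q (memlr i q hq)
    · rw [List.mem_replicate] at hq
      rw [hq.2]
      exact ⟨hf't, hf'0⟩
  have hθη : θ ≤ η := by
    have h1 : θ ≤ η / (3 * (A + 1)) := min_le_right _ _
    have h2 : η / (3 * (A + 1)) ≤ η := div_le_self hη.le (by linarith)
    linarith
  obtain ⟨ν, hνm, hνs, hνsd⟩ := h0 D₁ D₂ hD1 hD2 hb hcl a b c hab hcc e he ψ f0 g k hψ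
    hf0c hgt hf00 hg0' hgPin LL hLLg (min θ (η / 3)) (lt_min hθ0 (by positivity))
  have hmin1 : min θ (η / 3) ≤ θ := min_le_left _ _
  have hmin2 : min θ (η / 3) ≤ η / 3 := min_le_right _ _
  refine ⟨ν, hνm, ?_, ?_⟩
  · intro l hl'
    filter_upwards [hνs l (by rw [hLL]; exact List.mem_append_left _ hl')] with n hn
    exact ⟨by linarith [hn.1], by linarith [hn.2]⟩
  -- the sandwich for all lists of `LL`
  have hνall : ∀ᶠ n in atTop, ∀ l ∈ LL, EE (δ n) D₁ (hvl (δ n) l) ≤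
      (∫ ω, hvl (δ n) l ω ∂(ν n)) + θ ∧
      ∫ ω, hvl (δ n) l ω ∂(ν n) ≤ EE (δ n) D₂ (hvl (δ n) l) + θ := by
    have h1 : ∀ l ∈ LL.toFinset, ∀ᶠ n in atTop, EE (δ n) D₁ (hvl (δ n) l) ≤
        (∫ ω, hvl (δ n) l ω ∂(ν n)) + θ ∧
        ∫ ω, hvl (δ n) l ω ∂(ν n) ≤ EE (δ n) D₂ (hvl (δ n) l) + θ := by
      intro l hl'
      filter_upwards [hνs l (List.mem_toFinset.1 hl')] with n hn
      exact ⟨by linarith [hn.1], by linarith [hn.2]⟩
    have h2 := (Filter.eventually_all_finset LL.toFinset).2 h1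
    filter_upwards [h2] with n hn l hl'
    exact hn l (List.mem_toFinset.2 hl')
  filter_upwards [hνm, hνall, hνsd, hM, hC2 D₂ hD2 hD2R r (hrt.mono hD1R) hr0
    (θ ^ 2 / (2 * M)) (by positivity)] with n n1 n2 n3 n4 n5
  -- second moment of `r`
  have hX : ∫ ω, hB (B n) (δ n) r ω ^ 2 ∂(μ n) ≤ C2 * ρ + θ ^ 2 / (2 * M) := by
    have e1 := hμE n (fun ω => hv (δ n) r ω ^ 2)
    have e2 : EE (δ n) D₂ (fun ω => hv (δ n) r ω ^ 2) = ∫ ω, hv (δ n) r ω ^ 2 ∂(μ n) := e1.symm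
    rw [e2] at n5
    have e3 : ∫ ω, hv (δ n) r ω ^ 2 ∂(μ n) = ∫ ω, hB (B n) (δ n) r ω ^ 2 ∂(μ n) := by
      congr 1; funext ω; rw [hvB n r hrt]
    rw [e3] at n5
    have h1 : C2 * (∫ z, r z ^ 2) ≤ C2 * ρ := mul_le_mul_of_nonneg_left hr2 hC20
    linarith
  -- the lists with a factor `r` are small
  have small : ∀ l : List (ℝ × ℝ → ℝ), (∀ q ∈ l, q ∈ [p, m, r, f, f'] ∧ ∀ z, q z ≤ g0 z) →
      l.length ≤ k + 1 → ∫ ω, hB (B n) (δ n) r ω * hl (B n) (δ n) l ω ∂(μ n) ≤ θ := by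
    intro l hl' hlen
    refine small_list (hPos n) hr0 hg00 (fun q hq z => ⟨(good q (hl' q hq).1).2 z, (hl' q hq).2 z⟩)
      hX (n4 _ (Finset.mem_range.2 (by omega))) (by linarith) hθ0.le hρ1
  have le1 : ∀ z, p z ≤ g0 z := fun z => by simp only [hg0]; linarith [hm0 z, hf0 z]
  have le2 : ∀ z, m z ≤ g0 z := fun z => by simp only [hg0]; linarith [hp0 z, hf0 z]
  have le3 : ∀ z, f z ≤ g0 z := fun z => by simp only [hg0]; linarith [hp0 z, hm0 z]
  have le4 : ∀ z, f' z ≤ g0 z := fun z => (hle z).trans (le3 z)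
  have hEE2 : ∀ l ∈ LL, EE (δ n) D₂ (hvl (δ n) l) = ∫ ω, hl (B n) (δ n) l ω ∂(μ n) := by
    intro l hl'
    have e1 := hμE n (hvl (δ n) l)
    have e2 : EE (δ n) D₂ (hvl (δ n) l) = ∫ ω, hvl (δ n) l ω ∂(μ n) := e1.symm
    rw [e2]
    congr 1
    funext ω
    exact hvlB n l (fun q hq => (hLLg l hl' q hq).1) ω
  have hEE1 : ∀ l ∈ LL, 0 ≤ EE (δ n) D₁ (hvl (δ n) l) := by
    intro l hl'
    have e1 := hμE' n (hvl (δ n) l)
    have e2 : EE (δ n) D₁ (hvl (δ n) l) = ∫ ω, hvl (δ n) l ω ∂(μ' n) := e1.symm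
    have e3 : ∫ ω, hvl (δ n) l ω ∂(μ' n) = ∫ ω, hl (B n) (δ n) l ω ∂(μ' n) := by
      congr 1
      funext ω
      exact hvlB n l (fun q hq => (hLLg l hl' q hq).1) ω
    rw [e2, e3]
    exact (hPos' n).hl_nonneg fun q hq => (hLLg l hl' q hq).2
  have hνl : ∀ l ∈ LL, ∀ x : ℝ, ∫ ω, hl (B n) (δ n) l ω ∂(μ n) ≤ x → 0 ≤ x →
      |∫ ω, hl (B n) (δ n) l ω ∂(ν n)| ≤ x + θ := by
    intro l hl' x hx hx0
    obtain ⟨q1, q2⟩ := n2 l hl'
    have e3 : ∫ ω, hvl (δ n) l ω ∂(ν n) = ∫ ω, hl (B n) (δ n) l ω ∂(ν n) := by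
      congr 1
      funext ω
      exact hvlB n l (fun q hq => (hLLg l hl' q hq).1) ω
    rw [e3] at q1 q2
    rw [hEE2 l hl'] at q2
    have q3 := hEE1 l hl'
    rw [abs_le]
    constructor <;> linarith
  have tail_small : ∀ i, i ≤ k → ∀ q ∈ [p, m], (∀ z, q z ≤ g0 z) →
      ∫ ω, hl (B n) (δ n) (lq q r f f' k i) ω ∂(μ n) ≤ θ := by
    intro i hi q hq hqg
    have h1 := small (q :: (List.replicate i f ++ List.replicate (k - i) f')) ?_ ?_
    · refine le_trans (le_of_eq ?_) h1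
      congr 1
      funext ω
      rw [hl_lq]
      simp [hl]
      ring
    · intro t ht
      simp only [List.mem_cons, List.mem_append, List.mem_replicate] at ht
      rcases ht with rfl | ⟨-, rfl⟩ | ⟨-, rfl⟩
      · refine ⟨?_, hqg⟩
        simp only [List.mem_cons, List.not_mem_nil, or_false] at hq ⊢
        rcases hq with h | h
        · left; exact h
        · right; left; exact h
      · exact ⟨by simp, le3⟩
      · exact ⟨by simp, le4⟩
    · simp only [List.length_cons, List.length_append, List.length_replicate]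
      omega
  have tail_small' : ∀ i, i < k → ∫ ω, hl (B n) (δ n) (lr r f f' k i) ω ∂(μ n) ≤ θ := by
    intro i hi
    have h1 := small (List.replicate i f ++ List.replicate (k - 1 - i) f') ?_ ?_
    · refine le_trans (le_of_eq ?_) h1
      congr 1
    · intro t ht
      simp only [List.mem_append, List.mem_replicate] at ht
      rcases ht with ⟨-, rfl⟩ | ⟨-, rfl⟩
      · exact ⟨by simp, le3⟩
      · exact ⟨by simp, le4⟩
    · simp only [List.length_append, List.length_replicate]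
      omega
  -- members of `LL`
  have mem1 : ∀ i, i < k + 1 → lq p r f f' k i ∈ LL := fun i hi => by
    rw [hLL]
    refine List.mem_append_right _ (List.mem_append_left _ ?_)
    exact List.mem_map.2 ⟨i, List.mem_range.2 hi, rfl⟩
  have mem2 : ∀ i, i < k + 1 → lq m r f f' k i ∈ LL := fun i hi => by
    rw [hLL]
    refine List.mem_append_right _ (List.mem_append_right _ (List.mem_append_left _ ?_))
    exact List.mem_map.2 ⟨i, List.mem_range.2 hi, rfl⟩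
  have mem3 : ∀ i, i < k → lr r f f' k i ∈ LL := fun i hi => by
    rw [hLL]
    refine List.mem_append_right _ (List.mem_append_right _ (List.mem_append_right _
      (List.mem_append_left _ ?_)))
    exact List.mem_map.2 ⟨i, List.mem_range.2 hi, rfl⟩
  have mem4 : List.replicate k f' ∈ LL := by
    rw [hLL]
    refine List.mem_append_right _ (List.mem_append_right _ (List.mem_append_right _
      (List.mem_append_right _ ?_)))
    simp
  -- conversions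
  have cU : ∀ (t : ℝ × ℝ → ℝ), TestOn D₁ t → ∀ j : ℕ,
      ∫ ω, hv (δ n) (lap ψ) ω * hv (δ n) t ω ^ j ∂(ν n) =
      ∫ ω, hB (B n) (δ n) (fun z => p z - m z) ω * hB (B n) (δ n) t ω ^ j ∂(ν n) := by
    intro t ht j
    congr 1
    funext ω
    rw [hvB n _ hψ1.lap, hvB n t ht, hpm']
  have cV : ∀ (t : ℝ × ℝ → ℝ), TestOn D₁ t → ∀ j : ℕ,
      ∫ ω, hv (δ n) t ω ^ j ∂(ν n) = ∫ ω, hB (B n) (δ n) t ω ^ j ∂(ν n) := by
    intro t ht j
    congr 1
    funext ω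
    rw [hvB n t ht]
  rw [cU f' hf't, cV f' hf't] at n3
  rw [cU f hf, cV f hf]
  refine final_arith (M := M + 1) (θ := θ) (ε' := Bψ * ρ) ?_ ?_ ?_ ?_ (n3.trans hmin2) hθA hρ2
  · rw [expand1 n1]
    refine (sum_abs_le _ _ (t := 4 * θ) fun i hi => ?_).trans ?_
    · have hi' := Finset.mem_range.1 hi
      have q1 := hνl _ (mem1 i hi') θ (tail_small i (by omega) p (by simp) le1) hθ0.le
      have q2 := hνl _ (mem2 i hi') θ (tail_small i (by omega) m (by simp) le2) hθ0.le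
      refine (abs_sub _ _).trans ?_
      linarith
    · rw [Finset.card_range]
      push_cast
      linarith
  · rw [expand2 n1]
    refine (sum_abs_le _ _ (t := 2 * θ) fun i hi => ?_).trans ?_
    · have hi' := Finset.mem_range.1 hi
      have q1 := hνl _ (mem3 i hi') θ (tail_small' i hi') hθ0.le
      linarith
    · rw [Finset.card_range]
      linarith
  · have q1 := hνl _ mem4 M ?_ (by linarith)
    · have e1 : ∫ ω, hl (B n) (δ n) (List.replicate k f') ω ∂(ν n) =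
          ∫ ω, hB (B n) (δ n) f' ω ^ k ∂(ν n) := by
        congr 1; funext ω; exact hl_replicate f' k ω
      rw [e1] at q1
      linarith
    · have h1 := (hPos n).hl_le (B := B n) (δ := δ n) hg00 (zero_le_one (α := ℝ))
        (List.replicate k f') (fun q hq z => by
          rw [List.mem_replicate] at hq
          rw [hq.2, one_mul]
          exact ⟨hf'0 z, le4 z⟩)
      rw [List.length_replicate, one_pow, one_mul] at h1
      exact h1.trans (n4 k (Finset.mem_range.2 (by omega)))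
  · have e1 : I - ∫ z, ψ z * (f0 z + g z) = ∫ z, ψ z * r z := by
      rw [hI, ← integral_sub]
      · congr 1
        funext z
        simp only [hr, hf']
        ring
      · exact (hψ.cont.mul hf.cont).integrable_of_hasCompactSupport hψ.cs.mul_right
      · exact (hψ.cont.mul hf't.cont).integrable_of_hasCompactSupport hψ.cs.mul_right
    rw [e1]
    have h2 : ‖∫ z, ψ z * r z‖ ≤ ∫ z, Bψ * r z := by
      refine norm_integral_le_of_norm_le (hrt.int.const_mul _) (Eventually.of_forall fun z => ?_)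
      rw [norm_mul, Real.norm_eq_abs (r z), abs_of_nonneg (hr0 z)]
      exact mul_le_mul_of_nonneg_right (hBψ z) (hr0 z)
    rw [integral_const_mul, Real.norm_eq_abs] at h2
    exact h2.trans (mul_le_mul_of_nonneg_left hr1 hBψ0)

end Vale.Agent.P153.F.X
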