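import Vale.Agent.P153.F.X.NuX

/-!
P153-F, X-level (mirror of `P145.X.ConfL`): `Conf B F'ᶜ Fᶜ` is monotone in `B` and depends on
finitely many edges, none of them with an end in `F`.
-/

namespace Vale.Agent.P153.F.X.Sb

open Filter Topology Set MeasureTheory
open Vale.Agent.P153

theorem conf_mono {B B' : Set Pt} (h : B ⊆ B') {S T : Set Pt} (hB : Conf B S T) :
    Conf B' S T := by
  intro f hf g hg
  have key : Relation.ReflTransGen (stp B) f g := by
    induction hg with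
    | refl => exact Relation.ReflTransGen.refl
    | tail _ hs ih => exact ih.tail ⟨hs.1, fun h' => hs.2 (h h')⟩
  exact hB f hf g key

/-- The edges of a finite set of vertices. -/
theorem tE_finite (F : Finset Pt) : (tE (F : Set Pt)).Finite := by
  have h1 : tE (F : Set Pt) ⊆ ⋃ x ∈ F, (fun y => x + y) '' {y | Adj x y} := by
    rintro w ⟨x, hx, y, hxy, rfl⟩
    rw [mem_iUnion₂]
    exact ⟨x, hx, y, hxy, rfl⟩
  refine Set.Finite.subset (F.finite_toSet.biUnion fun x _ => Set.Finite.image _ ?_) h1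
  have h2 : {y : Pt | Adj x y} ⊆ Set.Icc ((x.1 - 1, x.2 - 1) : ℤ × ℤ) (x.1 + 1, x.2 + 1) := by
    rintro ⟨a, b⟩ h
    obtain ⟨c, d⟩ := x
    simp only [Adj, Set.mem_insert_iff, Set.mem_singleton_iff, Prod.mk.injEq,
      mem_ofPred_eq] at h
    simp only [Set.mem_Icc, Prod.mk_le_mk]
    omega
  exact (Set.finite_Icc _ _).subset h2

theorem adj_symm {x y : Pt} (h : Adj x y) : Adj y x := by
  obtain ⟨a, b⟩ := x
  obtain ⟨c, d⟩ := y
  simp only [Adj, Set.mem_insert_iff, Set.mem_singleton_iff, Prod.mk.injEq] at *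
  omega

theorem conf_congr {F' : Finset Pt} {T B B' : Set Pt}
    (h : ∀ w, w ∈ tE (F' : Set Pt) → w ∈ B → w ∈ B')
    (hB : Conf B (F' : Set Pt)ᶜ T) : Conf B' (F' : Set Pt)ᶜ T := by
  intro f hf g hg
  have key : ∃ f₀ ∈ (F' : Set Pt)ᶜ, Relation.ReflTransGen (stp B) f₀ g := by
    induction hg with
    | refl => exact ⟨f, hf, Relation.ReflTransGen.refl⟩
    | tail _ hs ih =>
      rename_i a b _
      obtain ⟨f₀, hf₀, hp⟩ := ih
      by_cases hb : b ∈ (F' : Set Pt)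
      · refine ⟨f₀, hf₀, hp.tail ⟨hs.1, fun hwB => hs.2 (h _ ?_ hwB)⟩⟩
        exact ⟨b, hb, a, adj_symm hs.1, add_comm a b⟩
      · exact ⟨b, hb, Relation.ReflTransGen.refl⟩
  obtain ⟨f₀, hf₀, hp⟩ := key
  exact hB f₀ hf₀ g hp

/-- Locality of the confinement. -/
theorem conf_loc (F F' : Finset Pt) : LocS (tE (F : Set Pt))ᶜ
    (ind fun B => Conf (B \ tE (F : Set Pt)) (F' : Set Pt)ᶜ (F : Set Pt)ᶜ) := by
  classical
  have hfin : (tE (F' : Set Pt) \ tE (F : Set Pt)).Finite :=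
    (tE_finite F').subset fun w hw => hw.1
  refine ⟨hfin.toFinset, fun w hw => ?_, fun B B' hBB => ?_⟩
  · rw [Set.Finite.mem_toFinset] at hw
    exact hw.2
  · have h1 : Conf (B \ tE (F : Set Pt)) (F' : Set Pt)ᶜ (F : Set Pt)ᶜ ↔
        Conf (B' \ tE (F : Set Pt)) (F' : Set Pt)ᶜ (F : Set Pt)ᶜ := by
      constructor
      · refine conf_congr fun w h1 h2 => ⟨(hBB w ?_).1 h2.1, h2.2⟩
        rw [Set.Finite.mem_toFinset]
        exact ⟨h1, h2.2⟩
      · refine conf_congr fun w h1 h2 => ⟨(hBB w ?_).2 h2.1, h2.2⟩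
        rw [Set.Finite.mem_toFinset]
        exact ⟨h1, h2.2⟩
    by_cases h : Conf (B \ tE (F : Set Pt)) (F' : Set Pt)ᶜ (F : Set Pt)ᶜ
    · rw [ind_one (Q := fun B => Conf (B \ tE (F : Set Pt)) (F' : Set Pt)ᶜ (F : Set Pt)ᶜ) h,
        ind_one (Q := fun B => Conf (B \ tE (F : Set Pt)) (F' : Set Pt)ᶜ (F : Set Pt)ᶜ) (h1.1 h)]
    · rw [ind_zero (Q := fun B => Conf (B \ tE (F : Set Pt)) (F' : Set Pt)ᶜ (F : Set Pt)ᶜ) h,
        ind_zero (Q := fun B => Conf (B \ tE (F : Set Pt)) (F' : Set Pt)ᶜ (F : Set Pt)ᶜ)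
          fun h' => h (h1.2 h')]

theorem ind_and (Q G : Set Pt → Prop) (B : Set Pt) :
    ind (fun B => Q B ∧ G B) B = ind Q B * ind G B := by
  by_cases h : Q B
  · by_cases h' : G B
    · rw [ind_one (Q := fun B => Q B ∧ G B) ⟨h, h'⟩, ind_one h, ind_one h', one_mul]
    · rw [ind_zero (Q := fun B => Q B ∧ G B) fun h2 => h' h2.2, ind_zero h', mul_zero]
  · rw [ind_zero (Q := fun B => Q B ∧ G B) fun h2 => h h2.1, ind_zero h, zero_mul]

theorem locS_mul {A : Set Pt} {g g' : Set Pt → ℝ} (h : LocS A g) (h' : LocS A g') :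
    LocS A fun B => g B * g' B := by
  classical
  obtain ⟨Λ, h1, h2⟩ := h
  obtain ⟨Λ', h1', h2'⟩ := h'
  refine ⟨Λ ∪ Λ', fun w hw => ?_, fun B B' hBB => ?_⟩
  · rcases Finset.mem_union.1 hw with hw | hw
    · exact h1 w hw
    · exact h1' w hw
  · have e1 := h2 B B' fun w hw => hBB w (Finset.mem_union_left _ hw)
    have e2 := h2' B B' fun w hw => hBB w (Finset.mem_union_right _ hw)
    simp only [e1, e2]

theorem locS_and {A : Set Pt} {Q G : Set Pt → Prop} (h : LocS A (ind Q)) (h' : LocS A (ind G)) :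
    LocS A (ind fun B => Q B ∧ G B) := by
  have : (ind fun B => Q B ∧ G B) = fun B => ind Q B * ind G B := funext fun B => ind_and Q G B
  rw [this]
  exact locS_mul h h'

theorem locS_not {A : Set Pt} {Q : Set Pt → Prop} (h : LocS A (ind Q)) :
    LocS A (ind fun B => ¬ Q B) := by
  obtain ⟨Λ, h1, h2⟩ := h
  refine ⟨Λ, h1, fun B B' hBB => ?_⟩
  have h3 := h2 B B' hBB
  by_cases hQ : Q B
  · have hQ' := ind_congr h3 hQ
    rw [ind_zero (Q := fun B => ¬ Q B) (not_not.2 hQ), ind_zero (Q := fun B => ¬ Q B)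
      (not_not.2 hQ')]
  · have hQ' : ¬ Q B' := fun h' => hQ (ind_congr h3.symm h')
    rw [ind_one (Q := fun B => ¬ Q B) hQ, ind_one (Q := fun B => ¬ Q B) hQ']

theorem mono_ind {Q : Set Pt → Prop} (h : ∀ B B' : Set Pt, B ⊆ B' → Q B → Q B') :
    Monotone (ind Q) := by
  intro B B' hBB
  by_cases hQ : Q B
  · rw [ind_one hQ, ind_one (h B B' hBB hQ)]
  · rw [ind_zero hQ]
    exact ind_nonneg B'

theorem of_mono_ind {Q : Set Pt → Prop} (h : Monotone (ind Q)) {B B' : Set Pt} (hBB : B ⊆ B')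
    (hQ : Q B) : Q B' := by
  have h1 := h hBB
  rw [ind_one hQ] at h1
  by_contra h2
  rw [ind_zero h2] at h1
  norm_num at h1

end Vale.Agent.P153.F.X.Sb
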