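import Vale.Agent.P153.F.X.Stmt
import Vale.Agent.P153.F.Top.Zm

/-!
P153-F, decay at the boundary (mirror of `P145.X.DecA`): the expectation of the product of two
functionals of the heights is bounded by the probability that their supports are connected.
-/

namespace Vale.Agent.P153.F.X

open Filter Topology Set MeasureTheory Relation
open Vale.Agent.P153
open Vale.Agent.P153.F.Top (Om Cone EE hv hvl ze dp vh tl)

/-- Indicator of the event that `O` and `I` are connected by edges touching `F` not in `B`. -/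
noncomputable def cn (F O I : Set Pt) : Set Pt → ℝ :=
  ind fun B => ∃ f ∈ O, ∃ g ∈ I, ReflTransGen (fun a b => (a ∈ F ∨ b ∈ F) ∧ stp B a b) f g

/-- Probability, with free boundary values, that `O` and `I` are connected. -/
noncomputable def pcn (F : Finset Pt) (O I : Set Pt) : ℝ :=
  ev (FreeF F (clo F)) fun h => cn (F : Set Pt) O I (bl h)

theorem ind_casesD (Q : Set Pt → Prop) (B : Set Pt) : ind Q B = 0 ∨ ind Q B = 1 := by
  unfold ind; split_ifs <;> simp

theorem ind_nonnegD (Q : Set Pt → Prop) (B : Set Pt) : 0 ≤ ind Q B := by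
  rcases ind_casesD Q B with h | h <;> simp [h]

theorem pcn_nonneg (F : Finset Pt) (O I : Set Pt) : 0 ≤ pcn F O I :=
  div_nonneg (Finset.sum_nonneg fun _ _ => ind_nonnegD _ _) (Nat.cast_nonneg _)

private theorem da_adj {x y x' y' : Pt} (h : Adj x y) (h' : Adj x' y') (e : x + y = x' + y') :
    (x' = x ∧ y' = y) ∨ (x' = y ∧ y' = x) := by
  obtain ⟨a, b⟩ := x
  obtain ⟨c, d⟩ := y
  obtain ⟨a', b'⟩ := x'
  obtain ⟨c', d'⟩ := y'
  simp only [Adj, Set.mem_insert_iff, Set.mem_singleton_iff, Prod.mk_add_mk, Prod.mk.injEq] at *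
  omega

theorem bl_iffD {h : Hg} {x y : Pt} (hxy : Adj x y) : x + y ∈ bl h ↔ |h x| = 1 ∧ |h y| = 1 := by
  constructor
  · rintro ⟨x', y', h', e, h1, h2⟩
    rcases da_adj hxy h' e with ⟨rfl, rfl⟩ | ⟨rfl, rfl⟩
    · exact ⟨h1, h2⟩
    · exact ⟨h2, h1⟩
  · rintro ⟨h1, h2⟩
    exact ⟨x, y, hxy, rfl, h1, h2⟩

theorem stp_iffD {h : Hg} {x y : Pt} : stp (bl h) x y ↔ Op h x y := by
  unfold stp Op
  constructor
  · rintro ⟨h1, h2⟩
    exact ⟨h1, fun h3 => h2 ((bl_iffD h1).2 h3)⟩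
  · rintro ⟨h1, h2⟩
    exact ⟨h1, fun h3 => h2 ((bl_iffD h1).1 h3)⟩

/-- Change of the signs on the clusters of `A`. -/
noncomputable def flD (A : Set Pt) (h : Hg) : Hg :=
  comb (Clu A h) (fun x => -h x) h

theorem abs_flD (A : Set Pt) (h : Hg) (x : Pt) : |flD A h x| = |h x| := by
  unfold flD
  by_cases hx : x ∈ Clu A h
  · rw [comb_in hx, abs_neg]
  · rw [comb_out hx]

theorem clu_flD (A : Set Pt) (h : Hg) : Clu A (flD A h) = Clu A h := by
  have e : Op (flD A h) = Op h := by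
    funext x y
    unfold Op
    rw [abs_flD, abs_flD]
  unfold Clu
  rw [e]

theorem bl_flD (A : Set Pt) (h : Hg) : bl (flD A h) = bl h := by
  unfold bl
  simp only [abs_flD]

theorem flD_flD (A : Set Pt) (h : Hg) : flD A (flD A h) = h := by
  funext x
  have e : flD A (flD A h) = comb (Clu A h) (fun x => -flD A h x) (flD A h) := by
    conv_lhs => unfold flD
    rw [show Clu A (comb (Clu A h) (fun x => -h x) h) = Clu A h from clu_flD A h]
    rfl
  rw [e]
  by_cases hx : x ∈ Clu A h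
  · rw [comb_in hx]
    unfold flD
    rw [comb_in hx, neg_neg]
  · rw [comb_out hx]
    unfold flD
    rw [comb_out hx]

/-- The clusters of the inner vertices stay in the closure. -/
theorem clu_clo {F : Finset Pt} {h : Hg} (hh : h ∈ Free F (clo F)) {A : Set Pt}
    (hA : A ⊆ (F : Set Pt)) : Clu A h ⊆ (clo F : Set Pt) := by
  rintro y ⟨x, hx, hxy⟩
  induction hxy with
  | refl => exact sub_clo F x (hA hx)
  | @tail b c _ h3 ih =>
    by_cases hb : b ∈ F
    · exact adj_clo F b hb c h3.1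
    · by_cases hc : c ∈ F
      · exact sub_clo F c hc
      · exact absurd ⟨hh.2.1 b hb, hh.2.1 c hc⟩ h3.2

theorem flD_mem {F : Finset Pt} {h : Hg} (hh : h ∈ Free F (clo F)) {A : Set Pt}
    (hA : A ⊆ (F : Set Pt)) : flD A h ∈ Free F (clo F) := by
  refine ⟨⟨fun x => ?_, fun x y hxy => ?_⟩, fun x hx => ?_, fun x hx => ?_⟩
  · unfold flD
    by_cases hx : x ∈ Clu A h
    · rw [comb_in hx]
      exact (hh.1.1 x).neg
    · rw [comb_out hx]
      exact hh.1.1 x
  · have key : ∀ x y, Adj x y → x ∈ Clu A h → y ∉ Clu A h → |(-h x) - h y| ≤ 2 := by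
      intro x y hxy hx hy
      obtain ⟨h1, h2⟩ := closed_of_cross hx hy hxy
      rcases abs_eq (zero_le_one' ℤ) |>.1 h1 with h1 | h1 <;>
        rcases abs_eq (zero_le_one' ℤ) |>.1 h2 with h2 | h2 <;> simp [h1, h2]
    unfold flD
    by_cases hx : x ∈ Clu A h <;> by_cases hy : y ∈ Clu A h
    · rw [comb_in hx, comb_in hy]
      have := hh.1.2 x y hxy
      rwa [← abs_neg, neg_sub_neg, neg_sub]
    · rw [comb_in hx, comb_out hy]; exact key x y hxy hx hy
    · rw [comb_out hx, comb_in hy, abs_sub_comm]; exact key y x hxy.symm hy hx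
    · rw [comb_out hx, comb_out hy]; exact hh.1.2 x y hxy
  · rw [abs_flD]
    exact hh.2.1 x hx
  · unfold flD
    rw [comb_out fun hc => hx (clu_clo hh hA hc)]
    exact hh.2.2 x hx

/-- The functional `hv` of the heights. -/
theorem hv_negD {δ : ℝ} {b : ℝ × ℝ → ℝ} {ω ω' : Om}
    (h : ∀ v : Pt, b (dp δ v) ≠ 0 → ω' v = -ω v) : hv δ b ω' = -hv δ b ω := by
  unfold hv
  rw [← mul_neg, ← finsum_neg_distrib]
  congr 1
  refine finsum_congr fun v => ?_
  rw [Top.tl_eq]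
  by_cases hv : b (dp δ v) = 0
  · rw [hv]; ring
  · rw [h v hv]; ring

theorem hv_congrD {δ : ℝ} {b : ℝ × ℝ → ℝ} {ω ω' : Om}
    (h : ∀ v : Pt, b (dp δ v) ≠ 0 → ω' v = ω v) : hv δ b ω' = hv δ b ω := by
  unfold hv
  congr 1
  refine finsum_congr fun v => ?_
  rw [Top.tl_eq]
  by_cases hv : b (dp δ v) = 0
  · rw [hv]; ring
  · rw [h v hv]

/-- Configurations without a connection do not contribute. -/
theorem sum_unc {δ : ℝ} {F : Finset Pt} {b f : ℝ × ℝ → ℝ} (k : ℕ) {O I : Set Pt}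
    (hO : ∀ v : Pt, b (dp δ v) ≠ 0 → v ∈ O) (hI : ∀ v : Pt, f (dp δ v) ≠ 0 → v ∈ I) :
    ∑ h ∈ FreeF F (clo F), hv δ b (vh F h) * hv δ f (vh F h) ^ k *
      (1 - cn (F : Set Pt) O I (bl h)) = 0 := by
  classical
  set A : Set Pt := O ∩ F with hA
  have hAF : A ⊆ (F : Set Pt) := inter_subset_right
  have key : ∀ h ∈ FreeF F (clo F), hv δ b (vh F (flD A h)) * hv δ f (vh F (flD A h)) ^ k *
      (1 - cn (F : Set Pt) O I (bl (flD A h))) =
      -(hv δ b (vh F h) * hv δ f (vh F h) ^ k * (1 - cn (F : Set Pt) O I (bl h))) := by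
    intro h hh
    rw [mem_FreeF] at hh
    rw [bl_flD]
    rcases ind_casesD (fun B => ∃ f ∈ O, ∃ g ∈ I,
      ReflTransGen (fun a b => (a ∈ (F : Set Pt) ∨ b ∈ (F : Set Pt)) ∧ stp B a b) f g) (bl h)
      with h0 | h0
    · have h1 : hv δ b (vh F (flD A h)) = -hv δ b (vh F h) := by
        refine hv_negD fun v hv => ?_
        unfold Top.vh
        by_cases hvF : v ∈ F
        · rw [if_pos hvF, if_pos hvF]
          unfold flD
          rw [comb_in (subset_clu (A := A) (show v ∈ A from ⟨hO v hv, hvF⟩))]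
          push_cast
          ring
        · rw [if_neg hvF, if_neg hvF, neg_zero]
      have h2 : hv δ f (vh F (flD A h)) = hv δ f (vh F h) := by
        refine hv_congrD fun v hv => ?_
        unfold Top.vh
        by_cases hvF : v ∈ F
        · rw [if_pos hvF, if_pos hvF]
          unfold flD
          rw [comb_out]
          rintro ⟨x, hx, hxv⟩
          have h3 : ∃ f ∈ O, ∃ g ∈ I,
              ReflTransGen (fun a b => (a ∈ (F : Set Pt) ∨ b ∈ (F : Set Pt)) ∧ stp (bl h) a b) f g := by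
            refine ⟨x, hx.1, v, hI v hv,
              ReflTransGen.mono (fun a c hac => ⟨?_, stp_iffD.2 hac⟩) _ _ hxv⟩
            by_contra hcon
            rw [not_or] at hcon
            exact hac.2 ⟨hh.2.1 a hcon.1, hh.2.1 c hcon.2⟩
          rw [ind, if_pos h3] at h0
          exact one_ne_zero h0
        · rw [if_neg hvF, if_neg hvF]
      rw [h1, h2]
      ring
    · have h3 : cn (F : Set Pt) O I (bl h) = 1 := h0
      rw [h3]
      ring
  have h1 : ∑ h ∈ FreeF F (clo F), hv δ b (vh F h) * hv δ f (vh F h) ^ k *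
      (1 - cn (F : Set Pt) O I (bl h)) =
      ∑ h ∈ FreeF F (clo F), hv δ b (vh F (flD A h)) * hv δ f (vh F (flD A h)) ^ k *
      (1 - cn (F : Set Pt) O I (bl (flD A h))) := by
    symm
    refine Finset.sum_nbij' (fun h => flD A h) (fun h => flD A h) ?_ ?_ ?_ ?_ ?_
    · intro h hh
      rw [mem_FreeF] at hh ⊢
      exact flD_mem hh hAF
    · intro h hh
      rw [mem_FreeF] at hh ⊢
      exact flD_mem hh hAF
    · intro h _
      exact flD_flD A h
    · intro h _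
      exact flD_flD A h
    · intro h _
      rfl
  rw [Finset.sum_congr rfl key, Finset.sum_neg_distrib] at h1
  linarith

/-- The mixed moment is bounded by the probability of a connection. -/
theorem ze_mixed {δ : ℝ} {F : Finset Pt} {b f : ℝ × ℝ → ℝ} (k : ℕ) {O I : Set Pt}
    (hO : ∀ v : Pt, b (dp δ v) ≠ 0 → v ∈ O) (hI : ∀ v : Pt, f (dp δ v) ≠ 0 → v ∈ I) :
    ze F (fun ω => hv δ b ω * hv δ f ω ^ k) ^ 4 ≤
      ze F (fun ω => hv δ b ω ^ 4) * ze F (fun ω => hv δ f ω ^ (4 * k)) * pcn F O I ^ 2 := by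
  set T := FreeF F (clo F) with hT
  have hcard : (0 : ℝ) < (T.card : ℝ) := by
    have : 0 < T.card := (Top.free_nonempty F (clo F)).card_pos
    exact_mod_cast this
  set X : Hg → ℝ := fun h => hv δ b (vh F h) with hX
  set Y : Hg → ℝ := fun h => hv δ f (vh F h) ^ k with hY
  set C : Hg → ℝ := fun h => cn (F : Set Pt) O I (bl h) with hC
  have hC2 : ∀ h, C h * C h = C h := by
    intro h
    rcases ind_casesD (fun B => ∃ f ∈ O, ∃ g ∈ I,
      ReflTransGen (fun a b => (a ∈ (F : Set Pt) ∨ b ∈ (F : Set Pt)) ∧ stp B a b) f g) (bl h)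
      with h0 | h0
    · have : C h = 0 := h0
      rw [this, mul_zero]
    · have : C h = 1 := h0
      rw [this, mul_one]
  have e0 : ∑ h ∈ T, X h * Y h = ∑ h ∈ T, (X h * Y h) * C h := by
    have h1 := sum_unc (δ := δ) (F := F) (b := b) (f := f) k hO hI
    have h2 : ∑ h ∈ T, X h * Y h = ∑ h ∈ T, ((X h * Y h) * C h + X h * Y h * (1 - C h)) :=
      Finset.sum_congr rfl fun h _ => by ring
    rw [h2, Finset.sum_add_distrib]
    have h3 : ∑ h ∈ T, X h * Y h * (1 - C h) = 0 := h1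
    rw [h3, add_zero]
  have c1 : (∑ h ∈ T, (X h * Y h) * C h) ^ 2 ≤ (∑ h ∈ T, (X h * Y h) ^ 2) * ∑ h ∈ T, C h := by
    have h1 := Finset.sum_mul_sq_le_sq_mul_sq T (fun h => X h * Y h) C
    have h2 : ∑ h ∈ T, C h ^ 2 = ∑ h ∈ T, C h :=
      Finset.sum_congr rfl fun h _ => by rw [sq, hC2]
    rwa [h2] at h1
  have c2 : (∑ h ∈ T, (X h * Y h) ^ 2) ^ 2 ≤ (∑ h ∈ T, X h ^ 4) * ∑ h ∈ T, Y h ^ 4 := by
    have h1 := Finset.sum_mul_sq_le_sq_mul_sq T (fun h => X h ^ 2) (fun h => Y h ^ 2)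
    have h2 : ∑ h ∈ T, X h ^ 2 * Y h ^ 2 = ∑ h ∈ T, (X h * Y h) ^ 2 :=
      Finset.sum_congr rfl fun h _ => by ring
    have h3 : ∑ h ∈ T, (X h ^ 2) ^ 2 = ∑ h ∈ T, X h ^ 4 :=
      Finset.sum_congr rfl fun h _ => by ring
    have h4 : ∑ h ∈ T, (Y h ^ 2) ^ 2 = ∑ h ∈ T, Y h ^ 4 :=
      Finset.sum_congr rfl fun h _ => by ring
    rwa [h2, h3, h4] at h1
  have hC0 : 0 ≤ ∑ h ∈ T, C h := Finset.sum_nonneg fun h _ => ind_nonnegD _ _
  have c3 : (∑ h ∈ T, X h * Y h) ^ 4 ≤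
      (∑ h ∈ T, X h ^ 4) * (∑ h ∈ T, Y h ^ 4) * (∑ h ∈ T, C h) ^ 2 := by
    rw [e0]
    calc (∑ h ∈ T, (X h * Y h) * C h) ^ 4 = ((∑ h ∈ T, (X h * Y h) * C h) ^ 2) ^ 2 := by ring
      _ ≤ ((∑ h ∈ T, (X h * Y h) ^ 2) * ∑ h ∈ T, C h) ^ 2 :=
          pow_le_pow_left₀ (sq_nonneg _) c1 2
      _ = (∑ h ∈ T, (X h * Y h) ^ 2) ^ 2 * (∑ h ∈ T, C h) ^ 2 := by ring
      _ ≤ _ := mul_le_mul_of_nonneg_right c2 (sq_nonneg _)
  have e1 : ∀ h, Y h ^ 4 = hv δ f (vh F h) ^ (4 * k) := by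
    intro h
    simp only [hY]
    rw [← pow_mul, mul_comm k 4]
  have e2 : ze F (fun ω => hv δ b ω * hv δ f ω ^ k) = (∑ h ∈ T, X h * Y h) / (T.card : ℝ) := rfl
  have e3 : ze F (fun ω => hv δ b ω ^ 4) = (∑ h ∈ T, X h ^ 4) / (T.card : ℝ) := rfl
  have e4 : ze F (fun ω => hv δ f ω ^ (4 * k)) = (∑ h ∈ T, Y h ^ 4) / (T.card : ℝ) := by
    rw [Finset.sum_congr rfl fun h _ => e1 h]
    rfl
  have e5 : pcn F O I = (∑ h ∈ T, C h) / (T.card : ℝ) := rfl
  rw [e2, e3, e4, e5, div_pow, div_pow, div_mul_div_comm, div_mul_div_comm]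
  have e6 : (T.card : ℝ) * T.card * (T.card : ℝ) ^ 2 = (T.card : ℝ) ^ 4 := by ring
  rw [e6]
  exact div_le_div_of_nonneg_right c3 (by positivity)

end Vale.Agent.P153.F.X
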