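import Vale.Agent.P153.F.X.DecA

/-!
P153-F, decay at the boundary (mirror of `P145.X.DecB`, `DecGeo`).
-/

namespace Vale.Agent.P153.F.X

open Filter Topology Set MeasureTheory Relation
open Vale.Agent.P153
open Vale.Agent.P153.F.Top (Om Cone EE hv hvl ze dp vh tl Vs ThickC)

/-- Comparison of decreasing functions of the blocked edges with free boundary values with those
in the plane. -/
def S_lowc (P : Measure (Pt → ℤ)) : Prop :=
  ∀ (F : Finset Pt) (X Θ : Set Pt → ℝ), Fn (tE (F : Set Pt))ᶜ Θ → Antitone X → (∀ B, 0 ≤ X B) →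
    LocS (tE (F : Set Pt)) X →
    ev (FreeF F (clo F)) (fun h => X (bl h)) * II P Θ (fun _ => 1) ≤
      II P (fun B => Θ B * X B) (fun _ => 1)

theorem ind_leD {Q Q' : Set Pt → Prop} {B : Set Pt} (h : Q B → Q' B) : ind Q B ≤ ind Q' B := by
  unfold ind
  by_cases h1 : Q B
  · rw [if_pos h1, if_pos (h h1)]
  · rw [if_neg h1]; split_ifs <;> norm_num

theorem ind_neD {Q : Set Pt → Prop} {B : Set Pt} (h : ind Q B ≠ 0) : Q B := by
  by_contra h1
  exact h (if_neg h1)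

theorem locS_iffD {A : Set Pt} {Q : Set Pt → Prop} : LocS A (ind Q) ↔
    ∃ Λ : Finset Pt, (∀ w ∈ Λ, w ∈ A) ∧ ∀ B B' : Set Pt, (∀ w ∈ Λ, w ∈ B ↔ w ∈ B') →
      (Q B ↔ Q B') := by
  constructor
  · rintro ⟨Λ, h1, h2⟩
    refine ⟨Λ, h1, fun B B' hB => ?_⟩
    have h3 := h2 B B' hB
    unfold ind at h3
    by_cases a : Q B <;> by_cases b : Q B' <;> simp_all
  · rintro ⟨Λ, h1, h2⟩
    refine ⟨Λ, h1, fun B B' hB => ?_⟩
    have h3 := h2 B B' hB
    unfold ind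
    by_cases a : Q B
    · rw [if_pos a, if_pos (h3.1 a)]
    · rw [if_neg a, if_neg fun h => a (h3.2 h)]

theorem locS_allD {A : Set Pt} {S : Finset ℕ} {Q : ℕ → Set Pt → Prop}
    (h : ∀ i ∈ S, LocS A (ind (Q i))) : LocS A (ind fun B => ∀ i ∈ S, ¬ Q i B) := by
  classical
  rw [locS_iffD]
  choose! Λ h1 h2 using fun i (hi : i ∈ S) => locS_iffD.1 (h i hi)
  refine ⟨S.biUnion Λ, fun w hw => ?_, fun B B' hB => ?_⟩
  · obtain ⟨i, hi, hw⟩ := Finset.mem_biUnion.1 hw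
    exact h1 i hi w hw
  · refine forall_congr' fun i => forall_congr' fun hi => not_congr ?_
    exact h2 i hi B B' fun w hw => hB w (Finset.mem_biUnion.2 ⟨i, hi, hw⟩)

theorem LocS.monoD {A A' : Set Pt} {g : Set Pt → ℝ} (h : LocS A g) (hA : A ⊆ A') : LocS A' g := by
  obtain ⟨Λ, h1, h2⟩ := h
  exact ⟨Λ, fun w hw => hA (h1 w hw), h2⟩

theorem Fn.monoD {A A' : Set Pt} {g : Set Pt → ℝ} (h : Fn A g) (hA : A ⊆ A') : Fn A' g :=
  ⟨h.nonneg, h.loc.monoD hA, h.pin⟩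

theorem LocS.mulD {A : Set Pt} {g g' : Set Pt → ℝ} (h : LocS A g) (h' : LocS A g') :
    LocS A (fun B => g B * g' B) := by
  classical
  obtain ⟨Λ, h1, h2⟩ := h
  obtain ⟨Λ', h1', h2'⟩ := h'
  refine ⟨Λ ∪ Λ', fun w hw => ?_, fun B B' hB => ?_⟩
  · rcases Finset.mem_union.1 hw with h | h
    · exact h1 w h
    · exact h1' w h
  · show g B * g' B = g B' * g' B'
    rw [h2 B B' fun w hw => hB w (Finset.mem_union_left _ hw),
      h2' B B' fun w hw => hB w (Finset.mem_union_right _ hw)]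

theorem II_monoD {P : Measure (Pt → ℤ)} (hint : S_int P) {g g' : Set Pt → ℝ}
    (h0 : ∀ B, 0 ≤ g B) (hle : ∀ B, g B ≤ g' B) (hl : LocS univ g') (he : g' ∅ = 0) :
    II P g (fun _ => 1) ≤ II P g' (fun _ => 1) := by
  unfold II
  refine integral_mono_of_nonneg (Eventually.of_forall fun x => ?_)
    (hint g' (fun _ => 1) hl he Top.Pol.one) (Eventually.of_forall fun x => ?_)
  · simp only [mul_one]
    exact h0 _
  · simp only [mul_one]
    exact hle _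

/-- The event of a connection is a decreasing local event. -/
theorem cn_antiD (F O I : Set Pt) : Antitone (cn F O I) := by
  intro B B' hB
  unfold cn ind
  by_cases h1 : ∃ f ∈ O, ∃ g ∈ I, ReflTransGen (fun a b => (a ∈ F ∨ b ∈ F) ∧ stp B' a b) f g
  · rw [if_pos h1, if_pos]
    obtain ⟨f, hf, g, hg, h⟩ := h1
    exact ⟨f, hf, g, hg,
      ReflTransGen.mono (fun _ _ h => ⟨h.1, h.2.1, fun h' => h.2.2 (hB h')⟩) _ _ h⟩
  · rw [if_neg h1]
    split_ifs <;> norm_num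

theorem cn_locD (F : Finset Pt) (O I : Set Pt) : LocS (tE (F : Set Pt)) (cn (F : Set Pt) O I) := by
  classical
  unfold cn
  rw [locS_iffD]
  -- the edges which touch `F`
  refine ⟨((F ×ˢ clo F).filter fun z => Adj z.1 z.2).image fun z => z.1 + z.2, fun w hw => ?_,
    fun B B' hB => ?_⟩
  · obtain ⟨z, hz, rfl⟩ := Finset.mem_image.1 hw
    rw [Finset.mem_filter, Finset.mem_product] at hz
    exact ⟨z.1, hz.1.1, z.2, hz.2, rfl⟩
  · have e : (fun a b : Pt => (a ∈ (F : Set Pt) ∨ b ∈ (F : Set Pt)) ∧ stp B a b) =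
        fun a b : Pt => (a ∈ (F : Set Pt) ∨ b ∈ (F : Set Pt)) ∧ stp B' a b := by
      funext a b
      refine propext (and_congr_right fun h => ?_)
      unfold stp
      refine and_congr_right fun hab => not_congr ?_
      refine hB _ (Finset.mem_image.2 ?_)
      rcases h with h | h
      · exact ⟨(a, b), Finset.mem_filter.2 ⟨Finset.mem_product.2 ⟨h, adj_clo F a h b hab⟩, hab⟩, rfl⟩
      · exact ⟨(b, a), Finset.mem_filter.2 ⟨Finset.mem_product.2 ⟨h, adj_clo F b h a hab.symm⟩,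
          hab.symm⟩, add_comm b a⟩
    rw [e]

/-- Edges in a box outside of `D` do not touch the domain. -/
theorem iE_compl {δ : ℝ} (hδ : 0 < δ) {D : Set (ℝ × ℝ)} (hb : Bornology.IsBounded D) {S : Set Pt}
    (hS : ∀ f ∈ S, dp δ f ∉ D) : iE S ⊆ (tE (Vs δ D : Set Pt))ᶜ := by
  rintro w ⟨x, hx, y, hy, hxy, rfl⟩ ⟨x', hx', y', hxy', e⟩
  have h2 : dp δ x' ∈ D := (Top.mem_Vs hδ hb).1 hx' (Metric.mem_closedBall_self (by positivity))
  have h1 : x' ∈ S := by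
    have h3 : x' = x ∨ x' = y := by
      obtain ⟨a, b⟩ := x
      obtain ⟨c, d⟩ := y
      obtain ⟨a', b'⟩ := x'
      obtain ⟨c', d'⟩ := y'
      simp only [Adj, Set.mem_insert_iff, Set.mem_singleton_iff, Prod.mk_add_mk, Prod.mk.injEq] at *
      omega
    rcases h3 with h | h
    · rw [h]; exact hx
    · rw [h]; exact hy
  exact hS x' h1 h2

/-- Distance in the plane and in lattice coordinates. -/
theorem dp_le {e r : ℝ} (he : 0 < e) {a p : Pt} (h1 : |(a.1 : ℝ) - p.1| ≤ r)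
    (h2 : |(a.2 : ℝ) - p.2| ≤ r) :
    |(dp e a).1 - (dp e p).1| ≤ e * (3 / 2 * r) ∧ |(dp e a).2 - (dp e p).2| ≤ e * (3 / 2 * r) := by
  have hr : 0 ≤ r := (abs_nonneg _).trans h1
  have hs : √3 ≤ 2 := by
    rw [Real.sqrt_le_left (by norm_num)]
    norm_num
  have hs0 : 0 ≤ √3 := Real.sqrt_nonneg 3
  simp only [dp]
  constructor
  · have e1 : e * ((a.1 : ℝ) + a.2 / 2) - e * ((p.1 : ℝ) + p.2 / 2) =
        e * (((a.1 : ℝ) - p.1) + ((a.2 : ℝ) - p.2) / 2) := by ring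
    rw [e1, abs_mul, abs_of_pos he]
    refine mul_le_mul_of_nonneg_left ?_ he.le
    have h3 := abs_add_le ((a.1 : ℝ) - p.1) (((a.2 : ℝ) - p.2) / 2)
    rw [abs_div, abs_two] at h3
    linarith
  · have e1 : e * (√3 / 2 * (a.2 : ℝ)) - e * (√3 / 2 * (p.2 : ℝ)) =
        e * (√3 / 2 * ((a.2 : ℝ) - p.2)) := by ring
    rw [e1, abs_mul, abs_of_pos he]
    refine mul_le_mul_of_nonneg_left ?_ he.le
    rw [abs_mul, abs_of_nonneg (by positivity : 0 ≤ √3 / 2)]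
    have h4 : √3 / 2 * |(a.2 : ℝ) - p.2| ≤ 1 * r :=
      mul_le_mul (by linarith) h2 (abs_nonneg _) (by norm_num)
    linarith

/-- Distance in lattice coordinates and in the plane. -/
theorem dp_ge {e r : ℝ} (he : 0 < e) {a p : Pt} (h1 : |(dp e a).1 - (dp e p).1| ≤ e * r)
    (h2 : |(dp e a).2 - (dp e p).2| ≤ e * r) :
    |(a.1 : ℝ) - p.1| ≤ 8 / 5 * r ∧ |(a.2 : ℝ) - p.2| ≤ 6 / 5 * r := by
  have hs : (5 / 3 : ℝ) ≤ √3 := by
    rw [Real.le_sqrt (by norm_num) (by norm_num)]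
    norm_num
  simp only [dp] at h1 h2
  have e1 : e * ((a.1 : ℝ) + a.2 / 2) - e * ((p.1 : ℝ) + p.2 / 2) =
      e * (((a.1 : ℝ) - p.1) + ((a.2 : ℝ) - p.2) / 2) := by ring
  have e2 : e * (√3 / 2 * (a.2 : ℝ)) - e * (√3 / 2 * (p.2 : ℝ)) =
      e * (√3 / 2 * ((a.2 : ℝ) - p.2)) := by ring
  rw [e1, abs_mul, abs_of_pos he] at h1
  rw [e2, abs_mul, abs_of_pos he] at h2
  have h3 := le_of_mul_le_mul_left h1 he
  have h4 := le_of_mul_le_mul_left h2 he
  rw [abs_mul, abs_of_nonneg (by positivity : 0 ≤ √3 / 2)] at h4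
  have hr : 0 ≤ r := (abs_nonneg _).trans h3
  have h5 : |(a.2 : ℝ) - p.2| ≤ 6 / 5 * r := by
    have h6 : 5 / 6 * |(a.2 : ℝ) - p.2| ≤ r := by
      refine le_trans (mul_le_mul_of_nonneg_right ?_ (abs_nonneg _)) h4
      linarith
    linarith
  refine ⟨?_, h5⟩
  have h6 : (a.1 : ℝ) - p.1 = (((a.1 : ℝ) - p.1) + ((a.2 : ℝ) - p.2) / 2) - ((a.2 : ℝ) - p.2) / 2 := by
    ring
  rw [h6]
  have h7 := abs_sub (((a.1 : ℝ) - p.1) + ((a.2 : ℝ) - p.2) / 2) (((a.2 : ℝ) - p.2) / 2)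
  rw [abs_div, abs_two] at h7
  linarith

/-- A lattice point near `q`. -/
theorem exists_near {e : ℝ} (he : 0 < e) (q : ℝ × ℝ) :
    ∃ p : Pt, |(dp e p).1 - q.1| ≤ e ∧ |(dp e p).2 - q.2| ≤ e := by
  have hs : √3 ≤ 2 := by
    rw [Real.sqrt_le_left (by norm_num)]
    norm_num
  have hs0 : 0 < √3 := by positivity
  have c2 : ∀ (m r : ℝ), 0 < m → |m * (⌊r / m⌋ : ℝ) - r| ≤ m := by
    intro m r hm
    have h1 := Int.floor_le (r / m)
    have h2 := Int.lt_floor_add_one (r / m)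
    have e' : m * (r / m) = r := mul_div_cancel₀ _ hm.ne'
    have h3 := mul_le_mul_of_nonneg_left h1 hm.le
    have h4 := mul_le_mul_of_nonneg_left h2.le hm.le
    rw [e'] at h3 h4
    rw [abs_le]
    constructor <;> linarith
  set p2 : ℤ := ⌊q.2 / (e * (√3 / 2))⌋ with hp2
  refine ⟨(⌊(q.1 - e * (p2 / 2)) / e⌋, p2), ?_, ?_⟩
  · simp only [dp]
    have h1 := c2 e (q.1 - e * (p2 / 2)) he
    have e1 : e * ((⌊(q.1 - e * (p2 / 2)) / e⌋ : ℝ) + (p2 : ℝ) / 2) - q.1 =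
        e * (⌊(q.1 - e * (p2 / 2)) / e⌋ : ℝ) - (q.1 - e * (p2 / 2)) := by ring
    rw [e1]
    exact h1
  · simp only [dp]
    have h1 := c2 (e * (√3 / 2)) q.2 (by positivity)
    rw [← hp2] at h1
    have e1 : e * (√3 / 2 * (p2 : ℝ)) = e * (√3 / 2) * (p2 : ℝ) := by ring
    rw [e1]
    refine h1.trans ?_
    have : e * (√3 / 2) ≤ e * 1 := mul_le_mul_of_nonneg_left (by linarith) he.le
    linarith

/-- A box of half side `2 W` outside of `D` near the point `z₀`. -/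
theorem exists_boxD {D : Set (ℝ × ℝ)} {g : ℝ} (hg : 0 < g)
    (hT : ∀ x ∉ D, ∃ y : ℝ × ℝ, x ∈ Metric.closedBall y g ∧ Disjoint (Metric.closedBall y g) D)
    {z₀ : ℝ × ℝ} (hz : z₀ ∉ D) {δ : ℝ} (hδ : 0 < δ) {W : ℤ} (hW : 0 < W)
    (h : 3 * (δ * W) + δ ≤ g) :
    ∃ p : Pt, (∀ f ∈ bx p (2 * W), dp δ f ∉ D) ∧
      |(dp δ p).1 - z₀.1| ≤ 3 * (δ * W) + 2 * δ ∧ |(dp δ p).2 - z₀.2| ≤ 3 * (δ * W) + 2 * δ := by
  obtain ⟨y, hy, hyD⟩ := hT z₀ hz
  have hW' : (0 : ℝ) < W := by exact_mod_cast hW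
  set ρ : ℝ := 3 * (δ * W) + δ with hρ
  have hρ0 : 0 < ρ := by positivity
  set u : ℝ := ρ / g with hu
  have hu0 : 0 ≤ u := by positivity
  have hu1 : u ≤ 1 := (div_le_one hg).2 h
  have hug : u * g = ρ := div_mul_cancel₀ _ hg.ne'
  rw [Metric.mem_closedBall, Prod.dist_eq, max_le_iff, Real.dist_eq, Real.dist_eq] at hy
  obtain ⟨hy1, hy2⟩ := hy
  set q : ℝ × ℝ := (z₀.1 + u * (y.1 - z₀.1), z₀.2 + u * (y.2 - z₀.2)) with hq
  have c1 : ∀ a b : ℝ, |a - b| ≤ g → |a + u * (b - a) - a| ≤ ρ ∧ |a + u * (b - a) - b| ≤ g - ρ := by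
    intro a b hab
    constructor
    · have : a + u * (b - a) - a = -(u * (a - b)) := by ring
      rw [this, abs_neg, abs_mul, abs_of_nonneg hu0, ← hug]
      exact mul_le_mul_of_nonneg_left hab hu0
    · have : a + u * (b - a) - b = (1 - u) * (a - b) := by ring
      rw [this, abs_mul, abs_of_nonneg (by linarith)]
      have := mul_le_mul_of_nonneg_left hab (by linarith : 0 ≤ 1 - u)
      calc (1 - u) * |a - b| ≤ (1 - u) * g := this
        _ = g - ρ := by rw [← hug]; ring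
  obtain ⟨a1, a2⟩ := c1 z₀.1 y.1 hy1
  obtain ⟨b1, b2⟩ := c1 z₀.2 y.2 hy2
  obtain ⟨p, f1, g1⟩ := exists_near hδ q
  have q1 : q.1 = z₀.1 + u * (y.1 - z₀.1) := rfl
  have q2 : q.2 = z₀.2 + u * (y.2 - z₀.2) := rfl
  rw [← q1] at a1 a2
  rw [← q2] at b1 b2
  rw [abs_le] at a1 a2 b1 b2 f1 g1
  refine ⟨p, fun f hf hfD => ?_, ?_, ?_⟩
  · refine Set.disjoint_left.1 hyD ?_ hfD
    obtain ⟨k1, k2⟩ := hf
    have m1 : |(f.1 : ℝ) - p.1| ≤ 2 * W := by exact_mod_cast k1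
    have m2 : |(f.2 : ℝ) - p.2| ≤ 2 * W := by exact_mod_cast k2
    obtain ⟨l1, l2⟩ := dp_le hδ m1 m2
    rw [abs_le] at l1 l2
    rw [Metric.mem_closedBall, Prod.dist_eq, max_le_iff, Real.dist_eq, Real.dist_eq]
    constructor
    · rw [abs_le]
      constructor <;> linarith
    · rw [abs_le]
      constructor <;> linarith
  · rw [abs_le]
    constructor <;> linarith
  · rw [abs_le]
    constructor <;> linarith

end Vale.Agent.P153.F.X
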