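import Vale.Agent.P153.F.X.Cnt

/-!
P153-F, block X (triangular lattice): moments of the heights inside (outside) a circuit of edges at
level `0`.

If `a` is supported inside and `b` outside the annulus and `a + b` has mass `0`, then the even moments
of `h(a)` and of `h(b)` on the event that the annulus contains a circuit at level `0` are at most a
constant times those of `h(a) + h(b)` under the plane measure.
-/

namespace Vale.Agent.P153.F.X

open Finset MeasureTheory Relation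
open Vale.Agent.P153

/-! ### Flips -/

open Classical in
/-- The heights in `U` change sign. -/
noncomputable def flp (U : Set Pt) (h : Hg) : Hg := fun x => if x ∈ U then -h x else h x

/-- All edges between `U` and its complement are blocked. -/
def EU (U : Set Pt) : Set Hg := {h | ∀ x ∈ U, ∀ y, y ∉ U → Adj x y → |h x| = 1 ∧ |h y| = 1}

theorem flp_in {U : Set Pt} {h : Hg} {x : Pt} (hx : x ∈ U) : flp U h x = -h x := by
  unfold flp; rw [if_pos hx]

theorem flp_out {U : Set Pt} {h : Hg} {x : Pt} (hx : x ∉ U) : flp U h x = h x := by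
  unfold flp; rw [if_neg hx]

theorem abs_flp (U : Set Pt) (h : Hg) (x : Pt) : |flp U h x| = |h x| := by
  by_cases hx : x ∈ U
  · rw [flp_in hx, abs_neg]
  · rw [flp_out hx]

theorem flp_flp (U : Set Pt) (h : Hg) : flp U (flp U h) = h := by
  funext x
  by_cases hx : x ∈ U
  · rw [flp_in hx, flp_in hx, neg_neg]
  · rw [flp_out hx, flp_out hx]

theorem flp_EU {U : Set Pt} {h : Hg} : flp U h ∈ EU U ↔ h ∈ EU U := by
  unfold EU
  simp only [Set.mem_ofPred_eq, abs_flp]

theorem bl_flp (U : Set Pt) (h : Hg) : bl (flp U h) = bl h := by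
  unfold bl
  simp only [abs_flp]

theorem flp_lip {U : Set Pt} {h : Hg} (hE : h ∈ EU U) (hL : Lip h) : Lip (flp U h) := by
  refine ⟨fun x => ?_, fun x y hxy => ?_⟩
  · by_cases hx : x ∈ U
    · rw [flp_in hx]; exact (hL.1 x).neg
    · rw [flp_out hx]; exact hL.1 x
  · have key : ∀ x y, Adj x y → x ∈ U → y ∉ U → |-h x - h y| ≤ 2 := by
      intro x y hxy hx hy
      obtain ⟨h1, h2⟩ := hE x hx y hy hxy
      rw [abs_le]
      have h3 := abs_le.1 h1.le
      have h4 := abs_le.1 h2.le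
      omega
    by_cases hx : x ∈ U <;> by_cases hy : y ∈ U
    · rw [flp_in hx, flp_in hy]
      have := hL.2 x y hxy
      rw [abs_le] at this ⊢
      omega
    · rw [flp_in hx, flp_out hy]; exact key x y hxy hx hy
    · rw [flp_out hx, flp_in hy, abs_sub_comm]; exact key y x (Topo.adj_symm hxy) hy hx
    · rw [flp_out hx, flp_out hy]; exact hL.2 x y hxy

/-- The neighbours of a vertex. -/
def nbT (x : Pt) : Finset Pt := {(x.1 + 1, x.2), (x.1 - 1, x.2), (x.1, x.2 + 1), (x.1, x.2 - 1),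
  (x.1 + 1, x.2 - 1), (x.1 - 1, x.2 + 1)}

theorem mem_nbT {x y : Pt} (h : Adj x y) : y ∈ nbT x := by
  rw [Topo.adj_iff] at h
  unfold nbT
  simp only [Finset.mem_insert, Finset.mem_singleton, Prod.ext_iff]
  omega

theorem cyl_flp {mu : Measure Hg} (hmu : Gb mu) {U B : Finset Pt} (hUB : U ⊆ B)
    (hN : ∀ x ∈ U, ∀ y, Adj x y → y ∈ B) {ξ : Hg} (hξ : ξ ∈ EU (U : Set Pt)) :
    mu (Cyl B (flp (U : Set Pt) ξ)) = mu (Cyl B ξ) := by
  have hE : ∀ {η η' : Hg}, η ∈ EU (U : Set Pt) → (∀ x ∈ B, η x = η' x) → η' ∈ EU (U : Set Pt) := by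
    intro η η' h1 h2 x hx y hy hxy
    rw [← h2 x (hUB hx), ← h2 y (hN x hx y hxy)]
    exact h1 x hx y hy hxy
  have hF : ∀ {η η' : Hg}, (∀ x ∈ B, η x = η' x) →
      ∀ x ∈ B, flp (U : Set Pt) η x = flp (U : Set Pt) η' x := by
    intro η η' h x hx
    by_cases hxU : x ∈ (U : Set Pt)
    · rw [flp_in hxU, flp_in hxU, h x hx]
    · rw [flp_out hxU, flp_out hxU, h x hx]
  have hC : ∀ {η η' : Hg}, (∀ x ∈ B, η x = η' x) → Cyl B η = Cyl B η' := by
    intro η η' h
    ext g
    refine forall_congr' fun x => forall_congr' fun hx => ?_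
    rw [h x hx]
  by_cases hex : ∃ η : Hg, Lip η ∧ ∀ x ∈ B, ξ x = η x
  · obtain ⟨η, h1, h2⟩ := hex
    have h3 := hE hξ h2
    rw [hC (hF h2), hC h2]
    exact hmu.eq U B _ _ hUB hN (flp_lip h3 h1) h1 fun x hx => flp_out (by simpa using hx)
  · have hz : ∀ {η : Hg}, η ∈ EU (U : Set Pt) → (¬ ∃ η' : Hg, Lip η' ∧ ∀ x ∈ B, η x = η' x) →
        mu (Cyl B η) = 0 := by
      intro η _ h
      refine measure_mono_null ?_ (ae_iff.1 hmu.lip)
      intro g hg hl
      exact h ⟨g, hl, fun x hx => (hg x hx).symm⟩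
    rw [hz hξ hex, hz (flp_EU.2 hξ)]
    rintro ⟨η, h1, h2⟩
    have h3 : η ∈ EU (U : Set Pt) := hE (flp_EU.2 hξ) h2
    refine hex ⟨flp (U : Set Pt) η, flp_lip h3 h1, fun x hx => ?_⟩
    rw [← hF h2 x hx, flp_flp]

/-- Integrals of local functions over the event that the boundary of `U` is blocked. -/
theorem flip_lintegral {mu : Measure Hg} (hmu : Gb mu) (U : Finset Pt) {f : Hg → ENNReal}
    {B₀ : Finset Pt} (hf : ∀ h h' : Hg, (∀ x ∈ B₀, h x = h' x) → f h = f h') :
    ∫⁻ h, (EU (U : Set Pt)).indicator (fun h => f (flp (U : Set Pt) h)) h ∂mu =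
      ∫⁻ h, (EU (U : Set Pt)).indicator f h ∂mu := by
  classical
  set B : Finset Pt := B₀ ∪ U ∪ U.biUnion nbT with hB
  have hB0 : ∀ x ∈ B₀, x ∈ B := fun x hx => by simp [hB, hx]
  have hUB : U ⊆ B := fun x hx => by simp [hB, hx]
  have hN : ∀ x ∈ U, ∀ y, Adj x y → y ∈ B := fun x hx y hxy =>
    Finset.mem_union_right _ (Finset.mem_biUnion.2 ⟨x, hx, mem_nbT hxy⟩)
  set π : Hg → (↥B → ℤ) := fun h x => h x with hπ
  have hmeas : Measurable π := measurable_pi_iff.2 fun x => measurable_pi_apply _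
  set ex : (↥B → ℤ) → Hg := fun ζ x => if hx : x ∈ B then ζ ⟨x, hx⟩ else 1 with hex
  have hex1 : ∀ ζ, ∀ x (hx : x ∈ B), ex ζ x = ζ ⟨x, hx⟩ := by
    intro ζ x hx
    simp only [hex]
    rw [dif_pos hx]
  have hexπ : ∀ h : Hg, ∀ x ∈ B, ex (π h) x = h x := fun h x hx => hex1 _ x hx
  have hπex : ∀ ζ, π (ex ζ) = ζ := fun ζ => funext fun x => hex1 ζ x x.2
  have hEloc : ∀ {η η' : Hg}, (∀ x ∈ B, η x = η' x) → (η ∈ EU (U : Set Pt) ↔
      η' ∈ EU (U : Set Pt)) := by
    have key : ∀ {η η' : Hg}, (∀ x ∈ B, η x = η' x) → η ∈ EU (U : Set Pt) →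
        η' ∈ EU (U : Set Pt) := by
      intro η η' h2 h1 x hx y hy hxy
      rw [← h2 x (hUB hx), ← h2 y (hN x hx y hxy)]
      exact h1 x hx y hy hxy
    intro η η' h
    exact ⟨key h, key fun x hx => (h x hx).symm⟩
  have hFloc : ∀ {η η' : Hg}, (∀ x ∈ B, η x = η' x) →
      ∀ x ∈ B, flp (U : Set Pt) η x = flp (U : Set Pt) η' x := by
    intro η η' h x hx
    by_cases hxU : x ∈ (U : Set Pt)
    · rw [flp_in hxU, flp_in hxU, h x hx]
    · rw [flp_out hxU, flp_out hxU, h x hx]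
  -- integrals of functions of the pattern on `B`
  have hint : ∀ g : Hg → ENNReal, (∀ h h' : Hg, (∀ x ∈ B, h x = h' x) → g h = g h') →
      ∫⁻ h, g h ∂mu = ∑' ζ : ↥B → ℤ, g (ex ζ) * mu (Cyl B (ex ζ)) := by
    intro g hg
    have h1 : ∫⁻ h, g h ∂mu = ∫⁻ ζ, g (ex ζ) ∂(mu.map π) := by
      rw [lintegral_map (measurable_of_countable _) hmeas]
      exact lintegral_congr fun h => hg _ _ fun x hx => (hexπ h x hx).symm
    rw [h1, lintegral_countable']
    refine tsum_congr fun ζ => ?_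
    rw [Measure.map_apply hmeas (measurableSet_singleton ζ)]
    congr 2
    ext h
    simp only [Set.mem_preimage, Set.mem_singleton_iff, Cyl, Set.mem_ofPred_eq]
    constructor
    · rintro rfl x hx
      exact (hexπ h x hx).symm
    · intro h2
      funext x
      show h x = ζ x
      rw [h2 x x.2, hex1 ζ x x.2]
  -- the flip of patterns
  set τ : (↥B → ℤ) → (↥B → ℤ) := fun ζ => π (flp (U : Set Pt) (ex ζ)) with hτ
  have hexτ : ∀ ζ, ∀ x ∈ B, ex (τ ζ) x = flp (U : Set Pt) (ex ζ) x := fun ζ x hx =>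
    hexπ _ x hx
  have hττ : Function.Involutive τ := by
    intro ζ
    funext x
    show flp (U : Set Pt) (ex (τ ζ)) x = ζ x
    rw [hFloc (hexτ ζ) x x.2, flp_flp, hex1 ζ x x.2]
  rw [hint _ fun h h' hh => ?_, hint _ fun h h' hh => ?_, ← hττ.toPerm.tsum_eq]
  · refine tsum_congr fun ζ => ?_
    show (EU (U : Set Pt)).indicator (fun h => f (flp (U : Set Pt) h)) (ex (τ ζ)) *
      mu (Cyl B (ex (τ ζ))) = _
    have hC : Cyl B (ex (τ ζ)) = Cyl B (flp (U : Set Pt) (ex ζ)) := by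
      ext g
      refine forall_congr' fun x => forall_congr' fun hx => ?_
      rw [hexτ ζ x hx]
    by_cases hE : ex ζ ∈ EU (U : Set Pt)
    · have hE' : ex (τ ζ) ∈ EU (U : Set Pt) := (hEloc (hexτ ζ)).2 (flp_EU.2 hE)
      rw [Set.indicator_of_mem hE, Set.indicator_of_mem hE', hC, cyl_flp hmu hUB hN hE]
      congr 1
      refine hf _ _ fun x hx => ?_
      rw [hFloc (hexτ ζ) x (hB0 x hx), flp_flp]
    · have hE' : ex (τ ζ) ∉ EU (U : Set Pt) := fun h => hE (flp_EU.1 ((hEloc (hexτ ζ)).1 h))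
      rw [Set.indicator_of_notMem hE, Set.indicator_of_notMem hE', zero_mul, zero_mul]
  · by_cases hE : h ∈ EU (U : Set Pt)
    · rw [Set.indicator_of_mem hE, Set.indicator_of_mem ((hEloc hh).1 hE)]
      exact hf _ _ fun x hx => hh x (hB0 x hx)
    · rw [Set.indicator_of_notMem hE, Set.indicator_of_notMem fun h1 => hE ((hEloc hh).2 h1)]
  · by_cases hE : h ∈ EU (U : Set Pt)
    · rw [Set.indicator_of_mem hE, Set.indicator_of_mem ((hEloc hh).1 hE)]
      exact hf _ _ fun x hx => hFloc hh x (hB0 x hx)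
    · rw [Set.indicator_of_notMem hE, Set.indicator_of_notMem fun h1 => hE ((hEloc hh).2 h1)]

/-! ### Pieces -/

/-- The blocked edges in the window `F` are those of `T`. -/
def piece (F T : Finset Pt) : Set Hg := {h | ∀ w ∈ F, w ∈ bl h ↔ w ∈ T}

theorem meas_piece (F T : Finset Pt) : MeasurableSet (piece F T) :=
  meas_bl (Q := fun A => ∀ w ∈ F, w ∈ A ↔ w ∈ T) (Λ := F)
    fun _ _ h hA w hw => (h w hw).symm.trans (hA w hw)

/-- The midpoint determines the edge. -/
theorem mid_inj {x y x' y' : Pt} (h : Adj x y) (h' : Adj x' y') (e : x + y = x' + y') :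
    (x = x' ∧ y = y') ∨ (x = y' ∧ y = x') := by
  rw [Topo.adj_iff] at h h'
  rw [Prod.ext_iff, Prod.fst_add, Prod.snd_add, Prod.fst_add, Prod.snd_add] at e
  simp only [Prod.ext_iff]
  omega

/-- The vertices enclosed by a circuit. -/
theorem exists_region {p : Pt} {s : ℤ} (hs : 1 ≤ s) {F T : Finset Pt} (hT : T ⊆ F)
    (hZ : Zr p s (T : Set Pt)) : ∃ U : Finset Pt, (∀ x ∈ bx p s, x ∈ U) ∧
      (∀ x ∈ U, |x.1 - p.1| < 2 * s ∧ |x.2 - p.2| < 2 * s) ∧ piece F T ⊆ EU (U : Set Pt) := by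
  classical
  set V : Set Pt := {y | ∃ x ∈ bx p s, ReflTransGen (RSW.VStep (T : Set Pt)) x y} with hV
  have hb : ∀ x ∈ V, |x.1 - p.1| < 2 * s ∧ |x.2 - p.2| < 2 * s := by
    rintro y ⟨x, hx, h⟩
    exact RSW.vconf_of_ann (by omega) hZ hx h
  have hfin : V.Finite := by
    refine Set.Finite.subset (Finset.finite_toSet
      (Finset.Icc (p.1 - 2 * s) (p.1 + 2 * s) ×ˢ Finset.Icc (p.2 - 2 * s) (p.2 + 2 * s))) ?_
    intro y hy
    have := hb y hy
    rw [abs_lt, abs_lt] at this
    rw [Finset.mem_coe, Finset.mem_product, Finset.mem_Icc, Finset.mem_Icc]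
    omega
  refine ⟨hfin.toFinset, fun x hx => hfin.mem_toFinset.2 ⟨x, hx, ReflTransGen.refl⟩,
    fun x hx => hb x (hfin.mem_toFinset.1 hx), ?_⟩
  intro h hh x hx y hy hxy
  have hx' : x ∈ V := by simpa using hx
  have hy' : y ∉ V := by simpa using hy
  have hT' : x + y ∈ T := by
    by_contra hc
    obtain ⟨z, hz, hzx⟩ := hx'
    exact hy' ⟨z, hz, hzx.tail ⟨hxy, by simpa using hc⟩⟩
  obtain ⟨x', y', h1, h2, h3, h4⟩ := (hh _ (hT hT')).2 hT'
  rcases mid_inj hxy h1 h2 with ⟨rfl, rfl⟩ | ⟨rfl, rfl⟩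
  · exact ⟨h3, h4⟩
  · exact ⟨h4, h3⟩

theorem evT_in {U : Set Pt} {a : Pt →₀ ℝ} (ha : ∀ v ∈ a.support, v ∈ U) (h : Hg) :
    evT a (flp U h) = -evT a h := by
  unfold evT Finsupp.sum
  rw [← Finset.sum_neg_distrib]
  refine Finset.sum_congr rfl fun v hv => ?_
  dsimp only
  rw [flp_in (ha v hv)]
  push_cast
  ring

theorem evT_out {U : Set Pt} {a : Pt →₀ ℝ} (ha : ∀ v ∈ a.support, v ∉ U) (h : Hg) :
    evT a (flp U h) = evT a h := by
  unfold evT Finsupp.sum
  refine Finset.sum_congr rfl fun v hv => ?_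
  dsimp only
  rw [flp_out (ha v hv)]

theorem evT_congr {a : Pt →₀ ℝ} {h h' : Hg} (e : ∀ v ∈ a.support, h v = h' v) :
    evT a h = evT a h' := by
  unfold evT Finsupp.sum
  exact Finset.sum_congr rfl fun v hv => by dsimp only; rw [e v hv]

theorem pow_half (x y : ℝ) (n : ℕ) :
    2 * ENNReal.ofReal (x ^ (2 * n)) ≤
      ENNReal.ofReal ((x + y) ^ (2 * n)) + ENNReal.ofReal ((-x + y) ^ (2 * n)) := by
  have h1 : (-x + y) ^ (2 * n) = (x - y) ^ (2 * n) := by
    rw [pow_mul, pow_mul]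
    congr 1
    ring
  have hconv : ConvexOn ℝ Set.univ (fun z : ℝ => z ^ (2 * n)) := Even.convexOn_pow (even_two_mul n)
  have h2 := hconv.2 (Set.mem_univ (x + y)) (Set.mem_univ (x - y))
    (by norm_num : (0 : ℝ) ≤ 1 / 2) (by norm_num : (0 : ℝ) ≤ 1 / 2) (by norm_num)
  simp only [smul_eq_mul] at h2
  have h3 : 1 / 2 * (x + y) + 1 / 2 * (x - y) = x := by ring
  rw [h3] at h2
  rw [h1, ← ENNReal.ofReal_ofNat, ← ENNReal.ofReal_mul (by norm_num), ← ENNReal.ofReal_add
    (Even.pow_nonneg (even_two_mul n) _) (Even.pow_nonneg (even_two_mul n) _)]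
  exact ENNReal.ofReal_le_ofReal (by linarith)

/-- One piece. -/
theorem mom_piece {mu : Measure Hg} (hmu : Gb mu) {p : Pt} {s : ℤ} (hs : 1 ≤ s) {F T : Finset Pt}
    (hT : T ⊆ F) (hZ : Zr p s (T : Set Pt)) {a b : Pt →₀ ℝ} (ha : ∀ v ∈ a.support, v ∈ bx p s)
    (hb : ∀ v ∈ b.support, v ∉ bx p (2 * s)) (n : ℕ) :
    ∫⁻ h in piece F T, ENNReal.ofReal (evT a h ^ (2 * n)) ∂mu ≤
      ∫⁻ h in piece F T, ENNReal.ofReal ((evT a h + evT b h) ^ (2 * n)) ∂mu ∧
    ∫⁻ h in piece F T, ENNReal.ofReal (evT b h ^ (2 * n)) ∂mu ≤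
      ∫⁻ h in piece F T, ENNReal.ofReal ((evT a h + evT b h) ^ (2 * n)) ∂mu := by
  classical
  obtain ⟨U, h1, h2, h3⟩ := exists_region hs hT hZ
  have ha' : ∀ v ∈ a.support, v ∈ (U : Set Pt) := fun v hv => by simpa using h1 v (ha v hv)
  have hb' : ∀ v ∈ b.support, v ∉ (U : Set Pt) := fun v hv hvU => by
    refine hb v hv ?_
    obtain ⟨h4, h5⟩ := h2 v (by simpa using hvU)
    exact ⟨h4.le, h5.le⟩
  have ma : Measurable (evT a) := measurable_evT a
  have mb : Measurable (evT b) := measurable_evT b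
  -- the flip of a function of the two functionals
  have hflip : ∫⁻ h in piece F T, ENNReal.ofReal ((-evT a h + evT b h) ^ (2 * n)) ∂mu =
      ∫⁻ h in piece F T, ENNReal.ofReal ((evT a h + evT b h) ^ (2 * n)) ∂mu := by
    set f : Hg → ENNReal := (piece F T).indicator fun h =>
      ENNReal.ofReal ((evT a h + evT b h) ^ (2 * n)) with hf
    have hloc : ∀ h h' : Hg, (∀ x ∈ a.support ∪ b.support ∪ F.biUnion (fun w =>
        ({(w.1 / 2, (w.2 + 1) / 2), ((w.1 + 1) / 2, w.2 / 2)} : Finset Pt)), h x = h' x) →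
        f h = f h' := by
      intro h h' hh
      have e1 : evT a h = evT a h' := evT_congr fun v hv => hh v (by simp [Finset.mem_union,
        Finsupp.mem_support_iff.1 hv])
      have e2 : evT b h = evT b h' := evT_congr fun v hv => hh v (by simp [Finset.mem_union,
        Finsupp.mem_support_iff.1 hv])
      have e3 : ∀ w ∈ F, w ∈ bl h ↔ w ∈ bl h' := by
        intro w hw
        have key : ∀ {g g' : Hg}, (g (w.1 / 2, (w.2 + 1) / 2) = g' (w.1 / 2, (w.2 + 1) / 2)) →
            (g ((w.1 + 1) / 2, w.2 / 2) = g' ((w.1 + 1) / 2, w.2 / 2)) → w ∈ bl g → w ∈ bl g' := by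
          rintro g g' e4 e5 ⟨x, y, hxy, rfl, h4, h5⟩
          have hc : Adj (((x + y).1 / 2, ((x + y).2 + 1) / 2) : Pt)
              (((x + y).1 + 1) / 2, (x + y).2 / 2) := by
            rw [Topo.adj_iff] at hxy ⊢
            simp only [Prod.fst_add, Prod.snd_add]
            omega
          have hs' : (((x + y).1 / 2, ((x + y).2 + 1) / 2) : Pt) +
              (((x + y).1 + 1) / 2, (x + y).2 / 2) = x + y := by
            refine Prod.ext ?_ ?_
            · simp only [Prod.fst_add]; omega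
            · simp only [Prod.snd_add]; omega
          refine ⟨_, _, hc, hs'.symm, ?_, ?_⟩
          · rw [← e4]
            rcases mid_inj hc hxy hs' with ⟨q1, _⟩ | ⟨q1, _⟩
            · rw [q1]; exact h4
            · rw [q1]; exact h5
          · rw [← e5]
            rcases mid_inj hc hxy hs' with ⟨_, q1⟩ | ⟨_, q1⟩
            · rw [q1]; exact h5
            · rw [q1]; exact h4
        have m1 : (w.1 / 2, (w.2 + 1) / 2) ∈ a.support ∪ b.support ∪ F.biUnion (fun w =>
            ({(w.1 / 2, (w.2 + 1) / 2), ((w.1 + 1) / 2, w.2 / 2)} : Finset Pt)) :=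
          Finset.mem_union_right _ (Finset.mem_biUnion.2 ⟨w, hw, Finset.mem_insert_self _ _⟩)
        have m2 : ((w.1 + 1) / 2, w.2 / 2) ∈ a.support ∪ b.support ∪ F.biUnion (fun w =>
            ({(w.1 / 2, (w.2 + 1) / 2), ((w.1 + 1) / 2, w.2 / 2)} : Finset Pt)) :=
          Finset.mem_union_right _ (Finset.mem_biUnion.2 ⟨w, hw,
            Finset.mem_insert_of_mem (Finset.mem_singleton_self _)⟩)
        exact ⟨key (hh _ m1) (hh _ m2), key (hh _ m1).symm (hh _ m2).symm⟩
      have e4 : h ∈ piece F T ↔ h' ∈ piece F T :=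
        forall_congr' fun w => forall_congr' fun hw => by rw [e3 w hw]
      rw [hf]
      by_cases hm : h ∈ piece F T
      · rw [Set.indicator_of_mem hm, Set.indicator_of_mem (e4.1 hm), e1, e2]
      · rw [Set.indicator_of_notMem hm, Set.indicator_of_notMem fun h5 => hm (e4.2 h5)]
    have hfl := flip_lintegral hmu U hloc
    have e1 : (EU (U : Set Pt)).indicator f = f := by
      funext h
      by_cases hm : h ∈ EU (U : Set Pt)
      · rw [Set.indicator_of_mem hm]
      · rw [Set.indicator_of_notMem hm, hf, Set.indicator_of_notMem fun h5 => hm (h3 h5)]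
    have e2 : (EU (U : Set Pt)).indicator (fun h => f (flp (U : Set Pt) h)) =
        (piece F T).indicator fun h => ENNReal.ofReal ((-evT a h + evT b h) ^ (2 * n)) := by
      funext h
      have e3 : flp (U : Set Pt) h ∈ piece F T ↔ h ∈ piece F T := by
        unfold piece
        rw [Set.mem_ofPred_eq, Set.mem_ofPred_eq, bl_flp]
      by_cases hm : h ∈ piece F T
      · rw [Set.indicator_of_mem (h3 hm), Set.indicator_of_mem hm, hf,
          Set.indicator_of_mem (e3.2 hm), evT_in ha', evT_out hb']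
      · rw [Set.indicator_of_notMem hm]
        by_cases hm' : h ∈ EU (U : Set Pt)
        · rw [Set.indicator_of_mem hm', hf, Set.indicator_of_notMem fun h5 => hm (e3.1 h5)]
        · rw [Set.indicator_of_notMem hm']
    rw [e1, e2, hf, lintegral_indicator (meas_piece F T), lintegral_indicator (meas_piece F T)]
      at hfl
    exact hfl
  have two : ∀ {A B : ENNReal}, 2 * A ≤ B + B → A ≤ B := by
    intro A B h
    rw [← two_mul] at h
    exact (ENNReal.mul_le_mul_iff_right (by norm_num) (by norm_num)).1 h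
  have mm : ∀ {g : Hg → ℝ}, Measurable g → Measurable fun h => ENNReal.ofReal (g h ^ (2 * n)) :=
    fun hg => (hg.pow_const _).ennreal_ofReal
  constructor
  · refine two ?_
    calc 2 * ∫⁻ h in piece F T, ENNReal.ofReal (evT a h ^ (2 * n)) ∂mu
        = ∫⁻ h in piece F T, 2 * ENNReal.ofReal (evT a h ^ (2 * n)) ∂mu :=
          (lintegral_const_mul _ (mm ma)).symm
      _ ≤ ∫⁻ h in piece F T, (ENNReal.ofReal ((evT a h + evT b h) ^ (2 * n)) +
            ENNReal.ofReal ((-evT a h + evT b h) ^ (2 * n))) ∂mu :=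
          lintegral_mono fun h => pow_half _ _ _
      _ = _ := by
          rw [lintegral_add_left (f := fun h => ENNReal.ofReal ((evT a h + evT b h) ^ (2 * n)))
            (mm (g := fun h => evT a h + evT b h) (ma.add mb)), hflip]
  · refine two ?_
    calc 2 * ∫⁻ h in piece F T, ENNReal.ofReal (evT b h ^ (2 * n)) ∂mu
        = ∫⁻ h in piece F T, 2 * ENNReal.ofReal (evT b h ^ (2 * n)) ∂mu :=
          (lintegral_const_mul _ (mm mb)).symm
      _ ≤ ∫⁻ h in piece F T, (ENNReal.ofReal ((evT a h + evT b h) ^ (2 * n)) +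
            ENNReal.ofReal ((-evT a h + evT b h) ^ (2 * n))) ∂mu := by
          refine lintegral_mono fun h => (pow_half _ (evT a h) _).trans (le_of_eq ?_)
          have q1 : evT b h + evT a h = evT a h + evT b h := add_comm _ _
          have q2 : (-evT b h + evT a h) ^ (2 * n) = (-evT a h + evT b h) ^ (2 * n) := by
            rw [pow_mul, pow_mul]
            congr 1
            ring
          rw [q1, q2]
      _ = _ := by
          rw [lintegral_add_left (f := fun h => ENNReal.ofReal ((evT a h + evT b h) ^ (2 * n)))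
            (mm (g := fun h => evT a h + evT b h) (ma.add mb)), hflip]

/-! ### Levels -/

/-- Two circuits in the same annulus have a common edge. -/
theorem ann_meet {p q t : ℤ} {S S' : Set Pt} (h : RSW.Ann p q t S)
    (h' : RSW.Ann p q t S') (ht : 0 < t) : (S ∩ S').Nonempty := by
  obtain ⟨⟨x, x', hx, hxa, hxb⟩, -, -, -⟩ := h
  obtain ⟨-, -, ⟨y, y', hy, hyc, hyd⟩, -⟩ := h'
  obtain ⟨z, hz1, hz2⟩ := RSW.meetHV (by omega) (by omega) (by omega) (by omega) hx hxa hxb hy hyc
    hyd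
  exact ⟨z, hz1.right_mem.1, hz2.right_mem.1⟩

theorem lev_close {p : Pt} {s : ℤ} (hs : 1 ≤ s) {φ : Pt → ℤ} {k k' : ℤ} (h : odd k φ ∈ ZE p s)
    (h' : odd k' φ ∈ ZE p s) : |k - k'| ≤ 1 := by
  obtain ⟨w, ⟨⟨x, y, hxy, hw, h1, h2⟩, _⟩, ⟨⟨x', y', hxy', hw', h3, h4⟩, _⟩⟩ :=
    ann_meet h h' (by omega)
  have h5 : |odd k φ x| = 1 ∧ |odd k' φ x| = 1 := by
    refine ⟨h1, ?_⟩
    rcases mid_inj hxy hxy' (hw.symm.trans hw') with ⟨rfl, rfl⟩ | ⟨rfl, rfl⟩
    · exact h3
    · exact h4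
  unfold odd at h5
  have h6 := abs_le.1 h5.1.le
  have h7 := abs_le.1 h5.2.le
  rw [abs_le]
  omega

/-- At most three levels. -/
theorem tsum_lev {p : Pt} {s : ℤ} (hs : 1 ≤ s) (φ : Pt → ℤ) :
    ∑' k : ℤ, (ZE p s).indicator (fun _ => (1 : ENNReal)) (odd k φ) ≤ 3 := by
  by_cases h : ∃ k : ℤ, odd k φ ∈ ZE p s
  · obtain ⟨k₀, h0⟩ := h
    have h1 : ∀ k ∉ Finset.Icc (k₀ - 1) (k₀ + 1),
        (ZE p s).indicator (fun _ => (1 : ENNReal)) (odd k φ) = 0 := by
      intro k hk
      refine Set.indicator_of_notMem (fun h2 => hk ?_) _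
      have := abs_le.1 (lev_close hs h2 h0)
      rw [Finset.mem_Icc]
      omega
    rw [tsum_eq_sum h1]
    calc ∑ k ∈ Finset.Icc (k₀ - 1) (k₀ + 1),
          (ZE p s).indicator (fun _ => (1 : ENNReal)) (odd k φ)
        ≤ ∑ _k ∈ Finset.Icc (k₀ - 1) (k₀ + 1), (1 : ENNReal) :=
          Finset.sum_le_sum fun k _ => Set.indicator_le_self' (fun _ _ => zero_le_one) _
      _ = 3 := by
        rw [Finset.sum_const, Int.card_Icc, nsmul_eq_mul, mul_one]
        have : (k₀ + 1 + 1 - (k₀ - 1)).toNat = 3 := by omega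
        rw [this]
        norm_num
  · push Not at h
    rw [tsum_congr fun k => Set.indicator_of_notMem (h k) _, tsum_zero]
    exact zero_le

theorem massT_add (a b : Pt →₀ ℝ) : massT (a + b) = massT a + massT b := by
  unfold massT
  rw [Finsupp.sum_add_index' (fun _ => by simp) (fun _ _ _ => by ring)]

theorem evT_add (a b : Pt →₀ ℝ) (h : Hg) : evT (a + b) h = evT a h + evT b h := by
  unfold evT
  rw [Finsupp.sum_add_index' (fun _ => by simp) (fun _ _ _ => by ring)]

theorem evT_neutral {w : Pt →₀ ℝ} (hw : massT w = 0) (k : ℤ) (φ : Pt → ℤ) :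
    evT w (odd k φ) = 2 * evT w φ := by
  have h1 : evT w (odd k φ) = 2 * evT w φ + (2 * k - 1) * massT w := by
    unfold evT massT
    rw [Finsupp.sum, Finsupp.sum, Finsupp.sum, Finset.mul_sum, Finset.mul_sum,
      ← Finset.sum_add_distrib]
    refine Finset.sum_congr rfl fun q _ => ?_
    unfold odd
    push_cast
    ring
  rw [h1, hw, mul_zero, add_zero]

/-- The neutral case: a functional of the gradients on the event of a circuit at level `0`. -/
theorem annT_le {P : Measure (Pt → ℤ)} {p : Pt} {s : ℤ} (hs : 1 ≤ s) {w : Pt →₀ ℝ}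
    (hw : massT w = 0) (n : ℕ) :
    ∫⁻ x in ZE p s, ENNReal.ofReal (evT w x ^ (2 * n)) ∂(muT P) ≤
      3 * ∫⁻ φ, ENNReal.ofReal ((2 * evT w φ) ^ (2 * n)) ∂P := by
  have mz := meas_ZE p hs
  have mf : Measurable fun x : Hg => ENNReal.ofReal (evT w x ^ (2 * n)) :=
    ((measurable_evT w).pow_const _).ennreal_ofReal
  rw [← lintegral_indicator mz, lintegral_muT (mf.indicator mz),
    ← lintegral_const_mul _ ((((measurable_evT w).const_mul 2).pow_const
      (2 * n)).ennreal_ofReal)]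
  refine lintegral_mono fun φ => ?_
  have e : ∀ k : ℤ, (ZE p s).indicator
      (fun x => ENNReal.ofReal (evT w x ^ (2 * n))) (odd k φ) =
      (ZE p s).indicator (fun _ => (1 : ENNReal)) (odd k φ) *
        ENNReal.ofReal ((2 * evT w φ) ^ (2 * n)) := by
    intro k
    by_cases h : odd k φ ∈ ZE p s
    · rw [Set.indicator_of_mem h, Set.indicator_of_mem h, one_mul, evT_neutral hw]
    · rw [Set.indicator_of_notMem h, Set.indicator_of_notMem h, zero_mul]
  simp only [e]
  rw [ENNReal.tsum_mul_right]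
  exact mul_le_mul_left (tsum_lev hs φ) _

/-- **MOM on T.** -/
theorem momT {P : Measure (Pt → ℤ)} (hmu : Gb (muT P)) {p : Pt} {s : ℤ} (hs : 1 ≤ s)
    {a b : Pt →₀ ℝ} (ha : ∀ v ∈ a.support, v ∈ bx p s) (hb : ∀ v ∈ b.support, v ∉ bx p (2 * s))
    (hm : massT (a + b) = 0) (n : ℕ) :
    ∫⁻ h in ZE p s, ENNReal.ofReal (evT a h ^ (2 * n)) ∂(muT P) ≤
      3 * ∫⁻ φ, ENNReal.ofReal ((2 * evT (a + b) φ) ^ (2 * n)) ∂P ∧
    ∫⁻ h in ZE p s, ENNReal.ofReal (evT b h ^ (2 * n)) ∂(muT P) ≤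
      3 * ∫⁻ φ, ENNReal.ofReal ((2 * evT (a + b) φ) ^ (2 * n)) ∂P := by
  classical
  obtain ⟨F, _, hF⟩ := (s_loc p s hs).2.loc
  have hF' : ∀ B B' : Set Pt, (∀ w ∈ F, w ∈ B ↔ w ∈ B') → Zr p s B → Zr p s B' := by
    intro B B' h hB
    have h3 := hF B B' h
    unfold ind at h3
    rw [if_pos hB] at h3
    by_contra hc
    rw [if_neg hc] at h3
    exact one_ne_zero h3
  set I : Finset (Finset Pt) := F.powerset.filter fun T : Finset Pt => Zr p s (T : Set Pt) with hI
  have hZ : ZE p s = ⋃ T ∈ I, piece F T := by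
    ext x
    simp only [ZE, Set.mem_ofPred_eq, Set.mem_iUnion, hI, Finset.mem_filter, Finset.mem_powerset,
      exists_prop]
    constructor
    · intro h
      refine ⟨F.filter (fun w => w ∈ bl x), ⟨Finset.filter_subset _ _, ?_⟩, ?_⟩
      · exact hF' _ _ (fun w hw => by simp [hw]) h
      · intro w hw
        simp [hw]
    · rintro ⟨T, ⟨-, hT⟩, h⟩
      exact hF' _ _ (fun w hw => (h w hw).symm) hT
  have hdis : (I : Set (Finset Pt)).PairwiseDisjoint (piece F) := by
    intro T hT T' hT' hne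
    rw [Function.onFun, Set.disjoint_left]
    intro x h1 h2
    apply hne
    simp only [hI, Finset.coe_filter, Finset.mem_powerset, Set.mem_ofPred_eq] at hT hT'
    ext w
    constructor
    · intro h
      exact (h2 w (hT.1 h)).1 ((h1 w (hT.1 h)).2 h)
    · intro h
      exact (h1 w (hT'.1 h)).1 ((h2 w (hT'.1 h)).2 h)
  have hsum : ∀ g : Hg → ENNReal, ∫⁻ x in ZE p s, g x ∂(muT P) =
      ∑ T ∈ I, ∫⁻ x in piece F T, g x ∂(muT P) := by
    intro g
    rw [hZ]
    exact lintegral_biUnion_finset hdis (fun T _ => meas_piece F T) g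
  have hlast := annT_le (P := P) (p := p) hs hm n
  have hp := fun T (hT : T ∈ I) => mom_piece hmu hs (Finset.mem_powerset.1
    (Finset.mem_filter.1 hT).1) (Finset.mem_filter.1 hT).2 ha hb n
  constructor
  · refine le_trans ?_ hlast
    rw [hsum, hsum]
    refine Finset.sum_le_sum fun T hT => ((hp T hT).1).trans (le_of_eq ?_)
    exact lintegral_congr fun x => by rw [evT_add]
  · refine le_trans ?_ hlast
    rw [hsum, hsum]
    refine Finset.sum_le_sum fun T hT => ((hp T hT).2).trans (le_of_eq ?_)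
    exact lintegral_congr fun x => by rw [evT_add]

end Vale.Agent.P153.F.X
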