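import Vale.Agent.P153.F.X.XstA
import Vale.Agent.P153.F.X.FrA

/-!
P153-F, X-level (mirror of `P145.X.Frame`): `S_xst0` from the percolation statements of `X/Stmt.lean`; the choice of the scales.
-/

set_option autoImplicit false

namespace Vale.Agent.P153.F.X

open Filter Topology Set MeasureTheory
open Vale.Agent.P153
open Vale.Agent.P145.PT Vale.Agent.P153.F.Top

/-- The integrals of the conditioned measure. -/
def NuInt (P : Measure (Pt → ℤ)) (ν : (Set Pt → Prop) → Measure Om) : Prop :=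
  ∀ Q : Set Pt → Prop, LocS univ (ind Q) → ind Q ∅ = 0 → 0 < II P (ind Q) (fun _ => 1) →
    ∀ A : Om → ℝ, Alg A → ∫ ω, A ω ∂(ν Q) = II P (ind Q) A / II P (ind Q) (fun _ => 1)

/-- The sandwich half (helper956). -/
def SandH (P : Measure (Pt → ℤ)) (δ : ℕ → ℝ)
    (ν : (Set Pt → Prop) → Measure Om) : Prop :=
  ∀ D₁ D₂ : Set (ℝ × ℝ), IsOpen D₁ → IsOpen D₂ → Bornology.IsBounded D₂ → closure D₁ ⊆ D₂ →
  ∀ R : ℝ, 1 ≤ R → D₁ ⊆ Metric.ball 0 R → ∀ L : List (List (ℝ × ℝ → ℝ)),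
  (∀ l ∈ L, ∀ g ∈ l, TestOn D₁ g ∧ ∀ z, 0 ≤ g z) → ∃ C : ℝ, 0 ≤ C ∧ ∀ η : ℝ, 0 ≤ η →
  ∀ᶠ n in atTop, ∀ (Q : Set Pt → Prop) (p : ℤ × ℤ) (s : ℤ),
    Fn (tE (Vs (δ n) D₁ : Set (ℤ × ℤ)))ᶜ (ind Q) → Monotone (ind Q) → (∀ B, Q B → Zr p (4 * s) B) →
    |δ n * (p.1 : ℝ)| ≤ R → |δ n * (p.2 : ℝ)| ≤ R → R⁻¹ ≤ δ n * (s : ℝ) → δ n * (s : ℝ) ≤ R →
    (∀ v : ℤ × ℤ, dp (δ n) v ∈ D₁ → v ∈ (bx p (8 * s))ᶜ) →
    0 < II P (ind Q) (fun _ => 1) →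
    II P (ind fun B => Q B ∧ ¬ Conf (B \ tE (Vs (δ n) D₁ : Set (ℤ × ℤ)))
      (Vs (δ n) D₂ : Set (ℤ × ℤ))ᶜ (Vs (δ n) D₁ : Set (ℤ × ℤ))ᶜ) (fun _ => 1) ≤
        η ^ 2 * II P (ind Q) (fun _ => 1) →
    Mom (ν Q) ∧ ∀ l ∈ L, EE (δ n) D₁ (hvl (δ n) l) ≤ ∫ ω, hvl (δ n) l ω ∂(ν Q) ∧
      ∫ ω, hvl (δ n) l ω ∂(ν Q) ≤ EE (δ n) D₂ (hvl (δ n) l) + η * C

namespace Fr

/-! ### Elementary facts -/

section elem
variable {P : Measure (Pt → ℤ)} {Q Q' : Set Pt → Prop}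

theorem fin_of (hint : S_int P) (hQ : LocP univ Q) (h0 : ¬ Q ∅) :
    muT P {x | Q (bl x)} ≠ ⊤ := by
  have h1 := hint (ind Q) (fun _ => 1) (locP_iff.1 hQ) (ind_not h0) Pol.one
  have e : (fun x : Hg => ind Q (bl x) * 1) =
      indicator {x | Q (bl x)} (fun _ => (1 : ℝ)) := by
    funext x
    by_cases hx : Q (bl x)
    · rw [ind_of hx, indicator_of_mem (show x ∈ {x | Q (bl x)} from hx), mul_one]
    · rw [ind_not hx, indicator_of_notMem (show x ∉ {x | Q (bl x)} from hx), zero_mul]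
  rw [e, integrable_indicator_iff hQ.meas] at h1
  rw [integrableOn_const_iff] at h1
  rcases h1 with h1 | h1
  · simp at h1
  · exact h1.ne

theorem ind_mono_of (h : ∀ B, Q B → Q' B) (B : Set Pt) : ind Q B ≤ ind Q' B := by
  by_cases hQ : Q B
  · rw [ind_of hQ, ind_of (h B hQ)]
  · rw [ind_not hQ]; exact ind_nonneg _ _

theorem II_mono_ind (hint : S_int P) (hQ' : LocP univ Q') (h0' : ¬ Q' ∅)
    (h : ∀ B, Q B → Q' B) : II P (ind Q) (fun _ => 1) ≤ II P (ind Q') (fun _ => 1) := by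
  unfold II
  refine integral_mono_of_nonneg (ae_of_all _ fun x => ?_)
    (hint (ind Q') (fun _ => 1) (locP_iff.1 hQ') (ind_not h0') Pol.one) (ae_of_all _ fun x => ?_)
  · simpa using ind_nonneg Q (bl x)
  · simpa using ind_mono_of h (bl x)

theorem II_even_nonneg (Q : Set Pt → Prop) (f : ℝ × ℝ → ℝ) (d : ℝ) (k : ℕ) :
    0 ≤ II P (ind Q) (fun ω => hv d f ω ^ (2 * k)) :=
  integral_nonneg fun x => mul_nonneg (ind_nonneg _ _) (by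
    show 0 ≤ hv d f (vm x) ^ (2 * k)
    rw [pow_mul]; exact pow_nonneg (sq_nonneg _) _)

end elem

/-- Functionals of the heights at the vertices in the support. -/
theorem on_hv {δ : ℝ} {f : ℝ × ℝ → ℝ} {D : Set (ℝ × ℝ)} (hf : TestOn D f) {V : Set (ℤ × ℤ)}
    (hV : ∀ v : ℤ × ℤ, dp δ v ∈ D → v ∈ V) (k : ℕ) :
    On V (fun ω => hv δ f ω ^ k) := by
  intro ω ω' h
  have e : hv δ f ω = hv δ f ω' := by
    unfold hv
    congr 1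
    refine finsum_congr fun v => ?_
    rw [tl_eq]
    by_cases h0 : f (dp δ v) = 0
    · rw [h0, mul_zero, mul_zero, mul_zero]
    · rw [h v (hV v (hf.2.2 (subset_tsupport _ h0)))]
  simp only [e]

/-- The moments of a family which contains a macroscopic circuit. -/
theorem mom_fam {P : Measure (Pt → ℤ)} {δ : ℕ → ℝ} (hδ : ∀ n, 0 < δ n)
    (hlim : Tendsto δ atTop (𝓝 0)) (hrsw : S_rsw P) (hemom : S_emom P) (hmm : S_mm P δ)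
    {D₁ : Set (ℝ × ℝ)} {R : ℝ} (hR : 1 ≤ R) (hDR : D₁ ⊆ Metric.ball 0 R) {f : ℝ × ℝ → ℝ}
    (hf : TestOn D₁ f) (hf0 : ∀ z, 0 ≤ f z) (k : ℕ) :
    ∃ C : ℝ, ∀ᶠ n in atTop, ∀ (Q : Set Pt → Prop) (p : ℤ × ℤ) (s : ℤ),
      Fn univ (ind Q) → Monotone (ind Q) → (∀ B, Q B → Zr p (4 * s) B) →
      |δ n * (p.1 : ℝ)| ≤ R → |δ n * (p.2 : ℝ)| ≤ R → R⁻¹ ≤ δ n * (s : ℝ) → δ n * (s : ℝ) ≤ R →
      (∀ v : ℤ × ℤ, dp (δ n) v ∈ D₁ → v ∈ (bx p (8 * s))ᶜ) →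
      II P (ind Q) (fun ω => hv (δ n) f ω ^ (2 * k)) ≤ C * II P (ind Q) (fun _ => 1) := by
  obtain ⟨c₁, hc₁, r₀, hr₀, hr⟩ := hrsw
  obtain ⟨C, hC0, hC⟩ := hmm R hR k
  refine ⟨C * ((∫ z, f z ^ 2) + 1) ^ k / c₁, ?_⟩
  have hsmall : ∀ᶠ n in atTop, δ n * (r₀ : ℝ) < R⁻¹ := by
    have h1 : Tendsto (fun n => δ n * (r₀ : ℝ)) atTop (𝓝 (0 * (r₀ : ℝ))) := hlim.mul_const _
    rw [zero_mul] at h1
    exact h1.eventually (gt_mem_nhds (by positivity))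
  filter_upwards [hC f (hf.mono hDR) 1 one_pos, hsmall] with n hn hn2 Q p s hQ hQm hQZ p1 p2 s1 s2 hv0
  have hs : r₀ ≤ s := by
    by_contra hlt
    push Not at hlt
    have h1 : (s : ℝ) ≤ r₀ := by exact_mod_cast hlt.le
    have h2 := mul_le_mul_of_nonneg_left h1 (hδ n).le
    linarith
  have h1 := hn p s p1 p2 s1 s2
  obtain ⟨B, hBB⟩ := hv_eq_hB (R := R) (hδ n)
  have hfB : ∀ ω, hv (δ n) f ω = hB B (δ n) f ω := fun ω =>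
    hBB f (fun z hz => hDR (hf.2.2 (subset_tsupport _ hz))) ω
  have h2 := hemom p s (ind Q) (fun ω => hv (δ n) f ω ^ (2 * k)) (by omega) hQ hQm
    (fun B hB' => hQZ B (ind_ne hB')) (by
      have e : (fun ω => hv (δ n) f ω ^ (2 * k)) = fun ω => hB B (δ n) f ω ^ (2 * k) := by
        funext ω; rw [hfB]
      rw [e]
      exact cone_pow hf0 _) (on_hv hf hv0 _)
  have h3 := (hr s hs p).1
  have h4 : 0 ≤ II P (ind Q) (fun ω => hv (δ n) f ω ^ (2 * k)) := II_even_nonneg _ _ _ _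
  have h5 : 0 ≤ II P (ind Q) (fun _ => 1) := by
    have := II_even_nonneg (P := P) Q f (δ n) 0
    simpa using this
  rw [div_mul_eq_mul_div, le_div_iff₀ hc₁]
  calc II P (ind Q) (fun ω => hv (δ n) f ω ^ (2 * k)) * c₁
      ≤ II P (ind Q) (fun ω => hv (δ n) f ω ^ (2 * k)) *
          II P (ind (Zr p s)) (fun _ => 1) := mul_le_mul_of_nonneg_left h3 h4
    _ ≤ II P (ind Q) (fun _ => 1) *
          II P (ind (Zr p s)) (fun ω => hv (δ n) f ω ^ (2 * k)) := h2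
    _ ≤ II P (ind Q) (fun _ => 1) * (C * ((∫ z, f z ^ 2) + 1) ^ k) :=
        mul_le_mul_of_nonneg_left h1 h5
    _ = C * ((∫ z, f z ^ 2) + 1) ^ k * II P (ind Q) (fun _ => 1) := by ring

/-! ### The data of one scale -/

/-- The output of `S_geom` and `S_far` at one scale. -/
structure Sc (δ ε e₁ R a b c : ℝ) (D₁ D₂ : Set (ℝ × ℝ)) (N₀ m N j : ℕ)
    (Y Q : Finset (ℤ × ℤ)) (y0 : ℤ × ℤ) (l : ℤ) : Prop where
  sub : Q ⊆ Y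
  card : Q.card ≤ N₀
  bd : ∀ y ∈ Y, |y.1| ≤ N ∧ |y.2| ≤ N
  off : ∀ y ∈ Y, iE (bx (ce (sc ε δ (j + 1)) y) (2 * sc ε δ (j + 1))) ⊆
    (tE (Vs δ D₁ : Set (ℤ × ℤ)))ᶜ
  offQ : ∀ y ∈ Q, iE (bx (ce (sc ε δ (j + 1)) y) (2 * sc ε δ m)) ⊆ (tE (Vs δ D₁ : Set (ℤ × ℤ)))ᶜ
  kq : ∀ y ∈ Y, ∃ i, FinT δ (iE (bx (ce (sc ε δ (j + 1)) y) (2 * sc ε δ (j + 1))))
    (Kq a b c e₁ i)
  conf : ∀ B : Set Pt, (∀ y ∈ Y, Zr (ce (sc ε δ (j + 1)) y) (sc ε δ (j + 1)) B) →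
    (∀ y ∈ Q, ∃ i, j + 4 ≤ i ∧ i ≤ m ∧ Zr (ce (sc ε δ (j + 1)) y) (sc ε δ i) B) →
    Conf B (Vs δ D₂ : Set (ℤ × ℤ))ᶜ (Vs δ D₁ : Set (ℤ × ℤ))ᶜ
  l1 : 1 ≤ l
  y1 : |y0.1| + 8 * l ≤ N
  y2 : |y0.2| + 8 * l ≤ N
  p1 : |δ * ((ce (sc ε δ (j + 1)) y0).1 : ℝ)| ≤ R
  p2 : |δ * ((ce (sc ε δ (j + 1)) y0).2 : ℝ)| ≤ R
  s1 : R⁻¹ ≤ δ * ((l * sc ε δ (j + 1) : ℤ) : ℝ)
  s2 : δ * ((l * sc ε δ (j + 1) : ℤ) : ℝ) ≤ R
  far : FinT δ (iE (bx (ce (sc ε δ (j + 1)) y0) (8 * (l * sc ε δ (j + 1))))) {z | c1 z ≤ a - 1}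
  inv : ∀ v : ℤ × ℤ, dp δ v ∈ D₁ →
    v ∈ (bx (ce (sc ε δ (j + 1)) y0) (8 * (l * sc ε δ (j + 1))))ᶜ

theorem exists_sc (hgeom : S_geom) (hfar : S_far) {D₁ D₂ : Set (ℝ × ℝ)} (hD1 : IsOpen D₁)
    (hD2 : IsOpen D₂) (hb : Bornology.IsBounded D₂) (hcl : closure D₁ ⊆ D₂) {a b c : ℝ}
    (hab : a + b < c) (hcc : ccell a b c ⊆ D₁) :
    ∃ R : ℝ, 1 ≤ R ∧ D₁ ⊆ Metric.ball 0 R ∧ ∃ N₀ : ℕ, ∀ m : ℕ, ∃ ε : ℝ, 0 < ε ∧ ∃ (N : ℕ) (e₁ : ℝ),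
      0 < e₁ ∧ ∀ j : ℕ, j + 4 ≤ m → ∀ᶠ δ in 𝓝[>] (0 : ℝ), ∃ (Y Q : Finset (ℤ × ℤ)) (y0 : ℤ × ℤ)
        (l : ℤ), Sc δ ε e₁ R a b c D₁ D₂ N₀ m N j Y Q y0 l := by
  have hb1 : Bornology.IsBounded D₁ := hb.subset (subset_closure.trans hcl)
  obtain ⟨R, hR1, hDR, hf⟩ := hfar D₁ a hb1
  obtain ⟨N₀, hN₀⟩ := hgeom D₁ D₂ hD1 hD2 hb hcl a b c hab hcc
  refine ⟨R, hR1, hDR, N₀, fun m => ?_⟩
  obtain ⟨ε₀, hε₀, hg⟩ := hN₀ m
  obtain ⟨ε, hε, hle, hle2⟩ : ∃ ε : ℝ, 0 < ε ∧ ε ≤ ε₀ ∧ 4 ^ (m + 2) * ε ≤ 1 := by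
    refine ⟨min ε₀ (1 / 4 ^ (m + 2)), lt_min hε₀ (by positivity), min_le_left _ _, ?_⟩
    have h1 : min ε₀ (1 / (4 : ℝ) ^ (m + 2)) ≤ 1 / 4 ^ (m + 2) := min_le_right _ _
    have h2 : (0 : ℝ) < 4 ^ (m + 2) := by positivity
    calc (4 : ℝ) ^ (m + 2) * min ε₀ (1 / 4 ^ (m + 2)) ≤ 4 ^ (m + 2) * (1 / 4 ^ (m + 2)) :=
          mul_le_mul_of_nonneg_left h1 h2.le
      _ = 1 := by field_simp
  obtain ⟨Ng, e₁, he₁, hg'⟩ := hg ε hε hle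
  obtain ⟨Nf, hf'⟩ := hf m ε hε hle2
  refine ⟨ε, hε, max Ng Nf, e₁, he₁, fun j hj => ?_⟩
  filter_upwards [hg' j hj, hf' j (by omega)] with δ h1 h2
  obtain ⟨Y, Q, g1, g2, g3, g4, g5, g6⟩ := h1
  obtain ⟨y0, l, k1, k2, k3, k4, k5, k6, k7, k8, k9⟩ := h2
  have m1 : (Ng : ℤ) ≤ (max Ng Nf : ℕ) := by exact_mod_cast le_max_left _ _
  have m2 : (Nf : ℤ) ≤ (max Ng Nf : ℕ) := by exact_mod_cast le_max_right _ _
  exact ⟨Y, Q, y0, l, g1, g2, fun y hy => ⟨(g3 y hy).1.trans m1, (g3 y hy).2.trans m1⟩,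
    fun y hy => (g4 y hy).1, g5, fun y hy => (g4 y hy).2, g6, k1, k2.trans m2, k3.trans m2, k4, k5, k6,
    k7, k8, k9⟩

theorem adj_end {x y x' y' : Pt} (h : Adj x y) (h' : Adj x' y') (e : x + y = x' + y') :
    x' = x ∨ x' = y := by
  obtain ⟨a, b⟩ := x
  obtain ⟨c, d⟩ := y
  obtain ⟨a', b'⟩ := x'
  obtain ⟨c', d'⟩ := y'
  simp only [Adj, Set.mem_insert_iff, Set.mem_singleton_iff, Prod.mk_add_mk, Prod.mk.injEq] at *
  omega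

/-- The far circuit does not use the edges of the domain. -/
theorem far_off {δ : ℝ} (hδ : 0 < δ) {D : Set (ℝ × ℝ)} (hb : Bornology.IsBounded D)
    {p : ℤ × ℤ} {r : ℤ} (h : ∀ v : ℤ × ℤ, dp δ v ∈ D → v ∈ (bx p r)ᶜ) :
    iE (bx p r) ⊆ (tE (Vs δ D : Set (ℤ × ℤ)))ᶜ := by
  rintro w ⟨x, hx, y, hy, hxy, rfl⟩ ⟨x', hx', y', hxy', e⟩
  have h1 : x' ∈ bx p r := by
    rcases adj_end hxy hxy' e with h | h
    · rw [h]; exact hx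
    · rw [h]; exact hy
  exact h x' ((mem_Vs hδ hb).1 hx' (Metric.mem_closedBall_self (by positivity))) h1

/-- Local events do not see the other edges. -/
theorem _root_.Vale.Agent.P153.F.X.LocP.sdiff {S : Set Pt} {Q : Set Pt → Prop} (h : LocP Sᶜ Q)
    {B : Set Pt} : Q B ↔ Q (B \ S) := by
  obtain ⟨Λ, h1, h2⟩ := h
  exact h2 B (B \ S) fun w hw => ⟨fun h => ⟨h, h1 w hw⟩, fun h => h.1⟩

/-- The scale `⌊ε / δ⌋` is large. -/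
theorem floor_large {δ : ℕ → ℝ} (hδ : ∀ n, 0 < δ n) (hlim : Tendsto δ atTop (𝓝 0)) {ε : ℝ}
    (hε : 0 < ε) (K : ℤ) : ∀ᶠ n in atTop, K ≤ ⌊ε / δ n⌋ := by
  have h1 : ∀ᶠ n in atTop, δ n * (|(K : ℝ)| + 1) < ε := by
    have h2 : Tendsto (fun n => δ n * (|(K : ℝ)| + 1)) atTop (𝓝 (0 * (|(K : ℝ)| + 1))) :=
      hlim.mul_const _
    rw [zero_mul] at h2
    exact h2.eventually (gt_mem_nhds hε)
  filter_upwards [h1] with n hn
  rw [Int.le_floor, le_div_iff₀ (hδ n)]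
  have h3 := le_abs_self (K : ℝ)
  have h4 := hδ n
  nlinarith

end Fr

open Fr in
/-- **The frame**: `S_xst0` from the statements of the X-level. -/
theorem xst0_of {κ : ℝ} {P : Measure (Pt → ℤ)} {δ : ℕ → ℝ} (hδ : ∀ n, 0 < δ n)
    (hlim : Tendsto δ atTop (𝓝 0)) {ν : (Set Pt → Prop) → Measure Om} (hint : S_int P)
    (hL : S_loc) (hrsw : S_rsw P) (hgap : S_gap P) (hpos : S_pos P) (hemom : S_emom P)
    (hmm : S_mm P δ) (hgeom : S_geom) (hfar : S_far) (hν : NuInt P ν)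
    (hsand : SandH P δ ν) (hsd : SdH κ P δ) : S_xst0 κ δ := by
  classical
  intro D₁ D₂ hD1 hD2 hb hcl a b c hab hcc e he ψ f0 g k hψ hf0 hg _ _ hgP L hLL η hη
  have hb1 : Bornology.IsBounded D₁ := hb.subset (subset_closure.trans hcl)
  obtain ⟨R, hR1, hDR, N₀, hN₀⟩ := exists_sc hgeom hfar hD1 hD2 hb hcl hab hcc
  obtain ⟨C, hC0, hC⟩ := hsand D₁ D₂ hD1 hD2 hb hcl R hR1 hDR L hLL
  -- the errors
  obtain ⟨η', hη', hη'C⟩ : ∃ η' : ℝ, 0 < η' ∧ η' * C ≤ η := by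
    refine ⟨η / (C + 1), by positivity, ?_⟩
    rw [div_mul_eq_mul_div, div_le_iff₀ (by positivity)]
    nlinarith
  obtain ⟨η₀, hη₀, hη₀N⟩ : ∃ η₀ : ℝ, 0 < η₀ ∧ (N₀ : ℝ) * η₀ ≤ η' ^ 2 := by
    refine ⟨η' ^ 2 / (N₀ + 1), by positivity, ?_⟩
    rw [mul_div_assoc', div_le_iff₀ (by positivity)]
    nlinarith [sq_nonneg η', Nat.cast_nonneg (α := ℝ) N₀]
  obtain ⟨J, hJ4, s₀, hs₀, hgp⟩ := hgap η₀ hη₀ 4
  obtain ⟨ε, hε, N, e₁, he₁, hsc⟩ := hN₀ (2 * J)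
  -- the sequences
  have hδ' : Tendsto δ atTop (𝓝[>] 0) :=
    tendsto_nhdsWithin_iff.2 ⟨hlim, Eventually.of_forall fun n => hδ n⟩
  have hch : ∀ j : ℕ, ∃ G : ℕ → Finset (ℤ × ℤ) × Finset (ℤ × ℤ) × (ℤ × ℤ) × ℤ, j < J →
      ∀ᶠ n in atTop, Sc (δ n) ε e₁ R a b c D₁ D₂ N₀ (2 * J) N j (G n).1 (G n).2.1 (G n).2.2.1
        (G n).2.2.2 := by
    intro j
    by_cases hj : j < J
    · have h1 := hδ'.eventually (hsc j (by omega))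
      have h2 : ∀ᶠ n in atTop, ∃ G : Finset (ℤ × ℤ) × Finset (ℤ × ℤ) × (ℤ × ℤ) × ℤ,
          Sc (δ n) ε e₁ R a b c D₁ D₂ N₀ (2 * J) N j G.1 G.2.1 G.2.2.1 G.2.2.2 := by
        filter_upwards [h1] with n hn
        obtain ⟨Y, Q, y0, l, h⟩ := hn
        exact ⟨(Y, Q, y0, l), h⟩
      obtain ⟨G, hG⟩ := h2.choice
      exact ⟨G, fun _ => hG⟩
    · exact ⟨fun _ => (∅, ∅, (0, 0), 0), fun h => absurd h hj⟩
  choose G hG using hch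
  set Y : ℕ → ℕ → Finset (ℤ × ℤ) := fun j n => (G j n).1 with hY
  set QQ0 : ℕ → ℕ → Finset (ℤ × ℤ) := fun j n => (G j n).2.1 with hQQ0
  set y0 : ℕ → ℕ → ℤ × ℤ := fun j n => (G j n).2.2.1 with hy0
  set l : ℕ → ℕ → ℤ := fun j n => (G j n).2.2.2 with hl
  set w : ℕ → ℕ → ℤ := fun j n => sc ε (δ n) (j + 1) with hw
  set X : ℕ → ℕ → Set Pt → Prop := fun j n => QQ (w j n) (Y j n) (y0 j n) (l j n) with hX
  -- the lower bound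
  obtain ⟨c₀, hc₀, s₁, hs₁, hps⟩ := hpos N
  have hfl : ∀ K : ℤ, ∀ᶠ n in atTop, K ≤ ⌊ε / δ n⌋ := floor_large hδ hlim hε
  have hwl : ∀ j n, 1 ≤ ⌊ε / δ n⌋ → ⌊ε / δ n⌋ ≤ w j n := by
    intro j n h1
    have h2 : (1 : ℤ) ≤ 4 ^ (j + 1) := one_le_pow₀ (by norm_num)
    show ⌊ε / δ n⌋ ≤ 4 ^ (j + 1) * ⌊ε / δ n⌋
    nlinarith
  have hbig : ∀ᶠ n in atTop, s₀ ≤ ⌊ε / δ n⌋ ∧ s₁ ≤ ⌊ε / δ n⌋ ∧ 1 ≤ ⌊ε / δ n⌋ := by
    filter_upwards [hfl s₀, hfl s₁, hfl 1] with n h1 h2 h3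
    exact ⟨h1, h2, h3⟩
  have hall : ∀ᶠ n in atTop, ∀ j < J, Sc (δ n) ε e₁ R a b c D₁ D₂ N₀ (2 * J) N j (Y j n)
      (QQ0 j n) (y0 j n) (l j n) := by
    have h1 : ∀ᶠ n in atTop, ∀ j ∈ Finset.range J, Sc (δ n) ε e₁ R a b c D₁ D₂ N₀ (2 * J) N j
        (Y j n) (QQ0 j n) (y0 j n) (l j n) := by
      rw [Filter.eventually_all_finset]
      intro j hj
      exact hG j (Finset.mem_range.1 hj)
    filter_upwards [h1] with n hn j hj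
    exact hn j (Finset.mem_range.2 hj)
  -- locality of the family
  have hXloc : ∀ j n, 1 ≤ ⌊ε / δ n⌋ → 1 ≤ l j n → LocP univ (X j n) ∧ IncP (X j n) ∧ ¬ X j n ∅ := by
    intro j n h1 h2
    have h3 := hwl j n h1
    have h4 : 1 ≤ w j n := h1.trans h3
    have h5 : 1 ≤ l j n * w j n := by nlinarith
    exact ⟨fy_loc hL h4 (by omega) (fun _ _ => subset_univ _) (subset_univ _),
      fy_inc hL h4 (by omega), fy_empty hL (by omega)⟩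
  have hXpos : ∀ᶠ n in atTop, ∀ j < J, c₀ ≤ II P (ind (X j n)) (fun _ => 1) := by
    filter_upwards [hbig, hall] with n ⟨_, h2, h3⟩ h4 j hj
    have h5 := h4 j hj
    obtain ⟨h6, _, h8⟩ := hXloc j n h3 h5.l1
    refine le_trans (hps (w j n) (h2.trans (hwl j n h3)) (y0 j n) (4 * l j n) (by have := h5.l1; omega)
      (by have := h5.y1; omega) (by have := h5.y2; omega)) ?_
    refine II_mono_ind hint h6 h8 ?_
    rintro B ⟨g1, g2⟩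
    refine ⟨fun y hy => g1 y (h5.bd y hy).1 (h5.bd y hy).2, ?_⟩
    have e1 : (w j n * (y0 j n).1, w j n * (y0 j n).2) = ce (w j n) (y0 j n) := rfl
    have e2 : 4 * l j n * w j n = 4 * (l j n * w j n) := by ring
    rw [e1, e2] at g2
    exact g2
  have hZ : ∀ j n, ∀ B, X j n B → Zr (ce (w j n) (y0 j n)) (4 * (l j n * w j n)) B :=
    fun j n B h => h.2
  -- the Schwinger-Dyson half, at all the scales
  have hSD : ∀ j < J, Tendsto (fun n =>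
      (II P (ind (X j n))
        (fun ω => hv (δ n) (lap ψ) ω * hv (δ n) (fun z => f0 z + g z) ω ^ (k + 1)) +
      κ * (k + 1) * (∫ z, ψ z * (f0 z + g z)) *
        II P (ind (X j n)) (fun ω => hv (δ n) (fun z => f0 z + g z) ω ^ k)) /
      II P (ind (X j n)) (fun _ => 1)) atTop (𝓝 0) := by
    intro j hj
    refine hsd D₁ hD1 hb1 a b c hab hcc e he ψ f0 g k hψ hf0 hg hgP ε hε j N e₁ he₁ (Y j)
      (y0 j) (l j) ?_ c₀ hc₀ ?_ ?_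
    · filter_upwards [hall] with n hn
      have h5 := hn j hj
      exact ⟨fun y hy => ⟨(h5.bd y hy).1, (h5.bd y hy).2, h5.kq y hy⟩, h5.l1, h5.y1, h5.y2, h5.far⟩
    · filter_upwards [hXpos] with n hn
      exact hn j hj
    · intro f hf hf0' k'
      obtain ⟨C', hC'⟩ := mom_fam hδ hlim hrsw hemom hmm hR1 hDR hf hf0' k'
      refine ⟨C', ?_⟩
      filter_upwards [hC', hall, hbig] with n hn h4 ⟨_, _, h3⟩
      have h5 := h4 j hj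
      obtain ⟨h6, h7, h8⟩ := hXloc j n h3 h5.l1
      exact hn (X j n) (ce (w j n) (y0 j n)) (l j n * w j n) (fn_ind h6 h8) (incP_iff.1 h7)
        (hZ j n) h5.p1 h5.p2 h5.s1 h5.s2 h5.inv
  -- the choice of the scale
  have hsel : ∀ n, ∃ j < J, s₀ ≤ ⌊ε / δ n⌋ → ∀ (p : ℤ × ℤ) (X : Set Pt → ℝ), Fn univ X →
      Monotone X → (∀ B, X B ≠ 0 → Zr p (4 ^ (j + 1) * ⌊ε / δ n⌋) B) →
      II P (fun B => X B * ind (fun B => ∀ i, j + 4 ≤ i → i ≤ 2 * J →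
        ¬ Zr p (4 ^ i * ⌊ε / δ n⌋) B) B) (fun _ => 1) ≤ η₀ * II P X (fun _ => 1) := by
    intro n
    by_cases hn : s₀ ≤ ⌊ε / δ n⌋
    · obtain ⟨j, hj, h⟩ := hgp _ hn
      exact ⟨j, hj, fun _ => h⟩
    · exact ⟨0, by omega, fun h => absurd h hn⟩
  choose jj hjj hjs using hsel
  -- the sandwich half
  have hkey : ∀ᶠ n in atTop, Mom (ν (X (jj n) n)) ∧ ∀ q ∈ L,
      EE (δ n) D₁ (hvl (δ n) q) ≤ ∫ ω, hvl (δ n) q ω ∂(ν (X (jj n) n)) ∧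
      ∫ ω, hvl (δ n) q ω ∂(ν (X (jj n) n)) ≤ EE (δ n) D₂ (hvl (δ n) q) + η' * C := by
    filter_upwards [hC η' hη'.le, hbig, hall, hXpos] with n hn ⟨g1, _, g3⟩ g4 g5
    have hsc' := g4 (jj n) (hjj n)
    have hp := g5 (jj n) (hjj n)
    obtain ⟨h6, h7, h8⟩ := hXloc (jj n) n g3 hsc'.l1
    have hw1 : 1 ≤ w (jj n) n := g3.trans (hwl (jj n) n g3)
    have hlw : 1 ≤ l (jj n) n * w (jj n) n := by
      have := hsc'.l1
      nlinarith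
    have hoff : iE (bx (ce (w (jj n) n) (y0 (jj n) n)) (2 * (4 * (l (jj n) n * w (jj n) n)))) ⊆
        (tE (Vs (δ n) D₁ : Set (ℤ × ℤ)))ᶜ := by
      have e : 2 * (4 * (l (jj n) n * w (jj n) n)) = 8 * (l (jj n) n * w (jj n) n) := by ring
      rw [e]
      exact far_off (hδ n) hb1 hsc'.inv
    refine hn (X (jj n) n) (ce (w (jj n) n) (y0 (jj n) n)) (l (jj n) n * w (jj n) n)
      (fn_ind (fy_loc hL hw1 (by omega) hsc'.off hoff) h8) (incP_iff.1 h7) (hZ (jj n) n) hsc'.p1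
      hsc'.p2 hsc'.s1 hsc'.s2 hsc'.inv (hc₀.trans_le hp) ?_
    -- the closing event
    have hZl : LocP univ (Zy (w (jj n) n) ⌊ε / δ n⌋ (jj n + 4) (2 * J) (QQ0 (jj n) n)) :=
      zy_loc hL g3 fun _ _ => subset_univ _
    have hXZ : LocP univ fun B => X (jj n) n B ∧
        ¬ Zy (w (jj n) n) ⌊ε / δ n⌋ (jj n + 4) (2 * J) (QQ0 (jj n) n) B := h6.and hZl.not
    have hXo : LocP (tE (Vs (δ n) D₁ : Set (ℤ × ℤ)))ᶜ (X (jj n) n) :=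
      fy_loc hL hw1 (by omega) hsc'.off hoff
    have hZo : LocP (tE (Vs (δ n) D₁ : Set (ℤ × ℤ)))ᶜ
        (Zy (w (jj n) n) ⌊ε / δ n⌋ (jj n + 4) (2 * J) (QQ0 (jj n) n)) :=
      zy_loc hL g3 hsc'.offQ
    have s1 := II_mono_ind (Q := fun B => X (jj n) n B ∧
      ¬ Conf (B \ tE (Vs (δ n) D₁ : Set (ℤ × ℤ))) (Vs (δ n) D₂ : Set (ℤ × ℤ))ᶜ
        (Vs (δ n) D₁ : Set (ℤ × ℤ))ᶜ) hint hXZ
      (fun h => h8 h.1) (fun B h => ⟨h.1, fun hz => h.2 (hsc'.conf _ (hXo.sdiff.1 h.1).1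
        (hZo.sdiff.1 hz))⟩)
    refine s1.trans ?_
    rw [II_one hXZ, II_one h6]
    have s2 := gap_fam (P := P) hL (w := w (jj n) n) (r := 4 * (l (jj n) n * w (jj n) n))
      (p := ce (w (jj n) n) (y0 (jj n) n)) (s := ⌊ε / δ n⌋) (Y := Y (jj n) n)
      (Q := QQ0 (jj n) n) (lo := jj n + 4) (hi := 2 * J) hw1 (by omega) g3
      (fin_of hint h6 h8) (η := η₀) (fun y hy => hjs n g1 (ce (w (jj n) n) y) (ind (X (jj n) n))
        (fn_ind h6 h8) (incP_iff.1 h7) (fun B hB => (ind_ne hB).1 y (hsc'.sub hy)))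
    refine le_trans ?_ (s2.trans ?_)
    · exact le_of_eq rfl
    · refine mul_le_mul_of_nonneg_right (le_trans ?_ hη₀N) measureReal_nonneg
      refine mul_le_mul_of_nonneg_right ?_ hη₀.le
      exact_mod_cast hsc'.card
  refine ⟨fun n => ν (X (jj n) n), ?_, ?_, ?_⟩
  · filter_upwards [hkey] with n hn
    exact hn.1
  · intro q hq
    filter_upwards [hkey, hall] with n hn h4
    obtain ⟨h1, h2⟩ := hn.2 q hq
    exact ⟨by linarith, by linarith⟩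
  · have hSDall : ∀ᶠ n in atTop, ∀ j ∈ Finset.range J, |(II P (ind (X j n))
        (fun ω => hv (δ n) (lap ψ) ω * hv (δ n) (fun z => f0 z + g z) ω ^ (k + 1)) +
      κ * (k + 1) * (∫ z, ψ z * (f0 z + g z)) *
        II P (ind (X j n)) (fun ω => hv (δ n) (fun z => f0 z + g z) ω ^ k)) /
      II P (ind (X j n)) (fun _ => 1)| < η := by
      rw [Filter.eventually_all_finset]
      intro j hj
      have h1 := (hSD j (Finset.mem_range.1 hj)).abs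
      rw [abs_zero] at h1
      exact h1.eventually (gt_mem_nhds hη)
    filter_upwards [hSDall, hbig, hall, hXpos] with n hn ⟨_, _, g3⟩ g4 g5
    have hsc' := g4 (jj n) (hjj n)
    have hp := g5 (jj n) (hjj n)
    obtain ⟨h6, h7, h8⟩ := hXloc (jj n) n g3 hsc'.l1
    have hpos' : 0 < II P (ind (X (jj n) n)) (fun _ => 1) := hc₀.trans_le hp
    obtain ⟨B, hBB⟩ := hv_eq_hB (R := R) (hδ n)
    have hal : ∀ f : ℝ × ℝ → ℝ, TestOn D₁ f → Alg (hv (δ n) f) := fun f hf => by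
      have e : hv (δ n) f = hB B (δ n) f := funext fun ω =>
        hBB f (fun z hz => hDR (hf.2.2 (subset_tsupport _ hz))) ω
      rw [e]
      exact alg_hB
    have hcell : cell a b c ⊆ D₁ := fun z hz => hcc ⟨hz.1.le, hz.2.1.le, hz.2.2.le⟩
    have hψ1 : TestOn D₁ (lap ψ) := (hψ.mono hcell).lap
    have hfg : TestOn D₁ (fun z => f0 z + g z) := (hf0.mono hcell).add hg
    have e1 := hν (X (jj n) n) (locP_iff.1 h6) (ind_not h8) hpos'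
      (fun ω => hv (δ n) (lap ψ) ω * hv (δ n) (fun z => f0 z + g z) ω ^ (k + 1))
      ((hal _ hψ1).mul ((hal _ hfg).pow _))
    have e2 := hν (X (jj n) n) (locP_iff.1 h6) (ind_not h8) hpos'
      (fun ω => hv (δ n) (fun z => f0 z + g z) ω ^ k) ((hal _ hfg).pow _)
    rw [e1, e2]
    have h9 := (hn (jj n) (Finset.mem_range.2 (hjj n))).le
    refine le_trans (le_of_eq ?_) h9
    congr 1
    rw [add_div, mul_div_assoc]

end Vale.Agent.P153.F.X
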