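import Vale.Agent.P153.F.X.Stmt

/-!
# P153-F, block X: gaps between the circuits and moments given a circuit

`s_gap` and `s_emom`: consequences of the exploration from inside `S_ext`.
-/

namespace Vale.Agent.P153.F.X

open Filter Topology Set MeasureTheory
open Vale.Agent.P153
open Vale.Agent.P153.F.Top (Om Cone)

namespace Gap

/-! ### Geometry -/

lemma bx_mono (p : Pt) {r r' : ℤ} (h : r ≤ r') : bx p r ⊆ bx p r' := by
  rintro f ⟨h1, h2⟩
  exact ⟨h1.trans h, h2.trans h⟩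

lemma iE_mono {F F' : Set Pt} (h : F ⊆ F') : iE F ⊆ iE F' := by
  rintro w ⟨x, hx, y, hy, hw⟩
  exact ⟨x, h hx, y, h hy, hw⟩

/-- The other end of an edge is a neighbour. -/
lemma tE_sub_iE (p : Pt) (r : ℤ) : tE (bx p r) ⊆ iE (bx p (r + 1)) := by
  rintro w ⟨x, hx, y, hxy, hw⟩
  refine ⟨x, bx_mono p (by omega) hx, y, ?_, hxy, hw⟩
  obtain ⟨h1, h2⟩ := hx
  unfold Adj at hxy
  simp only [mem_insert_iff, mem_singleton_iff, Prod.mk.injEq] at hxy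
  rw [abs_le] at h1 h2
  refine ⟨?_, ?_⟩ <;> rw [abs_le] <;> omega

/-! ### Locality -/

lemma LocS.mono {A A' : Set Pt} (h : A ⊆ A') {g : Set Pt → ℝ} (hg : LocS A g) : LocS A' g := by
  obtain ⟨Λ, h1, h2⟩ := hg
  exact ⟨Λ, fun w hw => h (h1 w hw), h2⟩

lemma Fn.mono {A A' : Set Pt} (h : A ⊆ A') {g : Set Pt → ℝ} (hg : Fn A g) : Fn A' g :=
  ⟨hg.nonneg, LocS.mono h hg.loc, hg.pin⟩

lemma ind_nonneg (Q : Set Pt → Prop) (B : Set Pt) : 0 ≤ ind Q B := by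
  unfold ind
  split_ifs <;> norm_num

lemma ind_eq_iff {Q : Set Pt → Prop} {B B' : Set Pt} (h : ind Q B = ind Q B') : Q B ↔ Q B' := by
  unfold ind at h
  by_cases h1 : Q B <;> by_cases h2 : Q B' <;> simp_all

lemma ind_le {Q : Set Pt → Prop} {B B' : Set Pt} (h : ind Q B ≤ ind Q B') (hB : Q B) : Q B' := by
  unfold ind at h
  by_contra h2
  rw [if_pos hB, if_neg h2] at h
  norm_num at h

/-- The absence of circuits at finitely many scales is local. -/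
lemma loc_no {A : Set Pt} (Q : ℕ → Set Pt → Prop) (m n : ℕ)
    (h : ∀ i, m ≤ i → i ≤ n → LocS A (ind (Q i))) :
    LocS A (ind fun B => ∀ i, m ≤ i → i ≤ n → ¬ Q i B) := by
  classical
  choose! Λ h1 h2 using h
  refine ⟨(Finset.Icc m n).biUnion Λ, fun w hw => ?_, fun B B' hBB => ?_⟩
  · rw [Finset.mem_biUnion] at hw
    obtain ⟨i, hi, hw⟩ := hw
    rw [Finset.mem_Icc] at hi
    exact h1 i hi.1 hi.2 w hw
  · have h3 : ∀ i, m ≤ i → i ≤ n → (Q i B ↔ Q i B') := fun i hi hi' =>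
      ind_eq_iff (h2 i hi hi' B B' fun w hw =>
        hBB w (Finset.mem_biUnion.2 ⟨i, Finset.mem_Icc.2 ⟨hi, hi'⟩, hw⟩))
    have h4 : (∀ i, m ≤ i → i ≤ n → ¬ Q i B) ↔ ∀ i, m ≤ i → i ≤ n → ¬ Q i B' :=
      forall_congr' fun i => forall_congr' fun hi => forall_congr' fun hi' =>
        not_congr (h3 i hi hi')
    unfold ind
    by_cases h5 : ∀ i, m ≤ i → i ≤ n → ¬ Q i B
    · rw [if_pos h5, if_pos (h4.1 h5)]
    · rw [if_neg h5, if_neg fun h6 => h5 (h4.2 h6)]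

lemma anti_no (Q : ℕ → Set Pt → Prop) (m n : ℕ) (h : ∀ i, m ≤ i → i ≤ n → Monotone (ind (Q i))) :
    Antitone (ind fun B => ∀ i, m ≤ i → i ≤ n → ¬ Q i B) := by
  intro B B' hBB
  unfold ind
  by_cases h1 : ∀ i, m ≤ i → i ≤ n → ¬ Q i B'
  · have h2 : ∀ i, m ≤ i → i ≤ n → ¬ Q i B := fun i hi hi' h3 =>
      h1 i hi hi' (ind_le (h i hi hi' hBB) h3)
    rw [if_pos h1, if_pos h2]
  · rw [if_neg h1]
    split_ifs <;> norm_num

end Gap

open Gap

/-- GAP. -/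
theorem s_gap {P : Measure (Pt → ℤ)} (hE : S_ext P) (hC : S_cnt P)
    (hF : S_conf) (hL : S_loc) (_hI : S_int P) (hR : S_rsw P) : S_gap P := by
  intro η hη N
  obtain ⟨n, hn, s₀, hs₀, hs⟩ := hC η hη N
  obtain ⟨c₁, hc₁, r₀, hr₀, hr⟩ := hR
  refine ⟨n, hn, max s₀ r₀, le_max_of_le_left hs₀, fun s h1 => ?_⟩
  have hs1 : s₀ ≤ s := (le_max_left _ _).trans h1
  have hs2 : r₀ ≤ s := (le_max_right _ _).trans h1
  have hs3 : 1 ≤ s := hs₀.trans hs1
  obtain ⟨j, hj, h2⟩ := hs s hs1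
  refine ⟨j, hj, fun p X hX hXm hXZ => ?_⟩
  have h3 := h2 p
  have hpow : ∀ i : ℕ, 1 ≤ (4 : ℤ) ^ i := fun i => one_le_pow₀ (by norm_num)
  have hps : ∀ i : ℕ, 1 ≤ 4 ^ i * s := fun i => by nlinarith [hpow i]
  have hps' : ∀ i : ℕ, s ≤ 4 ^ i * s := fun i => by nlinarith [hpow i]
  have e4 : (4 : ℤ) ^ (j + 1) * s = 4 * (4 ^ j * s) := by rw [pow_succ]; ring
  -- the mass of the circuit is positive
  have hpos : 0 < II P (ind (Zr p (4 ^ j * s))) (fun _ => 1) :=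
    hc₁.trans_le (hr (4 ^ j * s) (hs2.trans (hps' j)) p).1
  have hΘ : Fn (iE (bx p (4 ^ (j + 1) * s))) (ind (Zr p (4 ^ j * s))) := by
    refine Fn.mono (fun w hw => ?_) (hL p (4 ^ j * s) (hps j)).2
    exact iE_mono (bx_mono p (by rw [e4]; linarith [hps j])) hw.1
  have ha : LocS (tE (bx p (3 * (4 ^ (j + 1) * s))))ᶜ
      (ind fun B => ∀ i, j + 4 ≤ i → i ≤ 2 * n → ¬ Zr p (4 ^ i * s) B) := by
    refine loc_no (fun i => Zr p (4 ^ i * s)) (j + 4) (2 * n) fun i hi _ => ?_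
    have e0 : {w | w ∈ iE (bx p (2 * (4 ^ i * s))) ∧ w ∉ iE (bx p (4 ^ i * s - 1))} ⊆
        (tE (bx p (3 * (4 ^ (j + 1) * s))))ᶜ := fun w hw hw' =>
      hw.2 (iE_mono (bx_mono p ?_) (tE_sub_iE p _ hw'))
    · exact LocS.mono e0 (hL p (4 ^ i * s) (hps i)).2.loc
    have e5 : (4 : ℤ) ^ (j + 4) * s ≤ 4 ^ i * s :=
      mul_le_mul_of_nonneg_right (pow_le_pow_right₀ (by norm_num) hi) (by linarith)
    have e6 : (4 : ℤ) ^ (j + 4) * s = 256 * (4 ^ j * s) := by rw [pow_add]; ring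
    rw [e4]
    linarith [hps j]
  have hE' := hE p (4 ^ (j + 1) * s) X (ind (Zr p (4 ^ j * s)))
    (ind fun B => ∀ i, j + 4 ≤ i → i ≤ 2 * n → ¬ Zr p (4 ^ i * s) B) (fun _ => 1) (hps _) hX hXm
    (fun B hB => hF p _ B (hps _) (hXZ B hB)) hΘ (fun B => ind_nonneg _ B) ha
    (anti_no (fun i => Zr p (4 ^ i * s)) (j + 4) (2 * n) fun i _ _ => (hL p (4 ^ i * s) (hps i)).1)
    Top.Pol.one (fun _ _ _ => rfl)
  have e7 : (fun B => ind (Zr p (4 ^ j * s)) B *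
      ind (fun B => ∀ i, j + 4 ≤ i → i ≤ 2 * n → ¬ Zr p (4 ^ i * s) B) B) =
      ind fun B => Zr p (4 ^ j * s) B ∧ ∀ i, j + 4 ≤ i → i ≤ 2 * n → ¬ Zr p (4 ^ i * s) B := by
    funext B
    by_cases q1 : Zr p (4 ^ j * s) B
    · by_cases q2 : ∀ i, j + 4 ≤ i → i ≤ 2 * n → ¬ Zr p (4 ^ i * s) B
      · have q3 : Zr p (4 ^ j * s) B ∧ ∀ i, j + 4 ≤ i → i ≤ 2 * n → ¬ Zr p (4 ^ i * s) B :=
          ⟨q1, q2⟩
        simp only [ind]
        rw [if_pos q1, if_pos q2, if_pos q3, one_mul]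
      · have q3 : ¬ (Zr p (4 ^ j * s) B ∧ ∀ i, j + 4 ≤ i → i ≤ 2 * n →
            ¬ Zr p (4 ^ i * s) B) := fun h => q2 h.2
        simp only [ind]
        rw [if_neg q2, if_neg q3, mul_zero]
    · have q3 : ¬ (Zr p (4 ^ j * s) B ∧ ∀ i, j + 4 ≤ i → i ≤ 2 * n →
            ¬ Zr p (4 ^ i * s) B) := fun h => q1 h.1
      simp only [ind]
      rw [if_neg q1, if_neg q3, zero_mul]
  rw [e7] at hE'
  have hX0 : 0 ≤ II P X (fun _ => 1) := by
    unfold II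
    exact integral_nonneg fun x => mul_nonneg (hX.nonneg _) zero_le_one
  have h4 := hE'.trans (mul_le_mul_of_nonneg_left h3 hX0)
  refine le_of_mul_le_mul_right (h4.trans_eq ?_) hpos
  ring

/-- Moments given a monotone event which contains a circuit. -/
theorem s_emom {P : Measure (Pt → ℤ)} (hE : S_ext P) (hF : S_conf) (hL : S_loc) :
    S_emom P := by
  intro p s X A hs hX hXm hXZ hA hAon
  have e1 : (2 : ℤ) * (4 * s) = 8 * s := by ring
  have hΘ : Fn (iE (bx p (4 * s))) (ind (Zr p s)) := by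
    refine Fn.mono (fun w hw => ?_) (hL p s hs).2
    exact iE_mono (bx_mono p (by linarith)) hw.1
  have h1 := hE p (4 * s) X (ind (Zr p s)) (fun _ => 1) A (by linarith) hX hXm
    (fun B hB => hF p _ B (by linarith) (hXZ B hB)) hΘ (fun _ => zero_le_one)
    ⟨∅, fun w hw => absurd hw (Finset.notMem_empty w), fun _ _ _ => rfl⟩ (fun _ _ _ => le_rfl)
    hA (by rw [e1]; exact hAon)
  simpa only [mul_one] using h1

end Vale.Agent.P153.F.X
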