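import Vale.Agent.P153.F.X.MomT
import Vale.Agent.P153.GFF.WBounds

/-!
# P153-F, block X: the Riemann sums `hv` and the smeared field
-/

namespace Vale.Agent.P153.F.X

open Filter Topology Set MeasureTheory
open Vale.Agent.P153
open Vale.Agent.P153.F.Top (Om hv tl)
open Vale.Agent.P153.GFF (smear box pos ker Test Plane SpecOut ker_eq_zero ker_nonneg integral_ker
  integrable_ker g3wt_int g3radius wt_zero_of_box)

lemma ker_neg (u : ℝ × ℝ) : ker (-u) = ker u := by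
  unfold GFF.ker GFF.hat
  simp only [Prod.fst_neg, Prod.snd_neg]
  have e1 : -u.1 - -u.2 / √3 = -(u.1 - u.2 / √3) := by ring
  have e2 : 2 * -u.2 / √3 = -(2 * u.2 / √3) := by ring
  rw [e1, e2, abs_neg, abs_neg, ← neg_add, abs_neg]

/-- The weights and the values at the vertices. -/
lemma ker_second {f : ℝ × ℝ → ℝ} (hf : Smo f) {M : ℝ} (hM0 : 0 ≤ M)
    (hM : ∀ x y, |f (x + y) - 2 * f x + f (x - y)| ≤ M * ‖y‖ ^ 2) {δ : ℝ} (hδ : 0 < δ) (v : Pt) :
    |(∫ u : ℝ × ℝ, ker u * f (δ • (u + pos v))) - √3 / 2 * f (δ • pos v)| ≤ 2 * M * δ ^ 2 := by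
  have hH : (volume : Measure (ℝ × ℝ)).IsAddHaarMeasure :=
    Measure.prod.instIsAddHaarMeasure volume volume
  set A := ∫ u : ℝ × ℝ, ker u * f (δ • (u + pos v)) with hA
  have i1 : Integrable fun u : ℝ × ℝ => ker u * f (δ • (u + pos v)) :=
    g3wt_int hδ hf.cont hf.2 v
  have i2 : Integrable fun u : ℝ × ℝ => ker u * f (δ • (-u + pos v)) := by
    have := i1.comp_neg
    refine this.congr (Eventually.of_forall fun u => ?_)
    simp only [ker_neg]
  have e1 : A = ∫ u : ℝ × ℝ, ker u * f (δ • (-u + pos v)) := by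
    rw [hA, ← integral_neg_eq_self]
    simp only [ker_neg]
  have i3 : Integrable fun u : ℝ × ℝ => 2 * f (δ • pos v) * ker u := integrable_ker.const_mul _
  have e2 : ∫ u : ℝ × ℝ, ker u * (f (δ • pos v + δ • u) - 2 * f (δ • pos v) +
      f (δ • pos v - δ • u)) = 2 * (A - √3 / 2 * f (δ • pos v)) := by
    have e3 : (fun u : ℝ × ℝ => ker u * (f (δ • pos v + δ • u) - 2 * f (δ • pos v) +
        f (δ • pos v - δ • u))) = fun u : ℝ × ℝ => (ker u * f (δ • (u + pos v)) -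
          2 * f (δ • pos v) * ker u) + ker u * f (δ • (-u + pos v)) := by
      funext u
      have h1 : δ • pos v + δ • u = δ • (u + pos v) := by rw [smul_add, add_comm]
      have h2 : δ • pos v - δ • u = δ • (-u + pos v) := by
        rw [smul_add, smul_neg, neg_add_eq_sub]
      rw [h1, h2]
      ring
    have i4 : Integrable fun u : ℝ × ℝ => ker u * f (δ • (u + pos v)) -
        2 * f (δ • pos v) * ker u := i1.sub i3
    have e4 : ∫ u : ℝ × ℝ, 2 * f (δ • pos v) * ker u = 2 * f (δ • pos v) * (√3 / 2) := by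
      rw [integral_const_mul, integral_ker]
    rw [e3, integral_add i4 i2, integral_sub i1 i3, e4, ← e1, ← hA]
    ring
  have h3 : |2 * (A - √3 / 2 * f (δ • pos v))| ≤ 4 * M * δ ^ 2 := by
    rw [← e2]
    have h4 : ∀ u : ℝ × ℝ, ‖ker u * (f (δ • pos v + δ • u) - 2 * f (δ • pos v) +
        f (δ • pos v - δ • u))‖ ≤ 4 * M * δ ^ 2 * ker u := by
      intro u
      rw [norm_mul, Real.norm_eq_abs, Real.norm_eq_abs, abs_of_nonneg (ker_nonneg u)]
      by_cases hk : ker u = 0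
      · rw [hk, zero_mul, mul_zero]
      · have h5 : ¬(2 < |u.1| ∨ 1 < |u.2|) := fun h => hk (ker_eq_zero h)
        rw [not_or, not_lt, not_lt] at h5
        have h6 : ‖u‖ ≤ 2 := by
          rw [Prod.norm_def, max_le_iff, Real.norm_eq_abs, Real.norm_eq_abs]
          exact ⟨h5.1, by linarith [h5.2]⟩
        have h7 : ‖δ • u‖ ^ 2 ≤ 4 * δ ^ 2 := by
          rw [norm_smul, Real.norm_eq_abs, abs_of_pos hδ, mul_pow]
          have : ‖u‖ ^ 2 ≤ 4 := by nlinarith [norm_nonneg u]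
          nlinarith [sq_nonneg δ]
        have h8 := hM (δ • pos v) (δ • u)
        have h9 : M * ‖δ • u‖ ^ 2 ≤ M * (4 * δ ^ 2) := mul_le_mul_of_nonneg_left h7 hM0
        rw [mul_comm]
        refine mul_le_mul_of_nonneg_right ?_ (ker_nonneg u)
        linarith
    refine (norm_integral_le_of_norm_le (integrable_ker.const_mul _)
      (Eventually.of_forall h4)).trans ?_
    rw [integral_const_mul, integral_ker]
    have h5 : √3 / 2 ≤ 1 := by linarith [sq3.2]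
    have h6 : 0 ≤ 4 * M * δ ^ 2 := by positivity
    calc 4 * M * δ ^ 2 * (√3 / 2) ≤ 4 * M * δ ^ 2 * 1 := mul_le_mul_of_nonneg_left h5 h6
      _ = _ := mul_one _
  rw [abs_mul, abs_two] at h3
  linarith

/-! ### Riemann weights -/

lemma tl_pos (f : ℝ × ℝ → ℝ) (δ : ℝ) (v : Pt) :
    tl f (δ * v.1, δ * v.2) = √3 / 2 * f (δ • pos v) := by
  unfold tl pos
  congr 2
  ext
  · simp only [Prod.smul_fst, smul_eq_mul]
    ring
  · simp only [Prod.smul_snd, smul_eq_mul]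
    ring

lemma pos_box {δ R : ℝ} (hδ : 0 < δ) (hR : 0 ≤ R) {f : ℝ × ℝ → ℝ}
    (hf : ∀ z : ℝ × ℝ, (R < |z.1| ∨ R < |z.2|) → f z = 0) {v : Pt} (hv : v ∉ box δ R) :
    f (δ • pos v) = 0 := by
  have h := GFF.ker_zero_of_box hδ hR hf hv (pos v)
  rw [sub_self] at h
  rcases mul_eq_zero.1 h with h0 | h0
  · exfalso
    have : ker (0 : ℝ × ℝ) = 1 := by
      unfold GFF.ker GFF.hat
      simp
    rw [this] at h0
    exact one_ne_zero h0
  · exact h0

lemma HW_fin {f : ℝ × ℝ → ℝ} (cf : HasCompactSupport f) {δ : ℝ} (hδ : 0 < δ) :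
    (Function.support fun v : Pt => δ ^ 2 * tl f (δ * v.1, δ * v.2)).Finite := by
  obtain ⟨R, hR, h⟩ := g3radius cf
  refine (box δ R).finite_toSet.subset fun v hv => ?_
  by_contra hv'
  apply hv
  simp only
  rw [tl_pos, pos_box hδ hR h hv', mul_zero, mul_zero]

open Classical in
/-- The Riemann weights. -/
noncomputable def HW (δ : ℝ) (f : ℝ × ℝ → ℝ) : Pt →₀ ℝ :=
  if h : (Function.support fun v : Pt => δ ^ 2 * tl f (δ * v.1, δ * v.2)).Finite then
    Finsupp.ofSupportFinite _ h else 0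

lemma HW_apply {f : ℝ × ℝ → ℝ} (cf : HasCompactSupport f) {δ : ℝ} (hδ : 0 < δ) (v : Pt) :
    HW δ f v = δ ^ 2 * tl f (δ * v.1, δ * v.2) := by
  unfold HW
  rw [dif_pos (HW_fin cf hδ)]
  rfl

lemma hv_HW {f : ℝ × ℝ → ℝ} (cf : HasCompactSupport f) {δ : ℝ} (hδ : 0 < δ) (h : Hg) :
    hv δ f (vm h) = evT (HW δ f) h := by
  unfold hv evT
  rw [finsum_eq_sum_of_support_subset (s := (HW δ f).support), Finset.mul_sum]
  · unfold Finsupp.sum
    refine Finset.sum_congr rfl fun v _ => ?_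
    rw [HW_apply cf hδ]
    unfold vm
    ring
  · intro v hv
    rw [Finset.mem_coe, Finsupp.mem_support_iff, HW_apply cf hδ]
    exact mul_ne_zero (by positivity) (right_ne_zero_of_mul hv)

lemma sum_box {w : Pt →₀ ℝ} {B : Finset Pt} (hB : ∀ v, v ∉ B → w v = 0) (g : Pt → ℝ → ℝ)
    (hg : ∀ v, g v 0 = 0) : w.sum g = ∑ v ∈ B, g v (w v) := by
  refine Finsupp.sum_of_support_subset w (fun v hv => ?_) g fun v _ => hg v
  by_contra h
  exact (Finsupp.mem_support_iff.1 hv) (hB v h)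

/-- Size of the box. -/
lemma box_size {δ R : ℝ} (hδ : 0 < δ) (hδ1 : δ ≤ 1) (hR : 0 ≤ R) :
    ((box δ R).card : ℝ) ≤ ((4 * R + 15) / δ) ^ 2 ∧ ∀ v ∈ box δ R,
      ((|v.1| + |v.2| : ℤ) : ℝ) ≤ (4 * R + 15) / δ := by
  set m : ℤ := ⌈2 * (R / δ) + 6⌉ with hm
  have h1 : (m : ℝ) ≤ 2 * (R / δ) + 7 := by
    have := Int.ceil_lt_add_one (2 * (R / δ) + 6)
    linarith
  have h2 : (1 : ℝ) ≤ 1 / δ := by rw [le_div_iff₀ hδ]; linarith
  have h0 : (0 : ℝ) ≤ m := by
    have h3 := Int.le_ceil (2 * (R / δ) + 6)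
    have : 0 ≤ R / δ := by positivity
    linarith
  have h3 : 2 * (m : ℝ) + 1 ≤ (4 * R + 15) / δ := by
    have e : (4 * R + 15) / δ = 4 * (R / δ) + 15 * (1 / δ) := by ring
    rw [e]
    linarith
  constructor
  · have h4 : ((box δ R).card : ℝ) = (2 * m + 1) ^ 2 := by
      unfold GFF.box
      rw [Finset.card_product, Int.card_Icc]
      have e : m + 1 - -m = 2 * m + 1 := by ring
      rw [← hm, e]
      push_cast
      have h5 : (((2 * m + 1).toNat : ℕ) : ℝ) = 2 * m + 1 := by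
        have h6 : (0 : ℤ) ≤ m := by exact_mod_cast h0
        have h7 : (((2 * m + 1).toNat : ℕ) : ℤ) = 2 * m + 1 := Int.toNat_of_nonneg (by omega)
        have h8 : ((((2 * m + 1).toNat : ℕ) : ℤ) : ℝ) = ((2 * m + 1 : ℤ) : ℝ) := by rw [h7]
        push_cast at h8
        exact h8
      rw [h5]
      ring
    rw [h4]
    exact pow_le_pow_left₀ (by linarith) h3 2
  · intro v hv
    unfold GFF.box at hv
    rw [Finset.mem_product, Finset.mem_Icc, Finset.mem_Icc, ← hm, ← abs_le, ← abs_le] at hv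
    have h5 : ((|v.1| + |v.2| : ℤ) : ℝ) ≤ ((2 * m : ℤ) : ℝ) := by
      refine Int.cast_le.2 ?_
      linarith [hv.1, hv.2]
    push_cast at h5 ⊢
    linarith

/-- The Riemann weights are close to the weights of the smeared field. -/
lemma HW_close {f : ℝ × ℝ → ℝ} (hf : Smo f) {R : ℝ} (hR : 0 ≤ R)
    (hz : ∀ z : ℝ × ℝ, (R < |z.1| ∨ R < |z.2|) → f z = 0) : ∃ C : ℝ, 0 ≤ C ∧
    ∀ δ : ℝ, 0 < δ → δ ≤ 1 → |massT (HW δ f) - ∫ z, f z| ≤ C * δ ^ 2 ∧
      ∀ φ : Pt → ℤ, (∀ v, |φ v| ≤ |v.1| + |v.2|) →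
        |evT (HW δ f) φ - evT (WT δ f) φ| ≤ C * δ := by
  obtain ⟨M, hM0, hM⟩ := GFF.second_diff (by exact_mod_cast contDiff_infty.1 hf.1 2) hf.2
  refine ⟨2 * M * (4 * R + 15) ^ 3, by positivity, fun δ hδ hδ1 => ?_⟩
  obtain ⟨c1, c2⟩ := box_size hδ hδ1 hR
  set N : ℝ := (4 * R + 15) / δ with hN
  have hN0 : 0 < N := by positivity
  have hd : ∀ v, |HW δ f v - WT δ f v| ≤ 2 * M * δ ^ 4 := by
    intro v
    rw [HW_apply hf.2 hδ, WT_apply hf.2 hδ, tl_pos]
    unfold GFF.wt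
    rw [← mul_sub, abs_mul, abs_of_pos (by positivity : (0 : ℝ) < δ ^ 2), abs_sub_comm]
    have := ker_second hf hM0 hM hδ v
    calc δ ^ 2 * |(∫ u : ℝ × ℝ, ker u * f (δ • (u + pos v))) - √3 / 2 * f (δ • pos v)|
        ≤ δ ^ 2 * (2 * M * δ ^ 2) := mul_le_mul_of_nonneg_left this (by positivity)
      _ = 2 * M * δ ^ 4 := by ring
  have hB1 : ∀ v, v ∉ box δ R → HW δ f v = 0 := by
    intro v hv
    rw [HW_apply hf.2 hδ, tl_pos, pos_box hδ hR hz hv, mul_zero, mul_zero]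
  have hB2 : ∀ v, v ∉ box δ R → WT δ f v = 0 := by
    intro v hv
    rw [WT_apply hf.2 hδ, wt_zero_of_box hδ hR hz hv]
  constructor
  · rw [← mass_WT hf hδ]
    unfold massT
    rw [sum_box hB1 _ fun _ => rfl, sum_box hB2 _ fun _ => rfl, ← Finset.sum_sub_distrib]
    calc |∑ v ∈ box δ R, (HW δ f v - WT δ f v)| ≤ ∑ v ∈ box δ R, |HW δ f v - WT δ f v| :=
          Finset.abs_sum_le_sum_abs _ _
      _ ≤ ∑ _v ∈ box δ R, 2 * M * δ ^ 4 := Finset.sum_le_sum fun v _ => hd v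
      _ = (box δ R).card * (2 * M * δ ^ 4) := by rw [Finset.sum_const, nsmul_eq_mul]
      _ ≤ N ^ 2 * (2 * M * δ ^ 4) := mul_le_mul_of_nonneg_right c1 (by positivity)
      _ = 2 * M * (4 * R + 15) ^ 2 * δ ^ 2 := by
          rw [hN]
          field_simp
      _ ≤ 2 * M * (4 * R + 15) ^ 3 * δ ^ 2 := by
          refine mul_le_mul_of_nonneg_right (mul_le_mul_of_nonneg_left ?_ (by positivity))
            (by positivity)
          exact pow_le_pow_right₀ (by linarith) (by norm_num)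
  · intro φ hφ
    unfold evT
    rw [sum_box hB1 _ fun _ => by simp, sum_box hB2 _ fun _ => by simp, ← Finset.sum_sub_distrib]
    calc |∑ v ∈ box δ R, (HW δ f v * (φ v : ℝ) - WT δ f v * (φ v : ℝ))|
        ≤ ∑ v ∈ box δ R, |HW δ f v * (φ v : ℝ) - WT δ f v * (φ v : ℝ)| :=
          Finset.abs_sum_le_sum_abs _ _
      _ ≤ ∑ _v ∈ box δ R, 2 * M * δ ^ 4 * N := by
          refine Finset.sum_le_sum fun v hv => ?_
          rw [← sub_mul, abs_mul]
          refine mul_le_mul (hd v) ?_ (abs_nonneg _) (by positivity)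
          rw [← Int.cast_abs]
          exact (Int.cast_le.2 (hφ v)).trans (c2 v hv)
      _ = (box δ R).card * (2 * M * δ ^ 4 * N) := by rw [Finset.sum_const, nsmul_eq_mul]
      _ ≤ N ^ 2 * (2 * M * δ ^ 4 * N) := mul_le_mul_of_nonneg_right c1 (by positivity)
      _ = 2 * M * (4 * R + 15) ^ 3 * δ := by
          rw [hN]
          field_simp

/-- Crude bound of the smeared field. -/
lemma evT_crude {f : ℝ × ℝ → ℝ} (hf : Smo f) {R : ℝ} (hR : 0 ≤ R)
    (hz : ∀ z : ℝ × ℝ, (R < |z.1| ∨ R < |z.2|) → f z = 0) {δ : ℝ} (hδ : 0 < δ) (hδ1 : δ ≤ 1)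
    {φ : Pt → ℤ} (hφ : ∀ v, |φ v| ≤ |v.1| + |v.2|) :
    |evT (WT δ f) φ| ≤ (∫ z, |f z|) * ((4 * R + 15) / δ) := by
  obtain ⟨c1, c2⟩ := box_size hδ hδ1 hR
  set N : ℝ := (4 * R + 15) / δ with hN
  have hN0 : 0 < N := by positivity
  have hB2 : ∀ v, v ∉ box δ R → WT δ f v = 0 := by
    intro v hv
    rw [WT_apply hf.2 hδ, wt_zero_of_box hδ hR hz hv]
  unfold evT
  rw [sum_box hB2 _ fun _ => by simp]
  calc |∑ v ∈ box δ R, WT δ f v * (φ v : ℝ)|
      ≤ ∑ v ∈ box δ R, |WT δ f v * (φ v : ℝ)| := Finset.abs_sum_le_sum_abs _ _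
    _ ≤ ∑ v ∈ box δ R, |WT δ f v| * N := by
        refine Finset.sum_le_sum fun v hv => ?_
        rw [abs_mul]
        refine mul_le_mul_of_nonneg_left ?_ (abs_nonneg _)
        rw [← Int.cast_abs]
        exact (Int.cast_le.2 (hφ v)).trans (c2 v hv)
    _ = (∑ v ∈ box δ R, |GFF.wt δ f v|) * N := by
        rw [Finset.sum_mul]
        exact Finset.sum_congr rfl fun v _ => by rw [WT_apply hf.2 hδ]
    _ ≤ _ := mul_le_mul_of_nonneg_right (MN.sum_abs_wt hδ hR hf.cont hf.2 hz) hN0.le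

end Vale.Agent.P153.F.X
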