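import Vale.Agent.P153.F.PL.Moment
import Vale.Agent.P153.F.RSW.AcMom

/-!
# P153-F, block X: all moments of the smeared field against neutral test functions
-/

namespace Vale.Agent.P153.F.X.MN

open MeasureTheory Filter Topology
open Vale.Agent.P153.GFF
open Vale.Agent.P153.F.RSW.AC (seq_lim row_var)

variable {P : Measure (ℤ × ℤ → ℤ)} {κ : ℝ}

/-- Second moments: the limit, up to a factor `2`. -/
theorem second_le (hP : Plane P) (hS : SpecOut P κ) {f : ℝ × ℝ → ℝ} (hf : Test f) {ε : ℝ}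
    (hε : 0 < ε) : ∀ᶠ δ : ℝ in 𝓝[>] 0,
      ∫ φ, (smear φ δ f) ^ 2 ∂P ≤ 2 * (κ / √3 * gffCov f f) + ε := by
  obtain ⟨K, hK⟩ := hf.csts
  obtain ⟨A, hA0, hA⟩ := growth (grow_row hS)
  obtain ⟨m, C, k0, hspec⟩ := hS
  set E1 : ℝ → ℝ := fun δ => ∫ φ, (smear φ δ f - rowS δ f φ) ^ 2 ∂P with hE1
  set E2 : ℝ → ℝ := fun δ => ∫ φ, (rowS δ f φ) ^ 2 ∂P with hE2
  have l1 : Tendsto E1 (𝓝[>] 0) (𝓝 0) := seq_lim fun δ h1 h2 h3 =>
    (close hP (dec hspec) hA0 hA hK δ h1 h2 h3).1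
  have l2 : Tendsto E2 (𝓝[>] 0) (𝓝 (TwoPt.sig (√3) κ (ft f))) := seq_lim fun δ h1 h2 h3 => by
    have hD := disc hK hf.2.2 δ h1 h2 h3
    have h4 := TwoPt.p1 _ _ _ _ _ _ hspec _ _ _ _ hD
    refine h4.congr fun n => ?_
    exact (row_var hP hD n).1.symm
  rw [sig_ft hf] at l2
  have l3 : Tendsto (fun δ => 2 * E1 δ + 2 * E2 δ) (𝓝[>] 0)
      (𝓝 (2 * 0 + 2 * (κ / √3 * gffCov f f))) := (l1.const_mul 2).add (l2.const_mul 2)
  have h5 := l3.eventually_le_const (u := 2 * (κ / √3 * gffCov f f) + ε) (by linarith)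
  have h6 : ∀ᶠ δ : ℝ in 𝓝[>] 0, 0 < δ ∧ δ ≤ 1 := by
    filter_upwards [Ioc_mem_nhdsGT (zero_lt_one' ℝ)] with x hx
    exact hx
  filter_upwards [h5, h6] with δ hδ hδ'
  refine le_trans ?_ hδ
  have h1 : ∀ n : ℕ, 0 < δ / ((n : ℝ) + 1) := fun n => div_pos hδ'.1 (by positivity)
  have h2 : ∀ n : ℕ, δ / ((n : ℝ) + 1) ≤ 1 := fun n => by
    rw [div_le_one (by positivity)]
    have : (0 : ℝ) ≤ n := by positivity
    linarith [hδ'.2]
  have h3 : Tendsto (fun n : ℕ => δ / ((n : ℝ) + 1)) atTop (𝓝 0) := by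
    have := (tendsto_one_div_add_atTop_nhds_zero_nat (𝕜 := ℝ)).const_mul δ
    rw [mul_zero] at this
    refine this.congr fun n => ?_
    ring
  have i1 : Integrable (fun φ => (smear φ δ f - rowS δ f φ) ^ 2) P := by
    have h4 := (close hP (dec hspec) hA0 hA hK _ h1 h2 h3).2 0
    simpa using h4
  have i2 : Integrable (fun φ => (rowS δ f φ) ^ 2) P := by
    have h4 := (row_var hP (disc hK hf.2.2 _ h1 h2 h3) 0).2
    simpa [rowS] using h4
  calc ∫ φ, (smear φ δ f) ^ 2 ∂P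
      ≤ ∫ φ, (2 * (smear φ δ f - rowS δ f φ) ^ 2 + 2 * (rowS δ f φ) ^ 2) ∂P := by
        refine integral_mono_of_nonneg (Eventually.of_forall fun φ => sq_nonneg _)
          ((i1.const_mul 2).add (i2.const_mul 2)) (Eventually.of_forall fun φ => ?_)
        simp only
        nlinarith [sq_nonneg (smear φ δ f - 2 * rowS δ f φ)]
    _ = 2 * E1 δ + 2 * E2 δ := by
        rw [integral_add (i1.const_mul 2) (i2.const_mul 2), integral_const_mul, integral_const_mul]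

lemma g3phi_nonneg (M : ℝ) (z : ℝ × ℝ) : 0 ≤ g3phi M z := by
  unfold g3phi
  split_ifs
  · exact abs_nonneg _
  · exact le_rfl

lemma sq_int {f : ℝ × ℝ → ℝ} (hf : Continuous f) (cf : HasCompactSupport f) :
    Integrable fun x => f x ^ 2 := by
  refine (hf.pow 2).integrable_of_hasCompactSupport ?_
  refine HasCompactSupport.intro cf.isCompact fun x hx => ?_
  show f x ^ 2 = 0
  rw [image_eq_zero_of_notMem_tsupport hx]
  ring

/-- Schur test for the Green function. -/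
theorem gff_le {M : ℝ} (hM : 1 ≤ M) {f : ℝ × ℝ → ℝ} (hf : Continuous f)
    (cf : HasCompactSupport f) (hs : ∀ z, f z ≠ 0 → |z.1| ≤ M / 2 ∧ |z.2| ≤ M / 2) :
    gffCov f f ≤ (2 * Real.pi)⁻¹ * (∫ z, g3phi M z) * ∫ z, f z ^ 2 := by
  have hH : (volume : Measure (ℝ × ℝ)).IsAddHaarMeasure :=
    Measure.prod.instIsAddHaarMeasure volume volume
  have hgi := sq_int hf cf
  have hpi : 0 ≤ (2 * Real.pi)⁻¹ := by positivity
  have i2 : Integrable (fun p : (ℝ × ℝ) × (ℝ × ℝ) => f p.2 ^ 2 * g3phi M (p.1 - p.2))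
      (volume.prod volume) :=
    hgi.convolution_integrand (ContinuousLinearMap.mul ℝ ℝ) (g3phi_integrable hM)
  have hsym : ∀ z : ℝ × ℝ, g3phi M (-z) = g3phi M z := by
    intro z
    unfold g3phi
    simp only [Prod.fst_neg, Prod.snd_neg, abs_neg, neg_sq]
  have i1 : Integrable (fun p : (ℝ × ℝ) × (ℝ × ℝ) => f p.1 ^ 2 * g3phi M (p.1 - p.2))
      (volume.prod volume) := by
    have := i2.swap
    refine this.congr (Eventually.of_forall fun p => ?_)
    simp only [Function.comp, Prod.fst_swap, Prod.snd_swap]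
    rw [← hsym, neg_sub]
  have e2 : ∫ p : (ℝ × ℝ) × (ℝ × ℝ), f p.2 ^ 2 * g3phi M (p.1 - p.2) ∂(volume.prod volume) =
      (∫ z, g3phi M z) * ∫ z, f z ^ 2 := by
    rw [integral_prod_symm _ i2]
    have : ∀ y : ℝ × ℝ, ∫ x : ℝ × ℝ, f y ^ 2 * g3phi M (x - y) = f y ^ 2 * ∫ z, g3phi M z := by
      intro y
      rw [integral_const_mul]
      congr 1
      exact integral_sub_right_eq_self (fun z => g3phi M z) y
    simp only [this]
    rw [integral_mul_const, mul_comm]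
  have e1 : ∫ p : (ℝ × ℝ) × (ℝ × ℝ), f p.1 ^ 2 * g3phi M (p.1 - p.2) ∂(volume.prod volume) =
      (∫ z, g3phi M z) * ∫ z, f z ^ 2 := by
    rw [integral_prod _ i1]
    have : ∀ x : ℝ × ℝ, ∫ y : ℝ × ℝ, f x ^ 2 * g3phi M (x - y) = f x ^ 2 * ∫ z, g3phi M z := by
      intro x
      rw [integral_const_mul]
      congr 1
      exact integral_sub_left_eq_self (fun z => g3phi M z) volume x
    simp only [this]
    rw [integral_mul_const, mul_comm]
  rw [g3cov_eq_prod hf hf cf cf]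
  have hgr := g3green_integrable hf hf cf cf
  rw [Measure.volume_eq_prod] at hgr ⊢
  have hle : ∀ p : (ℝ × ℝ) × (ℝ × ℝ), green p.1 p.2 * f p.1 * f p.2 ≤
      (2 * Real.pi)⁻¹ * ((1 / 2) * (f p.1 ^ 2 * g3phi M (p.1 - p.2)) +
        (1 / 2) * (f p.2 ^ 2 * g3phi M (p.1 - p.2))) := by
    intro p
    have h0 := g3phi_nonneg M (p.1 - p.2)
    have hR : 0 ≤ (2 * Real.pi)⁻¹ * ((1 / 2) * (f p.1 ^ 2 * g3phi M (p.1 - p.2)) +
        (1 / 2) * (f p.2 ^ 2 * g3phi M (p.1 - p.2))) := by positivity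
    by_cases h1 : f p.1 = 0
    · rw [h1, mul_zero, zero_mul]
      rw [h1] at hR
      exact hR
    by_cases h2 : f p.2 = 0
    · rw [h2, mul_zero]
      rw [h2] at hR
      exact hR
    obtain ⟨a1, a2⟩ := hs _ h1
    obtain ⟨b1, b2⟩ := hs _ h2
    have hd1 : |(p.1 - p.2).1| ≤ M := by
      rw [Prod.fst_sub]
      exact (abs_sub _ _).trans (by linarith)
    have hd2 : |(p.1 - p.2).2| ≤ M := by
      rw [Prod.snd_sub]
      exact (abs_sub _ _).trans (by linarith)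
    have e3 : g3phi M (p.1 - p.2) =
        |Real.log (Real.sqrt ((p.1.1 - p.2.1) ^ 2 + (p.1.2 - p.2.2) ^ 2))| := by
      unfold g3phi
      rw [if_pos ⟨hd1, hd2⟩]
      rfl
    have e4 : |green p.1 p.2| = (2 * Real.pi)⁻¹ * g3phi M (p.1 - p.2) := by
      rw [e3]
      unfold green
      rw [abs_mul, abs_neg, abs_of_nonneg hpi]
    calc green p.1 p.2 * f p.1 * f p.2 ≤ |green p.1 p.2 * f p.1 * f p.2| := le_abs_self _
      _ = (2 * Real.pi)⁻¹ * (g3phi M (p.1 - p.2) * (|f p.1| * |f p.2|)) := by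
          rw [abs_mul, abs_mul, e4]
          ring
      _ ≤ (2 * Real.pi)⁻¹ * (g3phi M (p.1 - p.2) * ((1 / 2) * f p.1 ^ 2 + (1 / 2) * f p.2 ^ 2)) := by
          refine mul_le_mul_of_nonneg_left (mul_le_mul_of_nonneg_left ?_ h0) hpi
          nlinarith [sq_nonneg (|f p.1| - |f p.2|), sq_abs (f p.1), sq_abs (f p.2)]
      _ = _ := by ring
  refine (integral_mono hgr (((i1.const_mul _).add (i2.const_mul _)).const_mul _) hle).trans ?_
  rw [integral_const_mul, integral_add' (i1.const_mul _) (i2.const_mul _), integral_const_mul,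
    integral_const_mul, e1, e2]
  exact le_of_eq (by ring)

/-- Cauchy–Schwarz on a box. -/
theorem cs_box {R : ℝ} (hR : 0 < R) {f : ℝ × ℝ → ℝ} (hf : Continuous f)
    (cf : HasCompactSupport f) (hs : ∀ z, f z ≠ 0 → |z.1| ≤ R ∧ |z.2| ≤ R) :
    (∫ z, |f z|) ^ 2 ≤ (2 * R) ^ 2 * ∫ z, f z ^ 2 := by
  set I := ∫ z, |f z| with hI
  set B : Set (ℝ × ℝ) := Set.Icc (-R) R ×ˢ Set.Icc (-R) R with hB
  have hBm : MeasurableSet B := measurableSet_Icc.prod measurableSet_Icc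
  have hvol : volume B = ENNReal.ofReal ((2 * R) ^ 2) := by
    rw [hB, Measure.volume_eq_prod, Measure.prod_prod, Real.volume_Icc,
      ← ENNReal.ofReal_mul (by linarith)]
    congr 1
    ring
  have hreal : volume.real B = (2 * R) ^ 2 := by
    rw [measureReal_def, hvol, ENNReal.toReal_ofReal (by positivity)]
  have hfin : volume B ≠ ⊤ := by rw [hvol]; exact ENNReal.ofReal_ne_top
  have hV : 0 < (2 * R) ^ 2 := by positivity
  set c := I / (2 * R) ^ 2 with hc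
  have h1 : ∀ z, 2 * c * |f z| ≤ f z ^ 2 + B.indicator (fun _ => c ^ 2) z := by
    intro z
    by_cases hz : f z = 0
    · rw [hz]
      have : 0 ≤ B.indicator (fun _ => c ^ 2) z := Set.indicator_nonneg (fun _ _ => sq_nonneg _) z
      simp only [abs_zero, mul_zero]
      linarith
    · obtain ⟨h2, h3⟩ := hs z hz
      rw [Set.indicator_of_mem (show z ∈ B from ⟨abs_le.1 h2, abs_le.1 h3⟩)]
      nlinarith [sq_nonneg (|f z| - c), sq_abs (f z)]
  have hfi : Integrable fun z => |f z| := (hf.integrable_of_hasCompactSupport cf).abs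
  have hci : Integrable (B.indicator fun _ => c ^ 2) :=
    (integrableOn_const hfin).integrable_indicator hBm
  have h2 := integral_mono (hfi.const_mul (2 * c)) ((sq_int hf cf).add hci) h1
  rw [integral_const_mul] at h2
  have h3 : ∫ z, ((fun x => f x ^ 2) + B.indicator fun _ => c ^ 2) z =
      (∫ z, f z ^ 2) + (2 * R) ^ 2 * c ^ 2 := by
    have h4 : ∫ z, ((fun x => f x ^ 2) + B.indicator fun _ => c ^ 2) z =
        (∫ z, f z ^ 2) + ∫ z, B.indicator (fun _ => c ^ 2) z :=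
      integral_add (sq_int hf cf) hci
    rw [h4, integral_indicator_const _ hBm, hreal, smul_eq_mul]
  have h5 : 2 * c * I ≤ (∫ z, f z ^ 2) + (2 * R) ^ 2 * c ^ 2 := by
    rw [← h3]
    exact h2
  have h6 : I = c * (2 * R) ^ 2 := by
    rw [hc]
    field_simp
  have h7 : (2 * R) ^ 2 * c ^ 2 ≤ ∫ z, f z ^ 2 := by
    rw [h6] at h5
    nlinarith
  calc I ^ 2 = (2 * R) ^ 2 * ((2 * R) ^ 2 * c ^ 2) := by rw [h6]; ring
    _ ≤ (2 * R) ^ 2 * ∫ z, f z ^ 2 := mul_le_mul_of_nonneg_left h7 hV.le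

lemma wt_int {δ : ℝ} (hδ : 0 < δ) {f : ℝ × ℝ → ℝ} (hc : Continuous f)
    (hs : HasCompactSupport f) (v : ℤ × ℤ) :
    Integrable fun u : ℝ × ℝ => ker (u - pos v) * f (δ • u) := by
  apply Continuous.integrable_of_hasCompactSupport
  · exact (continuous_ker.comp (by fun_prop)).mul (hc.comp (by fun_prop))
  · apply HasCompactSupport.mul_left
    exact hs.comp_homeomorph (Homeomorph.smulOfNeZero δ hδ.ne')

lemma abs_compact {f : ℝ × ℝ → ℝ} (cf : HasCompactSupport f) :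
    HasCompactSupport fun z => |f z| :=
  cf.comp_left (g := fun x : ℝ => |x|) abs_zero

/-- The total mass of the weights. -/
theorem sum_abs_wt {δ R : ℝ} (hδ : 0 < δ) (hR : 0 ≤ R) {f : ℝ × ℝ → ℝ} (hc : Continuous f)
    (hs : HasCompactSupport f) (hf : ∀ z : ℝ × ℝ, (R < |z.1| ∨ R < |z.2|) → f z = 0) :
    ∑ v ∈ box δ R, |wt δ f v| ≤ ∫ z, |f z| := by
  have h1 := sum_wt hδ hR hc.abs (abs_compact hs) (fun z hz => by rw [hf z hz, abs_zero])
  rw [← h1]
  refine Finset.sum_le_sum fun v _ => ?_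
  rw [wt_eq, wt_eq, abs_mul, abs_of_pos (by positivity : (0 : ℝ) < δ ^ 2)]
  refine mul_le_mul_of_nonneg_left ?_ (by positivity)
  refine (abs_integral_le_integral_abs).trans (le_of_eq ?_)
  congr 1
  funext u
  rw [abs_mul, abs_of_nonneg (ker_nonneg _)]

/-- **All moments of the smeared field against a neutral test function.** -/
theorem neutral (hP : Plane P) (hS : SpecOut P κ) {R : ℝ} (hR : 1 ≤ R) (k : ℕ) :
    ∃ C : ℝ, 0 ≤ C ∧ ∀ f : ℝ × ℝ → ℝ, Test f → (∀ z, f z ≠ 0 → |z.1| ≤ R ∧ |z.2| ≤ R) →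
      ∀ ε : ℝ, 0 < ε → ∀ᶠ δ : ℝ in 𝓝[>] 0,
        ∫ φ, smear φ δ f ^ (2 * k) ∂P ≤ C * ((∫ z, f z ^ 2) + ε) ^ k := by
  have := hP.prob
  have hκ : 0 ≤ κ := by
    obtain ⟨m, C, k0, h⟩ := hS
    exact h.κ_nonneg
  set Φ : ℝ := (2 * Real.pi)⁻¹ * ∫ z, g3phi (2 * R) z with hΦ
  have hΦ0 : 0 ≤ Φ := mul_nonneg (by positivity) (integral_nonneg fun z => g3phi_nonneg _ _)
  set C1 : ℝ := 2 * (κ / √3 * Φ) + (2 * R) ^ 2 + 1 with hC1
  have hC10 : 0 ≤ C1 := by positivity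
  refine ⟨81 ^ k * PL.Ck k * C1 ^ k, by have := PL.ck_nonneg k; positivity,
    fun f hf hsf ε hε => ?_⟩
  have hc : Continuous f := hf.1.continuous
  have hz : ∀ z : ℝ × ℝ, (R < |z.1| ∨ R < |z.2|) → f z = 0 := by
    intro z hz
    by_contra hne
    obtain ⟨h1, h2⟩ := hsf z hne
    rcases hz with h | h <;> linarith
  have hg := gff_le (M := 2 * R) (by linarith) hc hf.2.1 (fun z hz => by
    obtain ⟨h1, h2⟩ := hsf z hz
    constructor <;> linarith)
  have hcs := cs_box (by linarith) hc hf.2.1 hsf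
  have h6 : ∀ᶠ δ : ℝ in 𝓝[>] 0, 0 < δ := by
    filter_upwards [self_mem_nhdsWithin] with x hx
    exact hx
  filter_upwards [second_le hP hS hf hε, h6] with δ h2 hδ
  have hlin : ∀ φ : ℤ × ℤ → ℤ, PL.lin (box δ R) (wt δ f) φ = smear φ δ f := by
    intro φ
    rw [smear_eq_sum hδ (by linarith) hc hf.2.1 hz]
    unfold PL.lin
    exact Finset.sum_congr rfl fun v _ => mul_comm _ _
  have h0 : ∑ v ∈ box δ R, wt δ f v = 0 := by
    rw [sum_wt hδ (by linarith) hc hf.2.1 hz, hf.2.2]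
  have hm := PL.moment k hP.lip hP.lim h0
  simp only [hlin] at hm
  refine hm.trans ?_
  rw [mul_assoc _ (C1 ^ k), ← mul_pow]
  refine mul_le_mul_of_nonneg_left ?_ (by have := PL.ck_nonneg k; positivity)
  have hI0 : 0 ≤ ∫ z, f z ^ 2 := integral_nonneg fun z => sq_nonneg _
  have hA0 : 0 ≤ ∑ v ∈ box δ R, |wt δ f v| := Finset.sum_nonneg fun _ _ => abs_nonneg _
  have h7 := sum_abs_wt hδ (by linarith) hc hf.2.1 hz
  have h8 : (∑ v ∈ box δ R, |wt δ f v|) ^ 2 ≤ (2 * R) ^ 2 * ∫ z, f z ^ 2 :=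
    (pow_le_pow_left₀ hA0 h7 2).trans hcs
  refine pow_le_pow_left₀ (add_nonneg (integral_nonneg fun _ => sq_nonneg _) (sq_nonneg _)) ?_ k
  have h9 : κ / √3 * gffCov f f ≤ κ / √3 * (Φ * ∫ z, f z ^ 2) :=
    mul_le_mul_of_nonneg_left hg (by positivity)
  have h10 : 0 ≤ κ / √3 * Φ := by positivity
  rw [hC1]
  nlinarith [mul_nonneg h10 hε.le, mul_nonneg (sq_nonneg (2 * R)) hε.le]

end Vale.Agent.P153.F.X.MN
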