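import Vale.Agent.P153.F.X.MomN
import Vale.Agent.P153.F.X.Flip
import Vale.Agent.P153.F.Top.Squeeze
import Vale.Agent.P153.F.Top.Mono
import Mathlib.Analysis.Calculus.BumpFunction.FiniteDimension
import Mathlib.Analysis.Calculus.BumpFunction.Normed

/-!
# P153-F, block X: the weights of the smeared field, translations, moments near a circuit
-/

namespace Vale.Agent.P153.F.X

open Filter Topology Set MeasureTheory
open Vale.Agent.P153
open Vale.Agent.P153.F.Top (Om Cone Pol Alg ze)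
open Vale.Agent.P153.GFF (smear wt box pos ker Test Plane SpecOut smear_eq_sum sum_wt
  wt_zero_of_box ker_eq_zero ker_nonneg integral_ker integrable_ker g3radius g3wt_int)

/-- Smooth with compact support. -/
def Smo (f : ℝ × ℝ → ℝ) : Prop :=
  ContDiff ℝ ((⊤ : ℕ∞) : WithTop ℕ∞) f ∧ HasCompactSupport f

lemma Smo.cont {f : ℝ × ℝ → ℝ} (h : Smo f) : Continuous f := h.1.continuous

lemma Smo.sub {f g : ℝ × ℝ → ℝ} (hf : Smo f) (hg : Smo g) : Smo fun x => f x - g x :=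
  ⟨hf.1.sub hg.1, hf.2.sub hg.2⟩

lemma Smo.mul {f : ℝ × ℝ → ℝ} (hf : Smo f) (c : ℝ) : Smo fun x => c * f x :=
  ⟨contDiff_const.mul hf.1, hf.2.mul_left⟩

lemma Smo.int {f : ℝ × ℝ → ℝ} (hf : Smo f) : Integrable f :=
  hf.cont.integrable_of_hasCompactSupport hf.2

/-- Smooth bumps of integral one. -/
theorem exists_bump (z : ℝ × ℝ) {ρ : ℝ} (hρ : 0 < ρ) : ∃ i : ℝ × ℝ → ℝ, Smo i ∧
    ∫ x, i x = 1 ∧ ∀ x, i x ≠ 0 → |x.1 - z.1| ≤ ρ ∧ |x.2 - z.2| ≤ ρ := by
  let b : ContDiffBump z := ⟨ρ / 2, ρ, by positivity, by linarith⟩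
  have h0 : 0 < ∫ x, b x := b.integral_pos
  refine ⟨fun x => (∫ y, b y)⁻¹ * b x, ⟨contDiff_const.mul b.contDiff, ?_⟩, ?_, fun x hx => ?_⟩
  · exact b.hasCompactSupport.mul_left
  · rw [integral_const_mul, inv_mul_cancel₀ h0.ne']
  · have h1 : b x ≠ 0 := right_ne_zero_of_mul hx
    have h2 : x ∈ Function.support b := h1
    rw [b.support_eq, Metric.mem_ball, dist_eq_norm, Prod.norm_def, max_lt_iff] at h2
    exact ⟨h2.1.le, h2.2.le⟩

/-! ### Weights -/

lemma wt_fin {f : ℝ × ℝ → ℝ} (cf : HasCompactSupport f) {δ : ℝ} (hδ : 0 < δ) :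
    (Function.support (GFF.wt δ f)).Finite := by
  obtain ⟨R, hR, h⟩ := g3radius cf
  refine (box δ R).finite_toSet.subset fun v hv => ?_
  by_contra hv'
  exact hv (wt_zero_of_box hδ hR h hv')

open Classical in
/-- The weights of the smeared field. -/
noncomputable def WT (δ : ℝ) (f : ℝ × ℝ → ℝ) : Pt →₀ ℝ :=
  if h : (Function.support (GFF.wt δ f)).Finite then Finsupp.ofSupportFinite _ h else 0

lemma WT_apply {f : ℝ × ℝ → ℝ} (cf : HasCompactSupport f) {δ : ℝ} (hδ : 0 < δ) (v : Pt) :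
    WT δ f v = GFF.wt δ f v := by
  unfold WT
  rw [dif_pos (wt_fin cf hδ)]
  rfl

lemma WT_sum {f : ℝ × ℝ → ℝ} (cf : HasCompactSupport f) {δ R : ℝ} (hδ : 0 < δ) (hR : 0 ≤ R)
    (h : ∀ z : ℝ × ℝ, (R < |z.1| ∨ R < |z.2|) → f z = 0) (g : Pt → ℝ → ℝ) (hg : ∀ v, g v 0 = 0) :
    (WT δ f).sum g = ∑ v ∈ box δ R, g v (GFF.wt δ f v) := by
  rw [Finsupp.sum_of_support_subset (WT δ f) (s := box δ R) ?_ g fun v _ => hg v]
  · exact Finset.sum_congr rfl fun v _ => by rw [WT_apply cf hδ]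
  · intro v hv
    by_contra hv'
    rw [Finsupp.mem_support_iff, WT_apply cf hδ] at hv
    exact hv (wt_zero_of_box hδ hR h hv')

lemma evT_WT {f : ℝ × ℝ → ℝ} (hf : Smo f) {δ : ℝ} (hδ : 0 < δ) (h : Hg) :
    evT (WT δ f) h = smear h δ f := by
  obtain ⟨R, hR, hz⟩ := g3radius hf.2
  unfold evT
  rw [WT_sum hf.2 hδ hR hz _ fun v => by simp, smear_eq_sum hδ hR hf.cont hf.2 hz]
  exact Finset.sum_congr rfl fun v _ => mul_comm _ _

lemma mass_WT {f : ℝ × ℝ → ℝ} (hf : Smo f) {δ : ℝ} (hδ : 0 < δ) : massT (WT δ f) = ∫ z, f z := by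
  obtain ⟨R, hR, hz⟩ := g3radius hf.2
  unfold massT
  rw [WT_sum hf.2 hδ hR hz _ fun v => rfl, sum_wt hδ hR hf.cont hf.2 hz]

lemma WT_sub {f g : ℝ × ℝ → ℝ} (hf : Smo f) (hg : Smo g) {δ : ℝ} (hδ : 0 < δ) :
    WT δ (fun x => f x - g x) = WT δ f - WT δ g := by
  ext v
  rw [Finsupp.sub_apply, WT_apply (hf.sub hg).2 hδ, WT_apply hf.2 hδ, WT_apply hg.2 hδ]
  unfold GFF.wt
  rw [← mul_sub, ← integral_sub (g3wt_int hδ hf.cont hf.2 v) (g3wt_int hδ hg.cont hg.2 v)]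
  congr 2
  funext u
  ring

lemma WT_ne {f : ℝ × ℝ → ℝ} (cf : HasCompactSupport f) {δ : ℝ} (hδ : 0 < δ) {v : Pt}
    (hv : WT δ f v ≠ 0) : ∃ u : ℝ × ℝ, |u.1| ≤ 2 ∧ |u.2| ≤ 1 ∧ f (δ • (u + pos v)) ≠ 0 := by
  rw [WT_apply cf hδ] at hv
  by_contra hno
  push Not at hno
  apply hv
  unfold GFF.wt
  have h0 : ∀ u : ℝ × ℝ, ker u * f (δ • (u + pos v)) = 0 := by
    intro u
    by_cases hk : ker u = 0
    · rw [hk, zero_mul]
    · have h1 : ¬(2 < |u.1| ∨ 1 < |u.2|) := fun h => hk (ker_eq_zero h)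
      rw [not_or, not_lt, not_lt] at h1
      rw [hno u h1.1 h1.2, mul_zero]
  simp_rw [h0]
  simp

/-! ### Linearity -/

lemma evT_smul (c : ℝ) (a : Pt →₀ ℝ) (h : Hg) : evT (c • a) h = c * evT a h := by
  unfold evT
  rw [Finsupp.sum_smul_index' (fun _ => by simp), Finsupp.mul_sum]
  exact Finsupp.sum_congr fun v _ => by rw [smul_eq_mul]; ring

lemma evT_sub (a b : Pt →₀ ℝ) (h : Hg) : evT (a - b) h = evT a h - evT b h := by
  have h1 : a - b = a + (-1 : ℝ) • b := by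
    rw [neg_one_smul, sub_eq_add_neg]
  rw [h1, evT_add, evT_smul]
  ring

lemma massT_sub (a b : Pt →₀ ℝ) : massT (a - b) = massT a - massT b := by
  have h1 : a - b = a + (-1 : ℝ) • b := by
    rw [neg_one_smul, sub_eq_add_neg]
  rw [h1, massT_add]
  have h2 : massT ((-1 : ℝ) • b) = -massT b := by
    unfold massT
    rw [Finsupp.sum_smul_index' (fun _ => rfl)]
    simp only [smul_eq_mul, neg_mul, one_mul, Finsupp.sum_neg]
  rw [h2]
  ring

/-! ### Translations -/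

/-- Translated weights. -/
noncomputable def mv (p : Pt) (w : Pt →₀ ℝ) : Pt →₀ ℝ := w.mapDomain fun v => v + p

lemma mv_apply (p : Pt) (w : Pt →₀ ℝ) (v : Pt) : mv p w v = w (v - p) := by
  unfold mv
  have hinj : Function.Injective fun v : Pt => v + p := fun a b h => add_right_cancel h
  conv_lhs => rw [← sub_add_cancel v p]
  exact Finsupp.mapDomain_apply hinj w (v - p)

lemma mv_sub (p : Pt) (a b : Pt →₀ ℝ) : mv p (a - b) = mv p a - mv p b := by
  ext v
  rw [Finsupp.sub_apply, mv_apply, mv_apply, mv_apply, Finsupp.sub_apply]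

lemma evT_mv (p : Pt) (w : Pt →₀ ℝ) (h : Hg) : evT (mv p w) h = evT w (trT p h) := by
  unfold evT mv
  rw [Finsupp.sum_mapDomain_index (fun _ => by simp) (fun _ _ _ => by ring)]
  rfl

lemma massT_mv (p : Pt) (w : Pt →₀ ℝ) : massT (mv p w) = massT w := by
  unfold massT mv
  rw [Finsupp.sum_mapDomain_index (fun _ => rfl) (fun _ _ _ => rfl)]

lemma lintegral_mv {P : Measure (Pt → ℤ)} (hP : ∀ t, P.map (GFF.shift t) = P) {w : Pt →₀ ℝ}
    (hw : massT w = 0) (p : Pt) (n : ℕ) :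
    ∫⁻ φ, ENNReal.ofReal ((2 * evT (mv p w) φ) ^ (2 * n)) ∂P =
      ∫⁻ φ, ENNReal.ofReal ((2 * evT w φ) ^ (2 * n)) ∂P := by
  have hm : Measurable (GFF.shift p) := measurable_pi_lambda _ fun x =>
    (measurable_pi_apply (x + p)).sub (measurable_pi_apply p)
  have mp : Measurable fun φ : Pt → ℤ => ENNReal.ofReal ((2 * evT w φ) ^ (2 * n)) :=
    (((measurable_evT w).const_mul 2).pow_const _).ennreal_ofReal
  conv_rhs => rw [← hP p]
  rw [lintegral_map mp hm]
  refine lintegral_congr fun φ => ?_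
  have e : evT w (GFF.shift p φ) = evT (mv p w) φ := by
    rw [evT_mv]
    have h1 : evT w (GFF.shift p φ) = evT w (trT p φ) - massT w * ((φ p : ℤ) : ℝ) := by
      unfold evT massT Finsupp.sum
      rw [Finset.sum_mul, ← Finset.sum_sub_distrib]
      refine Finset.sum_congr rfl fun v _ => ?_
      unfold GFF.shift trT
      push_cast
      ring
    rw [h1, hw, zero_mul, sub_zero]
  rw [e]

/-- Moments of neutral smooth weights, uniformly in the position. -/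
theorem neutral_mv {P : Measure (Pt → ℤ)} {κ : ℝ} (hP : Plane P) (hS : SpecOut P κ) {R : ℝ}
    (hR : 1 ≤ R) (n : ℕ) : ∃ C : ℝ, 0 ≤ C ∧ ∀ f : ℝ × ℝ → ℝ, Smo f → ∫ z, f z = 0 →
      (∀ z, f z ≠ 0 → |z.1| ≤ R ∧ |z.2| ≤ R) → ∀ ε : ℝ, 0 < ε → ∀ᶠ δ : ℝ in 𝓝[>] 0, ∀ p : Pt,
        ∫⁻ φ, ENNReal.ofReal ((2 * evT (mv p (WT δ f)) φ) ^ (2 * n)) ∂P ≤
          ENNReal.ofReal (C * ((∫ z, f z ^ 2) + ε) ^ n) := by
  have := hP.prob
  obtain ⟨C, hC, h⟩ := MN.neutral hP hS hR n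
  refine ⟨4 ^ n * C, by positivity, fun f hf h0 hs ε hε => ?_⟩
  have h6 : ∀ᶠ δ : ℝ in 𝓝[>] 0, 0 < δ := by
    filter_upwards [self_mem_nhdsWithin] with x hx
    exact hx
  filter_upwards [h f ⟨hf.1, hf.2, h0⟩ hs ε hε, h6] with δ h1 hδ p
  rw [lintegral_mv hP.shift (by rw [mass_WT hf hδ, h0]) p n]
  have hl : ∀ φ : Pt → ℤ, PL.lin (WT δ f).support (WT δ f) φ = evT (WT δ f) φ := fun φ => rfl
  have hw' : ∑ v ∈ (WT δ f).support, WT δ f v = 0 := by
    have := mass_WT hf hδ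
    rw [h0] at this
    exact this
  obtain ⟨M, hM⟩ := PL.lin_bdd hP.lip hw'
  simp only [hl] at hM
  have hXi : Integrable (fun φ => (2 * evT (WT δ f) φ) ^ (2 * n)) P := by
    refine Integrable.mono' (integrable_const ((2 * M) ^ (2 * n)))
      (((measurable_evT _).const_mul 2).pow_const _).aestronglyMeasurable ?_
    filter_upwards [hM] with φ hφ
    rw [norm_pow, Real.norm_eq_abs, abs_mul, abs_two]
    exact pow_le_pow_left₀ (by positivity) (by linarith) _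
  rw [← ofReal_integral_eq_lintegral_ofReal hXi
    (Filter.Eventually.of_forall fun φ => Even.pow_nonneg (even_two_mul n) _)]
  refine ENNReal.ofReal_le_ofReal ?_
  have e : ∀ φ : Pt → ℤ, (2 * evT (WT δ f) φ) ^ (2 * n) = 4 ^ n * smear φ δ f ^ (2 * n) := by
    intro φ
    rw [mul_pow, evT_WT hf hδ, pow_mul (2 : ℝ) 2 n]
    norm_num
  simp only [e]
  rw [integral_const_mul, mul_assoc]
  exact mul_le_mul_of_nonneg_left h1 (by positivity)

lemma pow_add_two (x y : ℝ) (k : ℕ) :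
    (x + y) ^ (2 * k) ≤ 2 ^ (2 * k) * (x ^ (2 * k) + y ^ (2 * k)) := by
  have h1 : |x + y| ≤ 2 * max |x| |y| := by
    have := abs_add_le x y
    have h2 := le_max_left |x| |y|
    have h3 := le_max_right |x| |y|
    linarith
  have h4 : (x + y) ^ (2 * k) = |x + y| ^ (2 * k) := ((even_two_mul k).pow_abs _).symm
  have h5 : max |x| |y| ^ (2 * k) ≤ x ^ (2 * k) + y ^ (2 * k) := by
    rcases max_choice |x| |y| with h | h
    · rw [h, (even_two_mul k).pow_abs]
      have := Even.pow_nonneg (even_two_mul k) y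
      linarith
    · rw [h, (even_two_mul k).pow_abs]
      have := Even.pow_nonneg (even_two_mul k) x
      linarith
  rw [h4]
  calc |x + y| ^ (2 * k) ≤ (2 * max |x| |y|) ^ (2 * k) := pow_le_pow_left₀ (abs_nonneg _) h1 _
    _ = 2 ^ (2 * k) * max |x| |y| ^ (2 * k) := mul_pow _ _ _
    _ ≤ _ := mul_le_mul_of_nonneg_left h5 (by positivity)

/-- The estimate for fixed weights: `a` smooth inside, `b` outside. -/
theorem core {P : Measure (Pt → ℤ)} (hmu : Gb (muT P)) {p : Pt} {s : ℤ} (hs : 1 ≤ s)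
    {w a b : Pt →₀ ℝ} {m : ℝ} (ha : ∀ v ∈ a.support, v ∈ bx p s)
    (hb : ∀ v ∈ b.support, v ∉ bx p (2 * s)) (hwa : massT (w - m • a) = 0)
    (hab : massT (a - b) = 0) (k : ℕ) {b1 b2 : ℝ} (hb1 : 0 ≤ b1) (hb2 : 0 ≤ b2)
    (h1 : ∫⁻ φ, ENNReal.ofReal ((2 * evT (w - m • a) φ) ^ (2 * k)) ∂P ≤ ENNReal.ofReal b1)
    (h2 : ∫⁻ φ, ENNReal.ofReal ((2 * evT (a - b) φ) ^ (2 * k)) ∂P ≤ ENNReal.ofReal b2) :
    ∫⁻ h in ZE p s, ENNReal.ofReal (evT w h ^ (2 * k)) ∂(muT P) ≤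
      ENNReal.ofReal (2 ^ (2 * k) * (3 * b1 + m ^ (2 * k) * (3 * b2))) := by
  have hm0 : 0 ≤ m ^ (2 * k) := Even.pow_nonneg (even_two_mul k) _
  have h3 : (3 : ENNReal) = ENNReal.ofReal 3 := by
    rw [ENNReal.ofReal_ofNat]
  have q1 : ∫⁻ h in ZE p s, ENNReal.ofReal (evT (w - m • a) h ^ (2 * k)) ∂(muT P) ≤
      ENNReal.ofReal (3 * b1) := by
    refine (annT_le hs hwa k).trans ?_
    rw [ENNReal.ofReal_mul (by norm_num), ← h3]
    gcongr
  have q2 : ∫⁻ h in ZE p s, ENNReal.ofReal (evT a h ^ (2 * k)) ∂(muT P) ≤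
      ENNReal.ofReal (3 * b2) := by
    have hb' : ∀ v ∈ (-b).support, v ∉ bx p (2 * s) := by
      intro v hv
      rw [Finsupp.support_neg] at hv
      exact hb v hv
    have e : a + -b = a - b := (sub_eq_add_neg _ _).symm
    refine (momT hmu hs ha hb' (by rw [e]; exact hab) k).1.trans ?_
    rw [e, ENNReal.ofReal_mul (by norm_num), ← h3]
    gcongr
  have e3 : ∀ h : Hg, evT w h = evT (w - m • a) h + m * evT a h := by
    intro h
    rw [evT_sub, evT_smul]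
    ring
  have mA : Measurable fun h : Hg => ENNReal.ofReal (evT (w - m • a) h ^ (2 * k)) :=
    ((measurable_evT _).pow_const _).ennreal_ofReal
  calc ∫⁻ h in ZE p s, ENNReal.ofReal (evT w h ^ (2 * k)) ∂(muT P)
      ≤ ∫⁻ h in ZE p s, ENNReal.ofReal (2 ^ (2 * k)) *
        (ENNReal.ofReal (evT (w - m • a) h ^ (2 * k)) +
          ENNReal.ofReal (m ^ (2 * k)) * ENNReal.ofReal (evT a h ^ (2 * k))) ∂(muT P) := by
        refine lintegral_mono fun h => ?_
        rw [← ENNReal.ofReal_mul hm0, ← ENNReal.ofReal_add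
          (Even.pow_nonneg (even_two_mul k) _)
          (mul_nonneg hm0 (Even.pow_nonneg (even_two_mul k) _)),
          ← ENNReal.ofReal_mul (by positivity)]
        refine ENNReal.ofReal_le_ofReal ?_
        rw [e3 h, ← mul_pow]
        exact pow_add_two _ _ k
    _ = ENNReal.ofReal (2 ^ (2 * k)) *
        (∫⁻ h in ZE p s, ENNReal.ofReal (evT (w - m • a) h ^ (2 * k)) ∂(muT P) +
          ENNReal.ofReal (m ^ (2 * k)) *
            ∫⁻ h in ZE p s, ENNReal.ofReal (evT a h ^ (2 * k)) ∂(muT P)) := by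
        rw [lintegral_const_mul' _ _ ENNReal.ofReal_ne_top, lintegral_add_left mA,
          lintegral_const_mul' _ _ ENNReal.ofReal_ne_top]
    _ ≤ ENNReal.ofReal (2 ^ (2 * k)) *
        (ENNReal.ofReal (3 * b1) + ENNReal.ofReal (m ^ (2 * k)) * ENNReal.ofReal (3 * b2)) := by
        gcongr
    _ = ENNReal.ofReal (2 ^ (2 * k) * (3 * b1 + m ^ (2 * k) * (3 * b2))) := by
        rw [← ENNReal.ofReal_mul hm0, ← ENNReal.ofReal_add (by positivity) (by positivity),
          ← ENNReal.ofReal_mul (by positivity)]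

/-- From the lower integral to the functional `II`. -/
lemma II_le {P : Measure (Pt → ℤ)} {p : Pt} {s : ℤ} (hs : 1 ≤ s) {A : Om → ℝ}
    (hA : ∀ ω, 0 ≤ A ω) {B : ℝ} (hB : 0 ≤ B)
    (h : ∫⁻ x in ZE p s, ENNReal.ofReal (A (vm x)) ∂(muT P) ≤ ENNReal.ofReal B) :
    II P (ind (Zr p s)) A ≤ B := by
  classical
  have hZ := meas_ZE p hs
  unfold II
  by_cases hm : AEStronglyMeasurable (fun h : Hg => ind (Zr p s) (bl h) * A (vm h)) (muT P)
  · rw [integral_eq_lintegral_of_nonneg_ae (Eventually.of_forall fun x => ?_) hm]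
    · refine ENNReal.toReal_le_of_le_ofReal hB (le_trans (le_of_eq ?_) h)
      rw [← lintegral_indicator hZ]
      refine lintegral_congr fun x => ?_
      by_cases hx : x ∈ ZE p s
      · rw [Set.indicator_of_mem hx]
        have : ind (Zr p s) (bl x) = 1 := by unfold ind; exact if_pos hx
        rw [this, one_mul]
      · rw [Set.indicator_of_notMem hx]
        have : ind (Zr p s) (bl x) = 0 := by unfold ind; exact if_neg hx
        rw [this, zero_mul, ENNReal.ofReal_zero]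
    · refine mul_nonneg ?_ (hA _)
      unfold ind
      split_ifs <;> norm_num
  · rw [integral_non_aestronglyMeasurable hm]
    exact hB

end Vale.Agent.P153.F.X
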