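import Vale.Agent.P153.F.Top.Zm

/-!
P153-F, X-level (mirror of `P145.X.SandX`): the normalised restriction of a measure to an event, seen through the vertex heights;
the sandwich between two zero boundary expectations.
-/

namespace Vale.Agent.P153.F.X

open Filter Topology Set MeasureTheory
open Vale.Agent.P153.F.Top Vale.Agent.P145.PT

section abs
variable {Ω : Type*} [MeasurableSpace Ω]

/-- `μ` restricted to `X`, normalised, as a law on the vertex heights `T`. -/
noncomputable def nuA (μ : Measure Ω) (X : Set Ω) (T : Ω → Om) : Measure Om :=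
  ((μ X)⁻¹ • μ.restrict X).map T

/-- The hypotheses on the event. -/
structure XEv (μ : Measure Ω) (X : Set Ω) (T : Ω → Om) : Prop where
  mT : Measurable T
  mX : MeasurableSet X
  pos : μ X ≠ 0
  fin : μ X ≠ ⊤
  int : ∀ v : List (ℤ × ℤ), Integrable (fun x => (v.map (T x)).prod) (μ.restrict X)

variable {μ : Measure Ω} {X : Set Ω} {T : Ω → Om}

theorem XEv.real_pos (h : XEv μ X T) : 0 < μ.real X :=
  ENNReal.toReal_pos h.pos h.fin

theorem XEv.isFinite (h : XEv μ X T) : IsFiniteMeasure (μ.restrict X) :=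
  ⟨by rw [Measure.restrict_apply_univ]; exact lt_top_iff_ne_top.2 h.fin⟩

theorem measurable_mon (v : List (ℤ × ℤ)) : Measurable fun ω : Om => (v.map ω).prod := by
  induction v with
  | nil => simp
  | cons u v ih =>
    simp only [List.map_cons, List.prod_cons]
    exact (measurable_pi_apply u).mul ih

theorem measurable_pol {Q : ℝ → Prop} {A : Om → ℝ} (hA : Pol Q A) : Measurable A := by
  induction hA with
  | mon v => exact measurable_mon v
  | zero => exact measurable_const
  | add _ _ h1 h2 => exact h1.add h2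
  | smul c _ _ h => exact h.const_mul c

theorem XEv.int_pol (h : XEv μ X T) {Q : ℝ → Prop} {A : Om → ℝ} (hA : Pol Q A) :
    Integrable (fun x => A (T x)) (μ.restrict X) := by
  induction hA with
  | mon v => exact h.int v
  | zero => exact integrable_zero _ _ _
  | add _ _ h1 h2 => exact h1.add h2
  | smul c _ _ h1 => exact h1.const_mul c

/-- The integrability of the monomials when the heights are bounded on the event. -/
theorem int_of_bdd (mT : Measurable T) (fin : μ X ≠ ⊤)
    (bdd : ∀ u : ℤ × ℤ, ∃ C : ℝ, ∀ᵐ x ∂(μ.restrict X), |T x u| ≤ C) (v : List (ℤ × ℤ)) :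
    Integrable (fun x => (v.map (T x)).prod) (μ.restrict X) := by
  have hf : IsFiniteMeasure (μ.restrict X) :=
    ⟨by rw [Measure.restrict_apply_univ]; exact lt_top_iff_ne_top.2 fin⟩
  have key : ∃ C : ℝ, 0 ≤ C ∧ ∀ᵐ x ∂(μ.restrict X), |(v.map (T x)).prod| ≤ C := by
    induction v with
    | nil => exact ⟨1, zero_le_one, ae_of_all _ fun x => by simp⟩
    | cons u v ih =>
      obtain ⟨C, hC0, hC⟩ := ih
      obtain ⟨C', hC'⟩ := bdd u
      refine ⟨|C'| * C, mul_nonneg (abs_nonneg _) hC0, ?_⟩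
      filter_upwards [hC, hC'] with x h1 h2
      rw [List.map_cons, List.prod_cons, abs_mul]
      exact mul_le_mul (h2.trans (le_abs_self _)) h1 (abs_nonneg _) (abs_nonneg _)
  obtain ⟨C, -, hC⟩ := key
  exact Integrable.of_bound ((measurable_mon v).comp mT).aestronglyMeasurable C
    (by simpa only [Real.norm_eq_abs] using hC)

theorem XEv.mom (h : XEv μ X T) : Mom (nuA μ X T) := by
  have h1 : ((μ X)⁻¹ • μ.restrict X) univ = 1 := by
    rw [Measure.smul_apply, Measure.restrict_apply_univ, smul_eq_mul,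
      ENNReal.inv_mul_cancel h.pos h.fin]
  refine ⟨⟨?_⟩, fun v => ?_⟩
  · rw [nuA, Measure.map_apply h.mT MeasurableSet.univ, preimage_univ, h1]
  · rw [nuA, integrable_map_measure (measurable_mon v).aestronglyMeasurable h.mT.aemeasurable]
    exact (h.int_pol (Q := fun _ => True) (Pol.mon v)).smul_measure (ENNReal.inv_ne_top.2 h.pos)

theorem XEv.integral (h : XEv μ X T) {A : Om → ℝ} (hA : Measurable A) :
    ∫ ω, A ω ∂(nuA μ X T) = (μ.real X)⁻¹ * ∫ x in X, A (T x) ∂μ := by
  rw [nuA, integral_map h.mT.aemeasurable hA.aestronglyMeasurable, integral_smul_measure,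
    smul_eq_mul, ENNReal.toReal_inv]
  rfl

/-- **The sandwich**, abstract form. -/
theorem XEv.sand (h : XEv μ X T) {Z : Set Ω} (hZ : MeasurableSet Z) {Q : ℝ → Prop} {A : Om → ℝ}
    (hA : Pol Q A) {z₁ z₂ η C : ℝ} (hz₂ : 0 ≤ z₂) (hη : 0 ≤ η) (hC : 0 ≤ C)
    (hlow : z₁ * μ.real X ≤ ∫ x in X, A (T x) ∂μ)
    (hup : ∫ x in X ∩ Z, A (T x) ∂μ ≤ z₂ * μ.real (X ∩ Z))
    (hgap : μ.real (X \ Z) ≤ η ^ 2 * μ.real X)
    (hmom : ∫ x in X, A (T x) ^ 2 ∂μ ≤ C ^ 2 * μ.real X) :
    z₁ ≤ ∫ ω, A ω ∂(nuA μ X T) ∧ ∫ ω, A ω ∂(nuA μ X T) ≤ z₂ + η * C := by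
  have hX := h.real_pos
  have hfin := h.isFinite
  rw [h.integral (measurable_pol hA)]
  have i1 := h.int_pol hA
  have i2 := h.int_pol (hA.alg.pow 2)
  constructor
  · rw [inv_mul_eq_div, le_div_iff₀ hX]
    exact hlow
  · rw [inv_mul_eq_div, div_le_iff₀ hX]
    -- Cauchy-Schwarz on `X \ Z`
    have hsub : X \ Z ⊆ X := sdiff_subset
    have i1' : IntegrableOn (fun x => A (T x)) X μ := i1
    have i2' : IntegrableOn (fun x => A (T x) ^ 2) X μ := i2
    have e1 : ∫ x in X, A (T x) ∂μ = ∫ x in X ∩ Z, A (T x) ∂μ + ∫ x in X \ Z, A (T x) ∂μ :=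
      (integral_inter_add_sdiff hZ i1').symm
    have hD : ∫ x in X \ Z, A (T x) ∂μ ≤ η * C * μ.real X := by
      have hmeas : MeasurableSet (X \ Z) := h.mX.diff hZ
      have hDfin : μ (X \ Z) ≠ ⊤ := ne_top_of_le_ne_top h.fin (measure_mono hsub)
      have key : ∀ s : ℝ, 0 < s → ∫ x in X \ Z, A (T x) ∂μ ≤
          (s * (C ^ 2 * μ.real X) + s⁻¹ * (η ^ 2 * μ.real X)) / 2 := by
        intro s hs
        have j1 : IntegrableOn (fun x => A (T x)) (X \ Z) μ := i1'.mono_set hsub
        have j2 : IntegrableOn (fun x => A (T x) ^ 2) (X \ Z) μ := i2'.mono_set hsub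
        have hcst : IntegrableOn (fun _ : Ω => s⁻¹ / 2) (X \ Z) μ :=
          integrableOn_const hDfin
        have h1 : ∫ x in X \ Z, A (T x) ∂μ ≤ ∫ x in X \ Z, (s / 2 * A (T x) ^ 2 + s⁻¹ / 2) ∂μ := by
          refine integral_mono j1 ((j2.const_mul _).add hcst) fun x => ?_
          have h3 : 0 ≤ s / 2 * (A (T x) - s⁻¹) ^ 2 := by positivity
          have h4 : s / 2 * (A (T x) - s⁻¹) ^ 2 =
              s / 2 * A (T x) ^ 2 - A (T x) + s⁻¹ / 2 := by
            field_simp
            ring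
          simp only []
          linarith
        have h2 : ∫ x in X \ Z, (s / 2 * A (T x) ^ 2 + s⁻¹ / 2) ∂μ =
            s / 2 * ∫ x in X \ Z, A (T x) ^ 2 ∂μ + s⁻¹ / 2 * μ.real (X \ Z) := by
          rw [integral_add (j2.const_mul _) hcst, integral_const_mul, setIntegral_const,
            smul_eq_mul]
          ring
        have h3 : ∫ x in X \ Z, A (T x) ^ 2 ∂μ ≤ ∫ x in X, A (T x) ^ 2 ∂μ :=
          setIntegral_mono_set i2' (ae_of_all _ fun x => sq_nonneg _) hsub.eventuallyLE
        rw [h2] at h1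
        have hs' : 0 < s⁻¹ := inv_pos.2 hs
        nlinarith [h1, h3, hmom, hgap]
      rcases eq_or_lt_of_le hC with hC0 | hC0
      · -- `C = 0`
        subst hC0
        rw [mul_zero, zero_mul]
        refine le_of_forall_pos_le_add fun ε hε => ?_
        have h5 := key ((η ^ 2 * μ.real X + 1) / ε) (by positivity)
        have h6 : ((η ^ 2 * μ.real X + 1) / ε)⁻¹ * (η ^ 2 * μ.real X) ≤ ε := by
          rw [inv_div, div_mul_eq_mul_div, div_le_iff₀ (by positivity)]
          nlinarith
        have h7 : (0 : ℝ) ^ 2 * μ.real X = 0 := by ring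
        rw [h7, mul_zero, zero_add] at h5
        linarith
      rcases eq_or_lt_of_le hη with hη0 | hη0
      · subst hη0
        rw [zero_mul, zero_mul]
        refine le_of_forall_pos_le_add fun ε hε => ?_
        have h5 := key (ε / (C ^ 2 * μ.real X + 1)) (by positivity)
        have h6 : ε / (C ^ 2 * μ.real X + 1) * (C ^ 2 * μ.real X) ≤ ε := by
          rw [div_mul_eq_mul_div, div_le_iff₀ (by positivity)]
          nlinarith
        have h7 : (0 : ℝ) ^ 2 * μ.real X = 0 := by ring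
        rw [h7, mul_zero, add_zero] at h5
        linarith
      · have h5 := key (η / C) (by positivity)
        have h6 : (η / C * (C ^ 2 * μ.real X) + (η / C)⁻¹ * (η ^ 2 * μ.real X)) / 2 =
            η * C * μ.real X := by
          field_simp
          ring
        rwa [h6] at h5
    have hle : μ.real (X ∩ Z) ≤ μ.real X := measureReal_mono inter_subset_left h.fin
    have h8 := mul_le_mul_of_nonneg_left hle hz₂
    rw [e1, add_mul]
    linarith

/-- LOW for the cone, from LOW for the monomials. -/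
theorem XEv.low_cone (h : XEv μ X T) {ρ : Measure Om} (hρ : Mom ρ)
    (hl : ∀ v : List (ℤ × ℤ), (∫ ω, (v.map ω).prod ∂ρ) * μ.real X ≤
      ∫ x in X, (v.map (T x)).prod ∂μ) {A : Om → ℝ} (hA : Cone A) :
    (∫ ω, A ω ∂ρ) * μ.real X ≤ ∫ x in X, A (T x) ∂μ := by
  induction hA with
  | mon v => exact hl v
  | zero => simp
  | add h1 h2 i1 i2 =>
    rw [integral_add (hρ.integrable h1) (hρ.integrable h2),
      integral_add (h.int_pol h1) (h.int_pol h2), add_mul]
    exact add_le_add i1 i2
  | smul c hc _ i1 =>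
    rw [integral_const_mul, integral_const_mul, mul_assoc]
    exact mul_le_mul_of_nonneg_left i1 hc

/-- UP for the cone, from UP for the monomials. -/
theorem XEv.up_cone (h : XEv μ X T) {ρ : Measure Om} (hρ : Mom ρ) {Z : Set Ω}
    (hl : ∀ v : List (ℤ × ℤ), ∫ x in X ∩ Z, (v.map (T x)).prod ∂μ ≤
      (∫ ω, (v.map ω).prod ∂ρ) * μ.real (X ∩ Z)) {A : Om → ℝ} (hA : Cone A) :
    ∫ x in X ∩ Z, A (T x) ∂μ ≤ (∫ ω, A ω ∂ρ) * μ.real (X ∩ Z) := by
  have hi : ∀ {B : Om → ℝ}, Cone B → Integrable (fun x => B (T x)) (μ.restrict (X ∩ Z)) :=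
    fun hB => (h.int_pol hB).mono_measure (Measure.restrict_mono inter_subset_left le_rfl)
  induction hA with
  | mon v => exact hl v
  | zero => simp
  | add h1 h2 i1 i2 =>
    rw [integral_add (hρ.integrable h1) (hρ.integrable h2),
      integral_add (hi h1) (hi h2), add_mul]
    exact add_le_add i1 i2
  | smul c hc _ i1 =>
    rw [integral_const_mul, integral_const_mul, mul_assoc]
    exact mul_le_mul_of_nonneg_left i1 hc

end abs

section conc

/-- Products of nonnegative linear functionals are in the cone. -/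
theorem cone_hvl {δ : ℝ} (hδ : 0 < δ) {D : Set (ℝ × ℝ)} (hb : Bornology.IsBounded D)
    {l : List (ℝ × ℝ → ℝ)} (hl : ∀ f ∈ l, TestOn D f ∧ ∀ z, 0 ≤ f z) : Cone (hvl δ l) := by
  obtain ⟨R, hR⟩ := hb.subset_ball (0 : ℝ × ℝ)
  obtain ⟨B, hB⟩ := hv_eq_hB (R := R) hδ
  refine (cone_hl (B := B) (δ := δ) l fun f hf => (hl f hf).2).of_eq fun ω => ?_
  unfold hvl Top.hl
  congr 1
  refine List.map_congr_left fun f hf => (hB f (fun z hz => ?_) ω).symm
  exact hR ((hl f hf).1.2.2 (subset_tsupport _ hz))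

theorem hvl_append (δ : ℝ) (l l' : List (ℝ × ℝ → ℝ)) (ω : Om) :
    hvl δ (l ++ l') ω = hvl δ l ω * hvl δ l' ω := by
  unfold hvl
  rw [List.map_append, List.prod_append]

end conc

end Vale.Agent.P153.F.X
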