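import Vale.Agent.P153.F.X.FrA
import Vale.Agent.P153.F.X.SandX

/-!
P153-F, X-level (mirror of `P145.X.NuX`): the measure `nuX`.
-/

namespace Vale.Agent.P153.F.X.Sb

open Filter Topology Set MeasureTheory
open Vale.Agent.P153
open Vale.Agent.P153.F.Top (Om Cone Alg Pol Mom EE hv hvl ze dp)
open Vale.Agent.P145.PT (TestOn)

/-- The law of the heights of the vertices given the event `Q(bl)`. -/
noncomputable def nuX (P : Measure (Pt → ℤ)) (Q : Set Pt → Prop) : Measure Om :=
  nuA (muT P) {h : Hg | Q (bl h)} vm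

variable {P : Measure (Pt → ℤ)} {Q : Set Pt → Prop}

theorem ind_one {B : Set Pt} (h : Q B) : ind Q B = 1 := if_pos h

theorem ind_zero {B : Set Pt} (h : ¬ Q B) : ind Q B = 0 := if_neg h

theorem ind_ne {B : Set Pt} : ind Q B ≠ 0 ↔ Q B := by
  by_cases h : Q B
  · simp [ind_one h, h]
  · simp [ind_zero h, h]

theorem ind_nonneg (B : Set Pt) : 0 ≤ ind Q B := by
  by_cases h : Q B
  · rw [ind_one h]; norm_num
  · rw [ind_zero h]

theorem ind_congr {B B' : Set Pt} (h : ind Q B = ind Q B') (hB : Q B) : Q B' := by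
  refine ind_ne.1 ?_
  rw [← h]
  exact ind_ne.2 hB

theorem locS_mono {A A' : Set Pt} {g : Set Pt → ℝ} (h : LocS A g) (hA : A ⊆ A') : LocS A' g := by
  obtain ⟨Λ, h1, h2⟩ := h
  exact ⟨Λ, fun w hw => hA (h1 w hw), h2⟩

/-- Events which depend on finitely many edges are measurable. -/
theorem measQ (h : LocS univ (ind Q)) : MeasurableSet {h : Hg | Q (bl h)} :=
  (locP_iff.2 h).meas

theorem measurable_vm : Measurable vm := by
  refine measurable_pi_lambda _ fun v => ?_
  exact (measurable_of_countable (fun z : ℤ => (z : ℝ))).comp (measurable_pi_apply v)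

theorem ind_mul_eq (A : Om → ℝ) : (fun x : Hg => ind Q (bl x) * A (vm x)) =
    {x : Hg | Q (bl x)}.indicator fun x => A (vm x) := by
  funext x
  by_cases h : Q (bl x)
  · rw [ind_one h, one_mul, Set.indicator_of_mem (show x ∈ {x : Hg | Q (bl x)} from h)]
  · rw [ind_zero h, zero_mul,
      Set.indicator_of_notMem (show x ∉ {x : Hg | Q (bl x)} from h)]

theorem II_ind (h : LocS univ (ind Q)) (A : Om → ℝ) :
    II P (ind Q) A = ∫ x in {x : Hg | Q (bl x)}, A (vm x) ∂(muT P) := by
  unfold II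
  rw [ind_mul_eq, integral_indicator (measQ h)]

theorem II_ind_one (h : LocS univ (ind Q)) :
    II P (ind Q) (fun _ => 1) = (muT P).real {x : Hg | Q (bl x)} := by
  rw [II_ind h, setIntegral_const, smul_eq_mul, mul_one]

theorem int_ind (hint : S_int P) (h : LocS univ (ind Q)) (h0 : ind Q ∅ = 0) {A : Om → ℝ}
    (hA : Alg A) : IntegrableOn (fun x => A (vm x)) {x : Hg | Q (bl x)} (muT P) := by
  have h1 := hint (ind Q) A h h0 hA
  rw [ind_mul_eq, integrable_indicator_iff (measQ h)] at h1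
  exact h1

theorem meas_fin (hint : S_int P) (h : LocS univ (ind Q)) (h0 : ind Q ∅ = 0) :
    muT P {x : Hg | Q (bl x)} ≠ ⊤ := by
  have h1 := int_ind hint h h0 (A := fun _ => 1) Pol.one
  have h2 : IntegrableOn (fun _ : Hg => (1 : ℝ)) {x : Hg | Q (bl x)} (muT P) := h1
  rw [integrableOn_const_iff] at h2
  rcases h2 with h2 | h2
  · exact absurd h2 (by simp)
  · exact h2.ne

/-- The event as an `XEv`. -/
theorem xevQ (hint : S_int P) (h : LocS univ (ind Q)) (h0 : ind Q ∅ = 0)
    (hpos : 0 < II P (ind Q) fun _ => 1) :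
    XEv (muT P) {x : Hg | Q (bl x)} vm := by
  refine ⟨measurable_vm, measQ h, ?_, meas_fin hint h h0, fun v => ?_⟩
  · intro h1
    rw [II_ind_one h, Measure.real, h1, ENNReal.toReal_zero] at hpos
    exact lt_irrefl _ hpos
  · exact int_ind hint h h0 (Pol.mon (P := fun _ => True) v)

theorem nuX_mom (hint : S_int P) (h : LocS univ (ind Q)) (h0 : ind Q ∅ = 0)
    (hpos : 0 < II P (ind Q) fun _ => 1) : Mom (nuX P Q) := by
  exact (xevQ hint h h0 hpos).mom

theorem nuX_int (hint : S_int P) (h : LocS univ (ind Q)) (h0 : ind Q ∅ = 0)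
    (hpos : 0 < II P (ind Q) fun _ => 1) {A : Om → ℝ} (hA : Alg A) :
    ∫ ω, A ω ∂(nuX P Q) = II P (ind Q) A / II P (ind Q) fun _ => 1 := by
  rw [nuX, (xevQ hint h h0 hpos).integral (measurable_pol hA), II_ind h,
    II_ind_one h, inv_mul_eq_div]

/-- The same for measurable functions. -/
theorem nuX_int' (hint : S_int P) (h : LocS univ (ind Q)) (h0 : ind Q ∅ = 0)
    (hpos : 0 < II P (ind Q) fun _ => 1) {A : Om → ℝ} (hA : Measurable A) :
    ∫ ω, A ω ∂(nuX P Q) = II P (ind Q) A / II P (ind Q) fun _ => 1 := by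
  rw [nuX, (xevQ hint h h0 hpos).integral hA, II_ind h, II_ind_one h, inv_mul_eq_div]

end Vale.Agent.P153.F.X.Sb
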