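import Vale.Agent.P153.F.X.SdDef
import Vale.Agent.P145.X.Pin

/-!
P153-F, X-level (mirror of `P145.X.Pin`): the three outer regions of the pinwheel of a triangle, and
the partition of a test function along the corridors.
-/

set_option autoImplicit false

namespace Vale.Agent.P153.F.X

open Filter Topology Set MeasureTheory
open Vale.Agent.P145.PT Vale.Agent.P153.F.Top
open Vale.Agent.P145.X (T T_nonneg T_le T_zero T_one T_pos T_sm mul_T_le line_null)

/-- The four cutoffs. -/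
noncomputable def k0 (a b c e : ℝ) (z : ℝ × ℝ) : ℝ :=
  T ((c1 z - a) / e - 1) * T ((c - (c1 z + c2 z)) / e - 1) * T ((c2 z - b) / e - 1)
noncomputable def k1 (a e : ℝ) (z : ℝ × ℝ) : ℝ := T ((a - c1 z) / e - 1)
noncomputable def k2 (a c e : ℝ) (z : ℝ × ℝ) : ℝ :=
  T ((c1 z - a) / e) * T ((c1 z + c2 z - c) / e - 1)
noncomputable def k3 (a b c e : ℝ) (z : ℝ × ℝ) : ℝ :=
  T ((b - c2 z) / e - 1) * (T ((c1 z - a) / e) * T ((c - (c1 z + c2 z)) / e))

/-- The outer cutoff. -/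
noncomputable def kp (a b c e : ℝ) (z : ℝ × ℝ) : ℝ :=
  k1 a e z + k2 a c e z + k3 a b c e z

theorem sm_c1 : ContDiff ℝ ((⊤ : ℕ∞) : WithTop ℕ∞) c1 := by
  unfold c1; fun_prop

theorem sm_c2 : ContDiff ℝ ((⊤ : ℕ∞) : WithTop ℕ∞) c2 := by
  unfold c2; fun_prop

theorem sm_k0 (a b c e : ℝ) : Sm (k0 a b c e) := by
  have h := T_sm
  have h1 := sm_c1
  have h2 := sm_c2
  unfold Sm k0
  have e1 : ContDiff ℝ ((⊤ : ℕ∞) : WithTop ℕ∞) (fun z : ℝ × ℝ => (c1 z - a) / e - 1) := by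
    fun_prop
  have e2 : ContDiff ℝ ((⊤ : ℕ∞) : WithTop ℕ∞)
      (fun z : ℝ × ℝ => (c - (c1 z + c2 z)) / e - 1) := by fun_prop
  have e3 : ContDiff ℝ ((⊤ : ℕ∞) : WithTop ℕ∞) (fun z : ℝ × ℝ => (c2 z - b) / e - 1) := by
    fun_prop
  exact ((h.comp e1).mul (h.comp e2)).mul (h.comp e3)

theorem sm_kp (a b c e : ℝ) : Sm (kp a b c e) := by
  have h := T_sm
  have h1 := sm_c1
  have h2 := sm_c2
  unfold Sm kp k1 k2 k3
  have e1 : ContDiff ℝ ((⊤ : ℕ∞) : WithTop ℕ∞) (fun z : ℝ × ℝ => (a - c1 z) / e - 1) := by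
    fun_prop
  have e2 : ContDiff ℝ ((⊤ : ℕ∞) : WithTop ℕ∞) (fun z : ℝ × ℝ => (c1 z - a) / e) := by
    fun_prop
  have e3 : ContDiff ℝ ((⊤ : ℕ∞) : WithTop ℕ∞)
      (fun z : ℝ × ℝ => (c1 z + c2 z - c) / e - 1) := by fun_prop
  have e4 : ContDiff ℝ ((⊤ : ℕ∞) : WithTop ℕ∞) (fun z : ℝ × ℝ => (b - c2 z) / e - 1) := by
    fun_prop
  have e5 : ContDiff ℝ ((⊤ : ℕ∞) : WithTop ℕ∞)
      (fun z : ℝ × ℝ => (c - (c1 z + c2 z)) / e) := by fun_prop
  exact ((h.comp e1).add ((h.comp e2).mul (h.comp e3))).add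
    ((h.comp e4).mul ((h.comp e2).mul (h.comp e5)))

section
variable {a b c e : ℝ}

theorem k0_nonneg (z : ℝ × ℝ) : 0 ≤ k0 a b c e z :=
  mul_nonneg (mul_nonneg (T_nonneg _) (T_nonneg _)) (T_nonneg _)
theorem k1_nonneg (z : ℝ × ℝ) : 0 ≤ k1 a e z := T_nonneg _
theorem k2_nonneg (z : ℝ × ℝ) : 0 ≤ k2 a c e z := mul_nonneg (T_nonneg _) (T_nonneg _)
theorem k3_nonneg (z : ℝ × ℝ) : 0 ≤ k3 a b c e z :=
  mul_nonneg (T_nonneg _) (mul_nonneg (T_nonneg _) (T_nonneg _))
theorem kp_nonneg (z : ℝ × ℝ) : 0 ≤ kp a b c e z :=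
  add_nonneg (add_nonneg (k1_nonneg z) (k2_nonneg z)) (k3_nonneg z)

theorem k0_le (z : ℝ × ℝ) : k0 a b c e z ≤ 1 :=
  mul_T_le (mul_nonneg (T_nonneg _) (T_nonneg _)) (mul_T_le (T_nonneg _) (T_le _) (T_nonneg _)
    (T_le _)) (T_nonneg _) (T_le _)

theorem pos_of_k0 (he : 0 < e) {z : ℝ × ℝ} (h : k0 a b c e z ≠ 0) :
    a + e < c1 z ∧ b + e < c2 z ∧ c1 z + c2 z < c - e := by
  unfold k0 at h
  have h1 := T_pos (left_ne_zero_of_mul (left_ne_zero_of_mul h))
  have h2 := T_pos (right_ne_zero_of_mul (left_ne_zero_of_mul h))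
  have h3 := T_pos (right_ne_zero_of_mul h)
  rw [sub_pos, lt_div_iff₀ he] at h1 h2 h3
  refine ⟨?_, ?_, ?_⟩ <;> linarith

theorem pos_of_k1 (he : 0 < e) {z : ℝ × ℝ} (h : k1 a e z ≠ 0) : c1 z < a - e := by
  have h1 := T_pos h
  rw [sub_pos, lt_div_iff₀ he] at h1
  linarith

theorem pos_of_k2 (he : 0 < e) {z : ℝ × ℝ} (h : k2 a c e z ≠ 0) :
    a < c1 z ∧ c + e < c1 z + c2 z := by
  unfold k2 at h
  have h1 := T_pos (left_ne_zero_of_mul h)
  have h2 := T_pos (right_ne_zero_of_mul h)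
  rw [lt_div_iff₀ he] at h1
  rw [sub_pos, lt_div_iff₀ he] at h2
  refine ⟨?_, ?_⟩ <;> linarith

theorem pos_of_k3 (he : 0 < e) {z : ℝ × ℝ} (h : k3 a b c e z ≠ 0) :
    c2 z < b - e ∧ a < c1 z ∧ c1 z + c2 z < c := by
  unfold k3 at h
  have h1 := T_pos (left_ne_zero_of_mul h)
  have h2 := T_pos (left_ne_zero_of_mul (right_ne_zero_of_mul h))
  have h3 := T_pos (right_ne_zero_of_mul (right_ne_zero_of_mul h))
  rw [sub_pos, lt_div_iff₀ he] at h1
  rw [lt_div_iff₀ he] at h2 h3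
  refine ⟨?_, ?_, ?_⟩ <;> linarith

theorem kp_pin (he : 0 < e) {z : ℝ × ℝ} (h : kp a b c e z ≠ 0) : z ∈ Pin a b c e := by
  unfold kp at h
  by_cases h1 : k1 a e z = 0
  · by_cases h2 : k2 a c e z = 0
    · have h3 : k3 a b c e z ≠ 0 := by
        intro h3
        exact h (by rw [h1, h2, h3]; norm_num)
      obtain ⟨q1, q2, q3⟩ := pos_of_k3 he h3
      exact Or.inr (Or.inr ⟨q2.le, q3.le, q1.le⟩)
    · obtain ⟨q1, q2⟩ := pos_of_k2 he h2
      exact Or.inr (Or.inl ⟨q1.le, q2.le⟩)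
  · exact Or.inl (pos_of_k1 he h1).le

/-- The sum of the cutoffs. -/
theorem k_sum (he : 0 < e) (z : ℝ × ℝ) : k0 a b c e z + kp a b c e z ≤ 1 := by
  set s : ℝ := c1 z with hs
  set d : ℝ := c2 z with hd
  have n0 : ¬ (a + e < s ∧ b + e < d ∧ s + d < c - e) → k0 a b c e z = 0 := by
    intro h; by_contra h0; exact h (pos_of_k0 he h0)
  have n1 : ¬ (s < a - e) → k1 a e z = 0 := by
    intro h; by_contra h0; exact h (pos_of_k1 he h0)
  have n2 : ¬ (a < s ∧ c + e < s + d) → k2 a c e z = 0 := by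
    intro h; by_contra h0; exact h (pos_of_k2 he h0)
  have n3 : ¬ (d < b - e ∧ a < s ∧ s + d < c) → k3 a b c e z = 0 := by
    intro h; by_contra h0; exact h (pos_of_k3 he h0)
  have l1 : k1 a e z ≤ 1 := T_le _
  have l2 : k2 a c e z ≤ 1 := mul_T_le (T_nonneg _) (T_le _) (T_nonneg _) (T_le _)
  have l3 : k3 a b c e z ≤ 1 := mul_T_le (T_nonneg _) (T_le _) (mul_nonneg (T_nonneg _)
    (T_nonneg _)) (mul_T_le (T_nonneg _) (T_le _) (T_nonneg _) (T_le _))
  have l0 : k0 a b c e z ≤ 1 := k0_le z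
  unfold kp
  rcases le_or_gt s a with h1 | h1
  · rw [n0 (by intro h; linarith [h.1]), n2 (by intro h; linarith [h.1]),
      n3 (by intro h; linarith [h.2.1])]
    linarith
  · rw [n1 (by intro h; linarith)]
    rcases le_or_gt c (s + d) with h2 | h2
    · rw [n0 (by intro h; linarith [h.2.2]), n3 (by intro h; linarith [h.2.2])]
      linarith
    · rw [n2 (by intro h; linarith [h.2])]
      rcases le_or_gt d b with h4 | h4
      · rw [n0 (by intro h; linarith [h.2.1])]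
        linarith
      · rw [n3 (by intro h; linarith [h.1])]
        linarith

end

/-- Off the lines the sum of the cutoffs is eventually one. -/
theorem k_sum_one {a b c : ℝ} {z : ℝ × ℝ}
    (h1 : c1 z ≠ a) (h2 : c2 z ≠ b) (h3 : c1 z + c2 z ≠ c) :
    ∀ᶠ e : ℝ in 𝓝[>] 0, k0 a b c e z + kp a b c e z = 1 := by
  set s : ℝ := c1 z with hs
  set d : ℝ := c2 z with hd
  have key : ∀ x : ℝ, 0 < x → ∀ᶠ e : ℝ in 𝓝[>] 0, T (x / e - 1) = 1 ∧ T (x / e) = 1 := by
    intro x hx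
    have : ∀ᶠ e : ℝ in 𝓝[>] 0, e < x / 2 :=
      nhdsWithin_le_nhds (eventually_lt_nhds (half_pos hx))
    filter_upwards [this, self_mem_nhdsWithin] with e he he0
    have he0' : (0 : ℝ) < e := he0
    have h5 : 2 ≤ x / e := by rw [le_div_iff₀ he0']; linarith
    exact ⟨T_one (by linarith), T_one (by linarith)⟩
  have key' : ∀ x : ℝ, x < 0 → ∀ᶠ e : ℝ in 𝓝[>] 0, T (x / e - 1) = 0 ∧ T (x / e) = 0 := by
    intro x hx
    filter_upwards [self_mem_nhdsWithin] with e he0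
    have he0' : (0 : ℝ) < e := he0
    have h5 : x / e < 0 := div_neg_of_neg_of_pos hx he0'
    exact ⟨T_zero (by linarith), T_zero h5.le⟩
  have both : ∀ x : ℝ, x ≠ 0 → ∀ᶠ e : ℝ in 𝓝[>] 0,
      (0 < x → T (x / e - 1) = 1 ∧ T (x / e) = 1) ∧ (x < 0 → T (x / e - 1) = 0 ∧ T (x / e) = 0) := by
    intro x hx
    rcases lt_or_gt_of_ne hx with h | h
    · filter_upwards [key' x h] with e he
      exact ⟨fun h' => absurd h' (not_lt.2 h.le), fun _ => he⟩
    · filter_upwards [key x h] with e he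
      exact ⟨fun _ => he, fun h' => absurd h' (not_lt.2 h.le)⟩
  filter_upwards [both (s - a) (sub_ne_zero.2 h1), both (a - s) (sub_ne_zero.2 h1.symm),
    both (c - (s + d)) (sub_ne_zero.2 h3.symm), both (s + d - c) (sub_ne_zero.2 h3),
    both (d - b) (sub_ne_zero.2 h2), both (b - d) (sub_ne_zero.2 h2.symm)]
    with e q1 q2 q3 q4 q5 q6
  unfold kp k0 k1 k2 k3
  rw [← hs, ← hd]
  rcases lt_or_gt_of_ne h1 with c1 | c1
  · rw [(q1.2 (by linarith)).1, (q1.2 (by linarith)).2, (q2.1 (by linarith)).1]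
    ring
  · rcases lt_or_gt_of_ne h3 with c3 | c3
    · rcases lt_or_gt_of_ne h2 with c2 | c2
      · rw [(q1.1 (by linarith)).1, (q1.1 (by linarith)).2, (q2.2 (by linarith)).1,
          (q3.1 (by linarith)).1, (q3.1 (by linarith)).2, (q4.2 (by linarith)).1,
          (q5.2 (by linarith)).1, (q6.1 (by linarith)).1]
        ring
      · rw [(q1.1 (by linarith)).1, (q1.1 (by linarith)).2, (q2.2 (by linarith)).1,
          (q3.1 (by linarith)).1, (q3.1 (by linarith)).2, (q4.2 (by linarith)).1,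
          (q5.1 (by linarith)).1, (q6.2 (by linarith)).1]
        ring
    · rw [(q1.1 (by linarith)).2, (q2.2 (by linarith)).1,
        (q3.2 (by linarith)).1, (q3.2 (by linarith)).2, (q4.1 (by linarith)).1]
      ring

theorem lines_null (a b c : ℝ) : ∀ᵐ z : ℝ × ℝ, c1 z ≠ a ∧ c2 z ≠ b ∧ c1 z + c2 z ≠ c := by
  have h3 : (0 : ℝ) < √3 := by positivity
  have h1 := line_null c1 (by unfold c1; fun_prop) (fun x y y' h => by
    simp only [c1] at h
    have : y / √3 = y' / √3 := by linarith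
    exact (div_left_inj' h3.ne').1 this) a
  have h2 := line_null c2 (by unfold c2; fun_prop) (fun x y y' h => by
    simp only [c2] at h
    have := (div_left_inj' h3.ne').1 h
    linarith) b
  have h4 := line_null (fun z => c1 z + c2 z) (by unfold c1 c2; fun_prop) (fun x y y' h => by
    simp only [c1, c2] at h
    have : y / √3 = y' / √3 := by
      have e1 : 2 * y / √3 = 2 * (y / √3) := by ring
      have e2 : 2 * y' / √3 = 2 * (y' / √3) := by ring
      rw [e1, e2] at h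
      linarith
    exact (div_left_inj' h3.ne').1 this) c
  filter_upwards [h1, h2, h4] with z q1 q2 q3
  exact ⟨q1, q2, q3⟩

/-- **partition along the corridors** -/
theorem exists_pin {D : Set (ℝ × ℝ)} {f : ℝ × ℝ → ℝ} (hf : TestOn D f) (hf0 : ∀ z, 0 ≤ f z)
    (a b c : ℝ) {ρ : ℝ} (hρ : 0 < ρ) :
    ∃ e : ℝ, 0 < e ∧ ∃ f0 g : ℝ × ℝ → ℝ, TestOn (cell a b c) f0 ∧ TestOn D f0 ∧ TestOn D g ∧
      (∀ z, 0 ≤ f0 z) ∧ (∀ z, 0 ≤ g z) ∧ (∀ z, g z ≠ 0 → z ∈ Pin a b c e) ∧
      (∀ z, f0 z + g z ≤ f z) ∧ (∫ z, (f z - (f0 z + g z)) ^ 2) ≤ ρ ∧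
      (∫ z, (f z - (f0 z + g z))) ≤ ρ := by
  set F : ℝ → ℝ × ℝ → ℝ := fun e z => k0 a b c e z + kp a b c e z with hF
  have hF0 : ∀ e z, 0 ≤ F e z := fun e z => add_nonneg (k0_nonneg z) (kp_nonneg z)
  have hlim : ∀ᵐ z : ℝ × ℝ, Tendsto (fun e => f z - F e z * f z) (𝓝[>] 0) (𝓝 0) := by
    filter_upwards [lines_null a b c] with z hz
    refine Tendsto.congr' ?_ tendsto_const_nhds
    filter_upwards [k_sum_one hz.1 hz.2.1 hz.2.2] with e he
    simp only [hF]
    rw [he]; ring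
  have hFc : ∀ e, Continuous (F e) := fun e =>
    (sm_k0 a b c e).continuous.add (sm_kp a b c e).continuous
  have hbd : ∀ e, 0 < e → ∀ z, 0 ≤ f z - F e z * f z ∧ f z - F e z * f z ≤ f z := by
    intro e he z
    have h1 := k_sum (a := a) (b := b) (c := c) he z
    have h2 := hF0 e z
    have h3 := hf0 z
    constructor
    · have : F e z * f z ≤ 1 * f z := mul_le_mul_of_nonneg_right h1 h3
      linarith
    · have : 0 ≤ F e z * f z := mul_nonneg h2 h3
      linarith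
  have L1 : Tendsto (fun e => ∫ z, (f z - F e z * f z)) (𝓝[>] 0) (𝓝 0) := by
    have h := tendsto_integral_filter_of_dominated_convergence (μ := volume)
      (F := fun e z => f z - F e z * f z) (f := fun _ => (0 : ℝ)) (l := 𝓝[>] (0 : ℝ))
      (bound := f) ?_ ?_ hf.int hlim
    · simpa using h
    · exact Eventually.of_forall fun e =>
        (hf.cont.sub ((hFc e).mul hf.cont)).aestronglyMeasurable
    · filter_upwards [self_mem_nhdsWithin] with e he
      refine Eventually.of_forall fun z => ?_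
      have h1 := hbd e he z
      rw [Real.norm_eq_abs, abs_of_nonneg h1.1]
      exact h1.2
  have L2 : Tendsto (fun e => ∫ z, (f z - F e z * f z) ^ 2) (𝓝[>] 0) (𝓝 0) := by
    have hf2 : Integrable (fun z => f z ^ 2) := hf.intSq
    have h := tendsto_integral_filter_of_dominated_convergence (μ := volume)
      (F := fun e z => (f z - F e z * f z) ^ 2) (f := fun _ => (0 : ℝ)) (l := 𝓝[>] (0 : ℝ))
      (bound := fun z => f z ^ 2) ?_ ?_ hf2 ?_
    · simpa using h
    · exact Eventually.of_forall fun e =>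
        ((hf.cont.sub ((hFc e).mul hf.cont)).pow 2).aestronglyMeasurable
    · filter_upwards [self_mem_nhdsWithin] with e he
      refine Eventually.of_forall fun z => ?_
      have h1 := hbd e he z
      rw [Real.norm_eq_abs, abs_of_nonneg (sq_nonneg _)]
      exact pow_le_pow_left₀ h1.1 h1.2 2
    · filter_upwards [hlim] with z hz
      have := hz.pow 2
      simpa using this
  have hev := (L1.eventually (gt_mem_nhds hρ)).and (L2.eventually (gt_mem_nhds hρ))
  obtain ⟨e, ⟨e1, e2⟩, he⟩ := (hev.and self_mem_nhdsWithin).exists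
  have he0 : 0 < e := he
  refine ⟨e, he0, fun z => k0 a b c e z * f z, fun z => kp a b c e z * f z, ?_,
    hf.mulSm (sm_k0 _ _ _ _), hf.mulSm (sm_kp _ _ _ _),
    fun z => mul_nonneg (k0_nonneg z) (hf0 z), fun z => mul_nonneg (kp_nonneg z) (hf0 z),
    fun z hz => kp_pin he0 (left_ne_zero_of_mul hz), ?_, ?_, ?_⟩
  · refine ⟨(sm_k0 _ _ _ _).mul hf.1, hf.2.1.mul_left, ?_⟩
    have hcl : IsClosed {z : ℝ × ℝ | a + e ≤ c1 z ∧ b + e ≤ c2 z ∧ c1 z + c2 z ≤ c - e} := by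
      have q1 : Continuous c1 := sm_c1.continuous
      have q2 : Continuous c2 := sm_c2.continuous
      exact (isClosed_le continuous_const q1).inter ((isClosed_le continuous_const q2).inter
        (isClosed_le (q1.add q2) continuous_const))
    have hsub : tsupport (fun z => k0 a b c e z * f z) ⊆
        {z : ℝ × ℝ | a + e ≤ c1 z ∧ b + e ≤ c2 z ∧ c1 z + c2 z ≤ c - e} := by
      refine closure_minimal ?_ hcl
      intro z hz
      obtain ⟨q1, q2, q3⟩ := pos_of_k0 he0 (left_ne_zero_of_mul hz)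
      exact ⟨q1.le, q2.le, q3.le⟩
    intro z hz
    obtain ⟨q1, q2, q3⟩ := hsub hz
    exact ⟨by linarith, by linarith, by linarith⟩
  · intro z
    have h1 := k_sum (a := a) (b := b) (c := c) he0 z
    have h3 := hf0 z
    have h4 : (k0 a b c e z + kp a b c e z) * f z ≤ 1 * f z :=
      mul_le_mul_of_nonneg_right h1 h3
    linarith
  · refine le_trans (le_of_eq ?_) e2.le
    congr 1
    funext z
    simp only [hF]
    ring
  · refine le_trans (le_of_eq ?_) e1.le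
    congr 1
    funext z
    simp only [hF]
    ring

end Vale.Agent.P153.F.X
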