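import Vale.Agent.P153.F.RSW.ChainT
import Vale.Agent.P153.F.RSW.Inst

/-!
P153-F, X-level (mirror of `P145.X.PosAll`): nets of circuits of a set of midpoints, their levels,
and their probability.
-/

namespace Vale.Agent.P153.F.X.PosT

open MeasureTheory
open Vale.Agent.P153 Vale.Agent.P153.Topo
open Vale.Agent.P153.F.RSW

/-- The annuli of size `t` around the points `(a + i t, b + j t)`, `i, j ≤ N`. -/
def Net (t : ℤ) (N : ℕ) (a b : ℤ) (S : Set (ℤ × ℤ)) : Prop :=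
  ∀ i < N + 1, ∀ j < N + 1, Ann (a + i * t) (b + j * t) t S

theorem Net.mono {t : ℤ} {N : ℕ} {a b : ℤ} {S T : Set (ℤ × ℤ)} (h : Net t N a b S) (hST : S ⊆ T) :
    Net t N a b T := fun i hi j hj => (IL_Ann _ _ _).1 _ _ hST (h i hi j hj)

theorem BTp_swap (S : Set (ℤ × ℤ)) (a b c d : ℤ) :
    BTp a b c d {z | (z.2, z.1) ∈ S} ↔ LRp c d a b S := by
  have h := LRp_swap {z | (z.2, z.1) ∈ S} c d a b
  have e : {z : ℤ × ℤ | (z.2, z.1) ∈ {z : ℤ × ℤ | (z.2, z.1) ∈ S}} = S := by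
    ext z; rfl
  rw [e] at h
  exact h.symm

theorem Ann_swap {p q t : ℤ} {S : Set (ℤ × ℤ)} (h : Ann p q t S) :
    Ann q p t {z | (z.2, z.1) ∈ S} := by
  obtain ⟨h1, h2, h3, h4⟩ := h
  exact ⟨(LRp_swap S _ _ _ _).2 h4, (LRp_swap S _ _ _ _).2 h3, (BTp_swap S _ _ _ _).2 h2,
    (BTp_swap S _ _ _ _).2 h1⟩

theorem Net.swap {t : ℤ} {N : ℕ} {a b : ℤ} {S : Set (ℤ × ℤ)} (h : Net t N a b S) :
    Net t N b a {z | (z.2, z.1) ∈ S} := fun i hi j hj => Ann_swap (h j hj i hi)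

theorem BTp_mono' (a a' b b' c c' d d' : ℤ) (S : Set (ℤ × ℤ)) (h1 : c ≤ c') (h2 : c' ≤ d')
    (h3 : d' ≤ d) (h4 : a' ≤ a) (h5 : b ≤ b') (h : BTp a b c d S) : BTp a' b' c' d' S := by
  rw [← LRp_swap] at h ⊢
  exact LRp.mono' _ _ _ _ _ _ _ _ _ h1 h2 h3 h4 h5 h

/-- Long horizontal crossings in the strips of the net. -/
theorem Net.strip {t : ℤ} (ht : 0 < t) {N : ℕ} {a b : ℤ} {S : Set (ℤ × ℤ)} (h : Net t N a b S)
    {j : ℕ} (hj : j < N + 1) : ∀ m : ℕ, m < N + 1 →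
    LRp (a - 2 * t) (a + (m + 2) * t) (b + j * t + t) (b + j * t + 2 * t) S := by
  intro m
  induction m with
  | zero =>
    intro h0
    have h1 := (h 0 h0 j hj).1
    have e1 : a + ((0 : ℕ) : ℤ) * t - 2 * t = a - 2 * t := by push_cast; ring
    have e2 : a + ((0 : ℕ) : ℤ) * t + 2 * t = a + (((0 : ℕ) : ℤ) + 2) * t := by push_cast; ring
    rwa [e1, e2] at h1
  | succ m ih =>
    intro hm
    have h1 := ih (by omega)
    have h2 := (h (m + 1) hm j hj).1
    have h3 := (h m (by omega) j hj).2.2.2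
    have h4 : BTp (a + (m + 1 : ℕ) * t - 2 * t) (a + (m + 2) * t) (b + j * t + t)
        (b + j * t + 2 * t) S := by
      refine BTp_mono' _ _ _ _ _ _ _ _ S ?_ ?_ ?_ ?_ ?_ h3
      · nlinarith
      · nlinarith
      · exact le_rfl
      · push_cast; nlinarith
      · push_cast; nlinarith
    have h5 := LRp.chain' _ _ _ _ _ _ S (by push_cast; nlinarith) (by push_cast; nlinarith)
      (by push_cast; nlinarith) (by nlinarith) h1 h4 h2
    have e2 : a + ((m + 1 : ℕ) : ℤ) * t + 2 * t = a + (((m + 1 : ℕ) : ℤ) + 2) * t := by ring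
    rwa [e2] at h5

/-- Every parallelogram of width at least `2 t` in the box of the net is crossed. -/
theorem Net.lr {t : ℤ} (ht : 0 < t) {N : ℕ} {a b : ℤ} {S : Set (ℤ × ℤ)} (h : Net t N a b S)
    {A B C D : ℤ} (hA : a - 2 * t ≤ A) (hAB : A ≤ B) (hB : B ≤ a + (N + 2) * t)
    (hC : b + t ≤ C) (hCD : C + 2 * t ≤ D) (hD : D ≤ b + (N + 2) * t) : LRp A B C D S := by
  obtain ⟨k, hk1, hk2⟩ : ∃ k : ℤ, C ≤ b + (k + 1) * t ∧ b + (k + 1) * t < C + t := by
    refine ⟨-((b - C) / t) - 1, ?_, ?_⟩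
    · have h1 := Int.ediv_mul_le (b - C) ht.ne'
      have e : (-((b - C) / t) - 1 + 1) * t = -((b - C) / t * t) := by ring
      rw [e]; linarith
    · have h1 := Int.lt_ediv_add_one_mul_self (b - C) ht
      have e : (-((b - C) / t) - 1 + 1) * t = -(((b - C) / t + 1) * t) + t := by ring
      rw [e]; linarith
  have hk0 : 0 ≤ k := by
    by_contra hc
    have : (k + 1) * t ≤ 0 := mul_nonpos_of_nonpos_of_nonneg (by omega) ht.le
    linarith
  have hkN : k < N + 1 := by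
    by_contra hc
    have : ((N : ℤ) + 2) * t ≤ (k + 1) * t := mul_le_mul_of_nonneg_right (by omega) ht.le
    have h3 : (k + 1) * t + t ≤ (N + 2) * t := by linarith
    linarith
  obtain ⟨j, rfl⟩ := Int.eq_ofNat_of_zero_le hk0
  have h1 := h.strip ht (j := j) (by omega) N (by omega)
  refine LRp.mono' _ _ _ _ _ _ _ _ S hA hAB hB ?_ ?_ h1
  · linarith
  · linarith

theorem Net.bt {t : ℤ} (ht : 0 < t) {N : ℕ} {a b : ℤ} {S : Set (ℤ × ℤ)} (h : Net t N a b S)
    {A B C D : ℤ} (hA : a + t ≤ A) (hAB : A + 2 * t ≤ B) (hB : B ≤ a + (N + 2) * t)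
    (hC : b - 2 * t ≤ C) (hCD : C ≤ D) (hD : D ≤ b + (N + 2) * t) : BTp A B C D S :=
  (LRp_swap S C D A B).1 (h.swap.lr ht hC hCD hD hA hAB hB)

/-- A net contains all coarser annuli. -/
theorem Net.ann {t : ℤ} (ht : 0 < t) {N : ℕ} {a b : ℤ} {S : Set (ℤ × ℤ)} (h : Net t N a b S)
    {p q r : ℤ} (hr : 2 * t ≤ r) (h1 : a + t ≤ p - 2 * r) (h2 : p + 2 * r ≤ a + (N + 2) * t)
    (h3 : b + t ≤ q - 2 * r) (h4 : q + 2 * r ≤ b + (N + 2) * t) : Ann p q r S := by
  refine ⟨h.lr ht ?_ ?_ ?_ ?_ ?_ ?_, h.lr ht ?_ ?_ ?_ ?_ ?_ ?_, h.bt ht ?_ ?_ ?_ ?_ ?_ ?_,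
    h.bt ht ?_ ?_ ?_ ?_ ?_ ?_⟩ <;> linarith

/-! ### The level -/

theorem Net.level {S : Set (ℤ × ℤ)} {lev : ℤ × ℤ → ℤ} (hl : Lev S lev) {t : ℤ} (ht : 0 < t)
    {N : ℕ} {a b : ℤ} (h : Net t N a b S) : ∃ l, Net t N a b (S ∩ {z | lev z = l}) := by
  choose! L hL using fun (i : ℕ) (hi : i < N + 1) (j : ℕ) (hj : j < N + 1) =>
    Ann.lev hl ht (h i hi j hj)
  have key : ∀ i < N + 1, ∀ j < N + 1, ∀ i' < N + 1, ∀ j' < N + 1,
      |(a + i' * t) - (a + i * t)| ≤ 3 * t → |(b + j' * t) - (b + j * t)| ≤ 3 * t →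
      L i j = L i' j' := by
    intro i hi j hj i' hi' j' hj' h1 h2
    exact lev_unique ht (hL i hi j hj) (hL i' hi' j' hj') h1 h2
  have h0 : ∀ k : ℕ, |((k + 1 : ℕ) : ℤ) * t - (k : ℕ) * t| ≤ 3 * t := by
    intro k
    have : ((k + 1 : ℕ) : ℤ) * t - (k : ℕ) * t = t := by push_cast; ring
    rw [this, abs_of_pos ht]; linarith
  have hrow : ∀ i < N + 1, L i 0 = L 0 0 := by
    intro i
    induction i with
    | zero => intro _; rfl
    | succ i ih =>
      intro hi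
      rw [← ih (by omega)]
      refine (key i (by omega) 0 (by omega) (i + 1) hi 0 (by omega) ?_ ?_).symm
      · have := h0 i
        rwa [add_sub_add_left_eq_sub]
      · simp [ht.le]
  have hall : ∀ i < N + 1, ∀ j < N + 1, L i j = L 0 0 := by
    intro i hi j
    induction j with
    | zero => intro _; exact hrow i hi
    | succ j ih =>
      intro hj
      rw [← ih (by omega)]
      refine (key i hi j (by omega) i hi (j + 1) hj ?_ ?_).symm
      · simp [ht.le]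
      · have := h0 j
        rwa [add_sub_add_left_eq_sub]
  refine ⟨L 0 0, fun i hi j hj => ?_⟩
  rw [← hall i hi j hj]
  exact hL i hi j hj

/-! ### Association -/

theorem IL_true : IL (fun _ => True) := ⟨fun _ _ _ _ => trivial, 0, fun _ _ _ _ => trivial⟩

theorem IL_ball {ι : Type*} (Y : Finset ι) (E : ι → Set (ℤ × ℤ) → Prop) (h : ∀ i ∈ Y, IL (E i)) :
    IL (fun S => ∀ i ∈ Y, E i S) := by
  classical
  induction Y using Finset.induction_on with
  | empty =>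
    have e : (fun S : Set (ℤ × ℤ) => ∀ i ∈ (∅ : Finset ι), E i S) = fun _ => True := by
      funext S; simp
    rw [e]
    exact IL_true
  | @insert i Y hi ih =>
    have h1 := (h i (Finset.mem_insert_self i Y)).and
      (ih fun j hj => h j (Finset.mem_insert_of_mem hj))
    have e : (fun S : Set (ℤ × ℤ) => ∀ j ∈ insert i Y, E j S) =
        fun S => E i S ∧ ∀ j ∈ Y, E j S := by
      funext S
      exact propext (Finset.forall_mem_insert _ _ _)
    rw [e]
    exact h1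

variable {Q : Measure A.Om}

theorem pW_ball (hQ : A.IsQ Q) {ι : Type*} (Y : Finset ι) (E : ι → Set (ℤ × ℤ) → Prop)
    (h : ∀ i ∈ Y, IL (E i)) {c : ℝ} (hc : 0 ≤ c) (hE : ∀ i ∈ Y, c ≤ pW Q (E i)) :
    c ^ Y.card ≤ pW Q (fun S => ∀ i ∈ Y, E i S) := by
  classical
  have := hQ.prob
  induction Y using Finset.induction_on with
  | empty =>
    have e : (fun S : Set (ℤ × ℤ) => ∀ i ∈ (∅ : Finset ι), E i S) = fun _ => True := by
      funext S; simp
    rw [e, Finset.card_empty, pow_zero]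
    unfold pW
    rw [Set.ofPred_true, probReal_univ]
  | @insert i Y hi ih =>
    have h1 := ih (fun j hj => h j (Finset.mem_insert_of_mem hj))
      (fun j hj => hE j (Finset.mem_insert_of_mem hj))
    have h2 := hE i (Finset.mem_insert_self i Y)
    have h3 := pW_fkg hQ (h i (Finset.mem_insert_self i Y))
      (IL_ball Y E fun j hj => h j (Finset.mem_insert_of_mem hj))
    have e : (fun S : Set (ℤ × ℤ) => ∀ j ∈ insert i Y, E j S) =
        fun S => E i S ∧ ∀ j ∈ Y, E j S := by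
      funext S
      exact propext (Finset.forall_mem_insert _ _ _)
    rw [e, Finset.card_insert_of_notMem hi, pow_succ, mul_comm]
    exact (mul_le_mul h2 h1 (pow_nonneg hc _) (le_trans hc h2)).trans h3

/-- The index set of a net. -/
def ix (N : ℕ) : Finset (ℕ × ℕ) := Finset.range (N + 1) ×ˢ Finset.range (N + 1)

theorem net_iff {t : ℤ} {N : ℕ} {a b : ℤ} : Net t N a b =
    fun S => ∀ i ∈ ix N, Ann (a + (i.1 : ℤ) * t) (b + (i.2 : ℤ) * t) t S := by
  funext S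
  apply propext
  constructor
  · intro h i hi
    rw [ix, Finset.mem_product, Finset.mem_range, Finset.mem_range] at hi
    exact h i.1 hi.1 i.2 hi.2
  · intro h i hi j hj
    exact h (i, j) (by rw [ix, Finset.mem_product, Finset.mem_range, Finset.mem_range]; exact ⟨hi, hj⟩)

theorem IL_Net (t : ℤ) (N : ℕ) (a b : ℤ) : IL (Net t N a b) := by
  rw [net_iff]
  exact IL_ball _ _ fun _ _ => IL_Ann _ _ _

/-- The net has probability at least `c ^ ((N + 1) ^ 2)`. -/
theorem net_ge (hQ : A.IsQ Q) {c : ℝ} (hc : 0 ≤ c) {r : ℤ}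
    (h : ∀ p q : ℤ, c ≤ pW Q (Ann p q r)) (N : ℕ) (a b : ℤ) :
    c ^ (ix N).card ≤ pW Q (Net r N a b) := by
  rw [net_iff]
  exact pW_ball hQ _ _ (fun _ _ => IL_Ann _ _ _) hc fun _ _ => h _ _

end Vale.Agent.P153.F.X.PosT
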