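import Vale.Agent.P153.F.X.Int
import Vale.Agent.P153.F.X.FrA
import Vale.Agent.P153.F.RSW.ChainT
import Vale.Agent.P153.F.RSW.Inst
import Vale.Agent.P153.A.Rc

/-!
P153-F, X-level (mirror of `P145.X.PosAll` and `P145.X.SPos`): the statement `S_pos` of
`X/Stmt.lean`. A net of circuits of blocked edges of one level (two heights modulo four) occurs with
probability bounded below by positive association; all circuits of the net have the same level, and
`muT` is obtained with the counting measure of the shift.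
-/

namespace Vale.Agent.P153.F.X.Ps

open Filter Topology MeasureTheory
open Vale.Agent.P153
open Vale.Agent.P153.F.RSW (LRp BTp Ann Mid Geo geo LRp_swap IL Inc Loc IL_Ann conn_mono Lev
  v1 v2 Wp pW pW_fkg IsCh)
open Vale.Agent.P153.A (IsQ tau rc cd Comp s_rc s_sym)

/-! ### Nets of annuli -/

/-- The annuli of size `t` around the points `(a + i t, b + j t)`, `i, j ≤ N`. -/
def Net (t : ℤ) (N : ℕ) (a b : ℤ) (S : Set (ℤ × ℤ)) : Prop :=
  ∀ i < N + 1, ∀ j < N + 1, Ann (a + i * t) (b + j * t) t S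

theorem Net.mono {t : ℤ} {N : ℕ} {a b : ℤ} {S T : Set (ℤ × ℤ)} (h : Net t N a b S) (hST : S ⊆ T) :
    Net t N a b T := fun i hi j hj => (IL_Ann _ _ _).1 _ _ hST (h i hi j hj)

theorem LRm {S : Set (ℤ × ℤ)} {a b c d a' b' c' d' : ℤ} (h1 : a ≤ a') (h2 : a' ≤ b')
    (h3 : b' ≤ b) (h4 : c' ≤ c) (h5 : d ≤ d') (h : LRp a b c d S) : LRp a' b' c' d' S :=
  geo.mono a a' b b' c c' d d' S h1 h2 h3 h4 h5 h

theorem BTm {S : Set (ℤ × ℤ)} {a b c d a' b' c' d' : ℤ} (h1 : c ≤ c') (h2 : c' ≤ d')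
    (h3 : d' ≤ d) (h4 : a' ≤ a) (h5 : b ≤ b') (h : BTp a b c d S) : BTp a' b' c' d' S :=
  (LRp_swap S c' d' a' b').1 (LRm h1 h2 h3 h4 h5 ((LRp_swap S c d a b).2 h))

theorem BTp_swap (S : Set (ℤ × ℤ)) (a b c d : ℤ) :
    BTp a b c d {z | (z.2, z.1) ∈ S} ↔ LRp c d a b S := by
  have h := LRp_swap {z | (z.2, z.1) ∈ S} c d a b
  have e : {z : ℤ × ℤ | (z.2, z.1) ∈ {z : ℤ × ℤ | (z.2, z.1) ∈ S}} = S := by
    ext z; rfl
  rw [e] at h
  exact h.symm

theorem Ann_swap {p q t : ℤ} {S : Set (ℤ × ℤ)} (h : Ann p q t S) :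
    Ann q p t {z | (z.2, z.1) ∈ S} := by
  obtain ⟨h1, h2, h3, h4⟩ := h
  exact ⟨(LRp_swap S _ _ _ _).2 h4, (LRp_swap S _ _ _ _).2 h3, (BTp_swap S _ _ _ _).2 h2,
    (BTp_swap S _ _ _ _).2 h1⟩

theorem Net.swap {t : ℤ} {N : ℕ} {a b : ℤ} {S : Set (ℤ × ℤ)} (h : Net t N a b S) :
    Net t N b a {z | (z.2, z.1) ∈ S} := fun i hi j hj => Ann_swap (h j hj i hi)

/-- Long horizontal crossings in the strips of the net. -/
theorem Net.strip {t : ℤ} (ht : 0 < t) {N : ℕ} {a b : ℤ} {S : Set (ℤ × ℤ)} (h : Net t N a b S)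
    {j : ℕ} (hj : j < N + 1) : ∀ m : ℕ, m < N + 1 →
    LRp (a - 2 * t) (a + (m + 2) * t) (b + j * t + t) (b + j * t + 2 * t) S := by
  intro m
  induction m with
  | zero =>
    intro h0
    have h1 := (h 0 h0 j hj).1
    have e1 : a + ((0 : ℕ) : ℤ) * t - 2 * t = a - 2 * t := by push_cast; ring
    have e2 : a + ((0 : ℕ) : ℤ) * t + 2 * t = a + (((0 : ℕ) : ℤ) + 2) * t := by push_cast; ring
    rwa [e1, e2] at h1
  | succ m ih =>
    intro hm
    have h1 := ih (by omega)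
    have h2 := (h (m + 1) hm j hj).1
    have h3 := (h m (by omega) j hj).2.2.2
    have h4 : BTp (a + (m + 1 : ℕ) * t - 2 * t) (a + (m + 2) * t) (b + j * t + t)
        (b + j * t + 2 * t) S := by
      refine BTm ?_ ?_ ?_ ?_ ?_ h3
      · nlinarith
      · nlinarith
      · exact le_rfl
      · push_cast; nlinarith
      · nlinarith
    have h5 := geo.chain _ _ _ _ _ _ S (by push_cast; nlinarith) (by push_cast; nlinarith)
      (by push_cast; nlinarith) (by nlinarith) h1 h4 h2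
    have e2 : a + ((m + 1 : ℕ) : ℤ) * t + 2 * t = a + (((m + 1 : ℕ) : ℤ) + 2) * t := by ring
    rwa [e2] at h5

/-- Every parallelogram of width at least `2 t` in the box of the net is crossed. -/
theorem Net.lr {t : ℤ} (ht : 0 < t) {N : ℕ} {a b : ℤ} {S : Set (ℤ × ℤ)} (h : Net t N a b S)
    {A B C D : ℤ} (hA : a - 2 * t ≤ A) (hAB : A ≤ B) (hB : B ≤ a + (N + 2) * t)
    (hC : b + t ≤ C) (hCD : C + 2 * t ≤ D) (hD : D ≤ b + (N + 2) * t) : LRp A B C D S := by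
  obtain ⟨k, hk1, hk2⟩ : ∃ k : ℤ, C ≤ b + (k + 1) * t ∧ b + (k + 1) * t < C + t := by
    refine ⟨-((b - C) / t) - 1, ?_, ?_⟩
    · have h1 := Int.ediv_mul_le (b - C) ht.ne'
      have e : (-((b - C) / t) - 1 + 1) * t = -((b - C) / t * t) := by ring
      rw [e]; linarith
    · have h1 := Int.lt_ediv_add_one_mul_self (b - C) ht
      have e : (-((b - C) / t) - 1 + 1) * t = -(((b - C) / t + 1) * t) + t := by ring
      rw [e]; linarith
  have hk0 : 0 ≤ k := by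
    by_contra hc
    have : (k + 1) * t ≤ 0 := mul_nonpos_of_nonpos_of_nonneg (by omega) ht.le
    linarith
  have hkN : k < N + 1 := by
    by_contra hc
    have : ((N : ℤ) + 2) * t ≤ (k + 1) * t := mul_le_mul_of_nonneg_right (by omega) ht.le
    have h3 : (k + 1) * t + t ≤ (N + 2) * t := by linarith
    linarith
  obtain ⟨j, rfl⟩ := Int.eq_ofNat_of_zero_le hk0
  have h1 := h.strip ht (j := j) (by omega) N (by omega)
  refine LRm hA hAB hB ?_ ?_ h1
  · linarith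
  · linarith

theorem Net.bt {t : ℤ} (ht : 0 < t) {N : ℕ} {a b : ℤ} {S : Set (ℤ × ℤ)} (h : Net t N a b S)
    {A B C D : ℤ} (hA : a + t ≤ A) (hAB : A + 2 * t ≤ B) (hB : B ≤ a + (N + 2) * t)
    (hC : b - 2 * t ≤ C) (hCD : C ≤ D) (hD : D ≤ b + (N + 2) * t) : BTp A B C D S :=
  (LRp_swap S C D A B).1 (h.swap.lr ht hC hCD hD hA hAB hB)

/-- A net contains all coarser annuli. -/
theorem Net.ann {t : ℤ} (ht : 0 < t) {N : ℕ} {a b : ℤ} {S : Set (ℤ × ℤ)} (h : Net t N a b S)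
    {p q r : ℤ} (hr : 2 * t ≤ r) (h1 : a + t ≤ p - 2 * r) (h2 : p + 2 * r ≤ a + (N + 2) * t)
    (h3 : b + t ≤ q - 2 * r) (h4 : q + 2 * r ≤ b + (N + 2) * t) : Ann p q r S := by
  refine ⟨h.lr ht ?_ ?_ ?_ ?_ ?_ ?_, h.lr ht ?_ ?_ ?_ ?_ ?_ ?_, h.bt ht ?_ ?_ ?_ ?_ ?_ ?_,
    h.bt ht ?_ ?_ ?_ ?_ ?_ ?_⟩ <;> linarith

/-! ### The level -/

theorem Net.level {S : Set (ℤ × ℤ)} {lev : ℤ × ℤ → ℤ} (hl : Lev S lev) {t : ℤ} (ht : 0 < t)
    {N : ℕ} {a b : ℤ} (h : Net t N a b S) : ∃ l, Net t N a b (S ∩ {z | lev z = l}) := by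
  choose! L hL using fun (i : ℕ) (hi : i < N + 1) (j : ℕ) (hj : j < N + 1) =>
    RSW.Ann.lev hl ht (h i hi j hj)
  have h0 : ∀ k : ℕ, |((k + 1 : ℕ) : ℤ) * t - (k : ℕ) * t| ≤ 3 * t := by
    intro k
    have : ((k + 1 : ℕ) : ℤ) * t - (k : ℕ) * t = t := by push_cast; ring
    rw [this, abs_of_pos ht]; linarith
  have hrow : ∀ i < N + 1, L i 0 = L 0 0 := by
    intro i
    induction i with
    | zero => intro _; rfl
    | succ i ih =>
      intro hi
      rw [← ih (by omega)]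
      refine (RSW.lev_unique ht (hL i (by omega) 0 (by omega)) (hL (i + 1) hi 0 (by omega))
        ?_ ?_).symm
      · have := h0 i
        rwa [add_sub_add_left_eq_sub]
      · simp [ht.le]
  have hall : ∀ i < N + 1, ∀ j < N + 1, L i j = L 0 0 := by
    intro i hi j
    induction j with
    | zero => intro _; exact hrow i hi
    | succ j ih =>
      intro hj
      rw [← ih (by omega)]
      refine (RSW.lev_unique ht (hL i hi j (by omega)) (hL i hi (j + 1) hj) ?_ ?_).symm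
      · simp [ht.le]
      · have := h0 j
        rwa [add_sub_add_left_eq_sub]
  refine ⟨L 0 0, fun i hi j hj => ?_⟩
  rw [← hall i hi j hj]
  exact hL i hi j hj

/-! ### The levels of the edges -/

theorem adj_v {w : ℤ × ℤ} (hw : w ∈ Mid) : Adj (v1 w) (v2 w) := by
  rw [Fv.adj_iff]
  have : w.1 % 2 = 1 ∨ w.2 % 2 = 1 := RSW.mid_iff.1 hw
  unfold v1 v2
  dsimp only
  omega

theorem sum_v {w : ℤ × ℤ} : v1 w + v2 w = w := by
  unfold v1 v2
  ext
  · simp only [Prod.fst_add]; omega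
  · simp only [Prod.snd_add]; omega

theorem share {u v : ℤ × ℤ} (hu : u ∈ Mid) (hv : v ∈ Mid) (h : Adj u v) :
    v1 u = v1 v ∨ v1 u = v2 v ∨ v2 u = v1 v ∨ v2 u = v2 v := by
  rw [Fv.adj_iff] at h
  have h1 : u.1 % 2 = 1 ∨ u.2 % 2 = 1 := RSW.mid_iff.1 hu
  have h2 : v.1 % 2 = 1 ∨ v.2 % 2 = 1 := RSW.mid_iff.1 hv
  unfold v1 v2
  simp only [Prod.mk.injEq]
  omega

/-- The edges both ends of which have height `0` or `1` modulo four (after the shift `c`). -/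
def T4 (c : ℤ) (φ : ℤ × ℤ → ℤ) : Set (ℤ × ℤ) :=
  {w | w ∈ Mid ∧ ((φ (v1 w) + c) % 4 = 0 ∨ (φ (v1 w) + c) % 4 = 1) ∧
    ((φ (v2 w) + c) % 4 = 0 ∨ (φ (v2 w) + c) % 4 = 1)}

/-- The level. -/
def lv (c : ℤ) (φ : ℤ × ℤ → ℤ) (w : ℤ × ℤ) : ℤ := (φ (v1 w) + c) / 4

theorem lv_eq {c : ℤ} {φ : ℤ × ℤ → ℤ} (hφ : ∀ x y, Adj x y → |φ x - φ y| ≤ 1) {w : ℤ × ℤ}
    (hw : w ∈ T4 c φ) : (φ (v2 w) + c) / 4 = lv c φ w := by
  obtain ⟨h1, h2, h3⟩ := hw
  have h4 := abs_le.1 (hφ _ _ (adj_v h1))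
  unfold lv
  omega

theorem lev_T4 {c : ℤ} {φ : ℤ × ℤ → ℤ} (hφ : ∀ x y, Adj x y → |φ x - φ y| ≤ 1) :
    Lev (T4 c φ) (lv c φ) := by
  intro u v huv hu hv
  have e1 := lv_eq hφ hu
  have e2 := lv_eq hφ hv
  unfold lv at e1 e2 ⊢
  rcases share hu.1 hv.1 huv with h | h | h | h
  · rw [h]
  · rw [h, e2]
  · rw [← e1, h]
  · rw [← e1, h, e2]

theorem T4_bl {c l : ℤ} {φ : ℤ × ℤ → ℤ} (hφ : ∀ x y, Adj x y → |φ x - φ y| ≤ 1) :
    T4 c φ ∩ {z | lv c φ z = l} ⊆ bl (odd (c - 4 * l) φ) ∩ Mid := by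
  rintro w ⟨hw, hl⟩
  have e1 := lv_eq hφ hw
  have hl' : lv c φ w = l := hl
  rw [hl'] at e1
  unfold lv at hl'
  refine ⟨⟨v1 w, v2 w, adj_v hw.1, sum_v.symm, ?_, ?_⟩, hw.1⟩
  · unfold odd
    have := hw.2.1
    rw [abs_eq (by norm_num)]
    omega
  · unfold odd
    have := hw.2.2
    rw [abs_eq (by norm_num)]
    omega

theorem Wp_T4 {ω : A.Om} (hω : Comp ω) : Wp (tau ω) ⊆ T4 (cd (ω 0)) (rc ω) := by
  rintro w ⟨h1, h2, h3⟩
  have hc := s_rc.2.1 ω hω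
  have key : ∀ x, tau ω x = true → (rc ω x + cd (ω 0)) % 4 = 0 ∨ (rc ω x + cd (ω 0)) % 4 = 1 := by
    intro x hx
    have h4 := hc x
    have h5 : cd (ω x) = 0 ∨ cd (ω x) = 1 := by
      have h6 : (ω x).1 = true := hx
      unfold cd
      rw [h6]
      by_cases h7 : (ω x).2 = true
      · simp [h7]
      · simp [h7]
    omega
  exact ⟨h1, key _ h2, key _ h3⟩

/-! ### Association -/

theorem IL_forall {Q : ℕ → Set (ℤ × ℤ) → Prop} : ∀ n : ℕ, (∀ i < n, IL (Q i)) →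
    IL (fun S => ∀ i < n, Q i S) := by
  intro n
  induction n with
  | zero =>
    intro _
    exact ⟨fun S T _ _ i hi => absurd hi (by omega), 0, fun S T _ _ i hi => absurd hi (by omega)⟩
  | succ n ih =>
    intro h
    have h1 := (ih fun i hi => h i (by omega)).and (h n (by omega))
    have e : (fun S => ∀ i < n + 1, Q i S) = fun S => (∀ i < n, Q i S) ∧ Q n S := by
      funext S
      refine propext ⟨fun h2 => ⟨fun i hi => h2 i (by omega), h2 n (by omega)⟩, fun h2 i hi => ?_⟩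
      rcases Nat.lt_succ_iff_lt_or_eq.1 hi with h3 | rfl
      · exact h2.1 i h3
      · exact h2.2
    rw [e]
    exact h1

theorem IL_Net (t : ℤ) (N : ℕ) (a b : ℤ) : IL (Net t N a b) :=
  IL_forall (Q := fun i S => ∀ j < N + 1, Ann (a + i * t) (b + j * t) t S) (N + 1) fun i _ =>
    IL_forall (Q := fun j S => Ann (a + i * t) (b + j * t) t S) (N + 1) fun j _ => IL_Ann _ _ _

variable {Q : Measure A.Om}

theorem assoc_forall (hQ : IsQ Q) {E : ℕ → Set (ℤ × ℤ) → Prop} {c : ℝ} (hc : 0 ≤ c) :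
    ∀ n : ℕ, (∀ i < n, IL (E i)) → (∀ i < n, c ≤ pW Q (E i)) →
    c ^ n ≤ pW Q fun S => ∀ i < n, E i S := by
  have := hQ.prob
  intro n
  induction n with
  | zero =>
    intro _ _
    have e : {ω : A.Om | ∀ i < 0, E i (Wp (tau ω))} = Set.univ := by
      ext x; simp
    unfold pW
    rw [e]
    simp
  | succ n ih =>
    intro h h'
    have h1 := ih (fun i hi => h i (by omega)) (fun i hi => h' i (by omega))
    have h2 := h' n (by omega)
    have hI := IL_forall (Q := E) n fun i hi => h i (by omega)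
    have hn := h n (by omega)
    have h3 := pW_fkg hQ hI hn
    have e : (fun S => ∀ i < n + 1, E i S) = fun S => (∀ i < n, E i S) ∧ E n S := by
      funext S
      refine propext ⟨fun h2 => ⟨fun i hi => h2 i (by omega), h2 n (by omega)⟩, fun h2 i hi => ?_⟩
      rcases Nat.lt_succ_iff_lt_or_eq.1 hi with h3 | rfl
      · exact h2.1 i h3
      · exact h2.2
    rw [e, pow_succ]
    exact (mul_le_mul h1 h2 hc measureReal_nonneg).trans h3

/-- The net has probability at least `c ^ ((N + 1) ^ 2)`. -/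
theorem net_ge (hQ : IsQ Q) {c : ℝ} (hc : 0 ≤ c) {r : ℤ}
    (h : ∀ p q : ℤ, c ≤ pW Q (Ann p q r)) (N : ℕ) (a b : ℤ) :
    (c ^ (N + 1)) ^ (N + 1) ≤ pW Q (Net r N a b) := by
  refine assoc_forall hQ (E := fun i S => ∀ j < N + 1, Ann (a + i * r) (b + j * r) r S)
    (pow_nonneg hc _) (N + 1) (fun i _ => IL_forall (N + 1) fun j _ => IL_Ann _ _ _) fun i _ => ?_
  exact assoc_forall hQ (E := fun j S => Ann (a + i * r) (b + j * r) r S) hc (N + 1)
    (fun _ _ => IL_Ann _ _ _) fun _ _ => h _ _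

/-! ### Local events -/

theorem locP_of_IL {E : Set (ℤ × ℤ) → Prop} (hE : IL E) :
    LocP Set.univ fun B => E (B ∩ Mid) := by
  obtain ⟨N, hN⟩ := hE.2
  refine ⟨Finset.Icc (-N) N ×ˢ Finset.Icc (-N) N, fun _ _ => Set.mem_univ _, fun B B' h => ?_⟩
  have key : ∀ B B' : Set (ℤ × ℤ), (∀ w ∈ Finset.Icc (-N) N ×ˢ Finset.Icc (-N) N,
      (w ∈ B ↔ w ∈ B')) → E (B ∩ Mid) → E (B' ∩ Mid) := by
    intro B B' h
    refine hN _ _ fun z h1 h2 => ?_
    have h3 := h z (by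
      rw [Finset.mem_product, Finset.mem_Icc, Finset.mem_Icc]
      exact ⟨abs_le.1 h1, abs_le.1 h2⟩)
    constructor
    · rintro ⟨g1, g2⟩; exact ⟨h3.1 g1, g2⟩
    · rintro ⟨g1, g2⟩; exact ⟨h3.2 g1, g2⟩
  exact ⟨key B B' h, key B' B fun w hw => (h w hw).symm⟩

/-- The net at level `0`. -/
theorem muT_net_ge (hQ : IsQ Q) {r : ℤ} (hr : 0 < r) (N : ℕ) (a b : ℤ) :
    ENNReal.ofReal (pW Q (Net r N a b)) ≤
      muT (Q.map rc) {h : Hg | Net r N a b (bl h ∩ Mid)} := by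
  have := hQ.prob
  have hmE : MeasurableSet {h : Hg | Net r N a b (bl h ∩ Mid)} :=
    (locP_of_IL (IL_Net r N a b)).meas
  have hrc : Measurable rc := s_rc.2.2.2.2.2.1
  have hcomp : ∀ᵐ ω ∂Q, Comp ω := (s_sym Q hQ).2.2
  have h1 : Q {ω | Net r N a b (Wp (tau ω))} ≤
      Q (⋃ k : ℤ, rc ⁻¹' (odd k ⁻¹' {h : Hg | Net r N a b (bl h ∩ Mid)})) := by
    refine measure_mono_ae ?_
    filter_upwards [hcomp] with ω hω hN
    have hφ : ∀ x y, Adj x y → |rc ω x - rc ω y| ≤ 1 := by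
      intro x y hxy
      have h2 := s_rc.1 ω hω x y hxy
      rw [abs_sub_comm, h2]
      unfold A.inc
      split_ifs <;> simp
    have h2 : Net r N a b (T4 (cd (ω 0)) (rc ω)) := Net.mono hN (Wp_T4 hω)
    obtain ⟨l, hl⟩ := Net.level (lev_T4 hφ) hr h2
    exact Set.mem_iUnion.2 ⟨cd (ω 0) - 4 * l, Net.mono hl (T4_bl hφ)⟩
  have h2 : pW Q (Net r N a b) = (Q {ω | Net r N a b (Wp (tau ω))}).toReal := rfl
  rw [h2, ENNReal.ofReal_toReal (measure_ne_top Q _)]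
  refine h1.trans ((measure_iUnion_le _).trans (le_of_eq ?_))
  rw [muT, Measure.sum_apply _ hmE]
  refine tsum_congr fun k => ?_
  rw [Measure.map_apply (measurable_odd k) hmE, Measure.map_apply hrc (measurable_odd k hmE)]

theorem alg_one : Top.Alg (fun _ => 1) := Top.Pol.one

/-- **POS** (`S_pos`). -/
theorem s_pos (hQ : IsQ Q) (hL : S_loc) (hI : S_int (Q.map rc))
    (hR : ∃ c : ℝ, 0 < c ∧ ∃ r0 : ℤ, ∀ r : ℤ, r0 ≤ r → ∀ p q : ℤ, c ≤ pW Q (Ann p q r)) :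
    S_pos (Q.map rc) := by
  intro N
  obtain ⟨c, hc, r0, h⟩ := hR
  set K : ℕ := N + 1 with hK
  set N' : ℕ := 18 * K + 2 with hN'
  refine ⟨(c ^ (N' + 1)) ^ (N' + 1), by positivity, max (4 * r0) 4,
    (by norm_num : (1 : ℤ) ≤ 4).trans (le_max_right _ _), fun s hs y₀ m hm h1 h2 => ?_⟩
  have hs4 : 4 ≤ s := (le_max_right _ _).trans hs
  have hs0 : 4 * r0 ≤ s := (le_max_left _ _).trans hs
  have hab1 := abs_nonneg y₀.1
  have hab2 := abs_nonneg y₀.2
  set r : ℤ := s / 2 with hr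
  have hr1 : 2 * r ≤ s := by omega
  have hr2 : s ≤ 3 * r := by omega
  have hr3 : 0 < r := by omega
  have hr4 : r0 ≤ r := by omega
  have hms : 1 ≤ m * s := by nlinarith
  set E : Set Pt → Prop := fun B => (∀ y : Pt, |y.1| ≤ N → |y.2| ≤ N →
    Zr (s * y.1, s * y.2) s B) ∧ Zr (s * y₀.1, s * y₀.2) (m * s) B with hE
  -- locality
  have hloc : LocP Set.univ E := by
    have g1 : LocP Set.univ fun B => ∀ y ∈ Finset.Icc (-(N : ℤ)) N ×ˢ Finset.Icc (-(N : ℤ)) N,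
        Zr (s * y.1, s * y.2) s B := LocP.all _ fun y _ => zr_loc hL (by omega) (Set.subset_univ _)
    have g2 := g1.and (zr_loc hL (p := (s * y₀.1, s * y₀.2)) hms (Set.subset_univ _))
    have e : E = fun B => (∀ y ∈ Finset.Icc (-(N : ℤ)) N ×ˢ Finset.Icc (-(N : ℤ)) N,
        Zr (s * y.1, s * y.2) s B) ∧ Zr (s * y₀.1, s * y₀.2) (m * s) B := by
      funext B
      refine propext (and_congr_left fun _ => ⟨fun g y hy => ?_, fun g y g3 g4 => ?_⟩)
      · rw [Finset.mem_product, Finset.mem_Icc, Finset.mem_Icc] at hy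
        exact g y (abs_le.2 hy.1) (abs_le.2 hy.2)
      · refine g y ?_
        rw [Finset.mem_product, Finset.mem_Icc, Finset.mem_Icc]
        exact ⟨abs_le.1 g3, abs_le.1 g4⟩
    rw [e]
    exact g2
  rw [II_one hloc]
  have hfin : muT (Q.map rc) {h : Hg | E (bl h)} ≠ ⊤ := by
    have hzl : LocP Set.univ (Zr (s * y₀.1, s * y₀.2) (m * s)) := zr_loc hL hms (Set.subset_univ _)
    have g1 := hI (ind (Zr (s * y₀.1, s * y₀.2) (m * s))) (fun _ => 1) (locP_iff.1 hzl)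
      (ind_not (zr_empty hL hms)) alg_one
    have g2 := g1.measure_norm_ge_lt_top one_pos
    refine (lt_of_le_of_lt (measure_mono ?_) g2).ne
    intro h hh
    have hh' : Zr (s * y₀.1, s * y₀.2) (m * s) (bl h) := hh.2
    show (1 : ℝ) ≤ ‖ind (Zr (s * y₀.1, s * y₀.2) (m * s)) (bl h) * 1‖
    rw [ind_of hh', mul_one, norm_one]
  rw [Measure.real, ← ENNReal.ofReal_le_iff_le_toReal hfin]
  refine (ENNReal.ofReal_le_ofReal (net_ge hQ hc.le (h r hr4) N' (-((9 * K + 1) * r))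
    (-((9 * K + 1) * r)))).trans ((muT_net_ge hQ hr3 N' _ _).trans (measure_mono ?_))
  intro g hg
  have hx' : Net r N' (-((9 * K + 1) * r)) (-((9 * K + 1) * r)) (bl g ∩ Mid) := hg
  have hKs : (K : ℤ) * s ≤ K * (3 * r) := mul_le_mul_of_nonneg_left hr2 (by positivity)
  have hK0 : (0 : ℤ) ≤ K * r := by positivity
  have hNr : -((9 * (K : ℤ) + 1) * r) + ((N' : ℤ) + 2) * r = 9 * (K * r) + 3 * r := by
    rw [hN']; push_cast; ring
  have h9 : -((9 * (K : ℤ) + 1) * r) + r = -(9 * (K * r)) := by ring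
  have key : ∀ p q u : ℤ, s ≤ u → u ≤ K * s → |p| ≤ K * s → |q| ≤ K * s →
      Ann p q u (bl g ∩ Mid) := by
    intro p q u h1 h2 h3 h4
    obtain ⟨h5, h6⟩ := abs_le.1 h3
    obtain ⟨h7, h8⟩ := abs_le.1 h4
    refine hx'.ann hr3 (by omega) ?_ ?_ ?_ ?_
    · rw [h9]; linarith
    · rw [hNr]; linarith
    · rw [h9]; linarith
    · rw [hNr]; linarith
  have hN0 : (0 : ℤ) ≤ N := by positivity
  have hb : ∀ z : ℤ, |z| ≤ N → |s * z| ≤ (K : ℤ) * s := by
    intro z hz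
    rw [abs_mul, abs_of_pos (by omega : 0 < s), hK]
    push_cast
    nlinarith
  refine ⟨fun y hy1 hy2 => key _ _ _ le_rfl ?_ (hb _ hy1) (hb _ hy2), key _ _ _ ?_ ?_
    (hb _ (by omega)) (hb _ (by omega))⟩
  · rw [hK]; push_cast; nlinarith
  · nlinarith
  · rw [hK]; push_cast
    have : m ≤ N := by omega
    nlinarith

end Vale.Agent.P153.F.X.Ps
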