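import Vale.Agent.P153.F.X.SdDef
import Vale.Agent.P153.F.X.UpS
import Vale.Agent.P153.F.SD.UseM
import Vale.Agent.P153.F.Top.Dominate

/-!
P153-F, block X: functionals of the heights; moments; product decomposition (mirror of
`P145.X.SdA`, `P145.X.SdProd`).
-/

namespace Vale.Agent.P153.F.X.Sdx

open Filter Topology Set MeasureTheory
open Vale.Agent.P153
open Vale.Agent.P153.F.SD (Hgt Wd Lf lat PW)
open Vale.Agent.P153.F.Top
open Vale.Agent.P145.PT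

/-- Polynomials in the heights are local. -/
theorem loc_vm {A : Om → ℝ} (hA : Alg A) : SD.Loc univ (fun h : Hgt => A (vm h)) := by
  classical
  induction hA with
  | mon v =>
    refine ⟨v.toFinset, fun _ _ => mem_univ _, fun h h' hh => ?_⟩
    show (v.map (vm h)).prod = (v.map (vm h')).prod
    congr 1
    refine List.map_congr_left fun a ha => ?_
    unfold vm
    rw [hh a (List.mem_toFinset.2 ha)]
  | zero => exact ⟨∅, by simp, fun _ _ _ => rfl⟩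
  | add _ _ h1 h2 => exact h1.comp₂ h2 (fun x y : ℝ => x + y)
  | smul c _ _ h1 => exact h1.comp (fun x : ℝ => c * x)

theorem dp_pos (δ : ℝ) (v : ℤ × ℤ) : dp δ v = δ • GFF.pos v := by
  unfold dp GFF.pos
  simp only [Prod.smul_mk, smul_eq_mul]
  exact Prod.ext (by simp only) (by simp only; ring)

/-- `hv` in terms of the functionals of the block SD. -/
theorem hv_vm {δ : ℝ} (hδ : 0 < δ) {f : ℝ × ℝ → ℝ} (hs : Sm f) (hf : HasCompactSupport f)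
    (h : Hg) : hv δ f (vm h) = Lf δ f h := by
  obtain ⟨K, hK⟩ := SD.exists_csts hs hf
  unfold hv SD.Lf
  rw [SD.ev_tsum]
  have e : ∀ v : ℤ × ℤ, Wd δ f 0 v * (h v : ℝ) =
      δ ^ 2 * (vm h v * tl f (δ * v.1, δ * v.2)) := by
    intro v
    rw [SD.Wd_apply hK hδ, add_zero, tl_eq, dp_pos]
    unfold vm
    ring
  simp only [e]
  rw [tsum_mul_left, tsum_eq_finsum]
  obtain ⟨R, hR⟩ := hf.isCompact.isBounded.subset_ball (0 : ℝ × ℝ)
  refine (lat_finite hδ R).subset fun v hv => ?_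
  have h1 := right_ne_zero_of_mul hv
  rw [tl_eq] at h1
  exact hR (subset_tsupport _ (right_ne_zero_of_mul h1))

/-- `hv δ f` is a polynomial. -/
theorem alg_hv {δ : ℝ} (hδ : 0 < δ) {f : ℝ × ℝ → ℝ} (hf : HasCompactSupport f) :
    Alg (hv δ f) := by
  obtain ⟨R, hR⟩ := hf.isCompact.isBounded.subset_ball (0 : ℝ × ℝ)
  obtain ⟨B, hB⟩ := hv_eq_hB (R := R) hδ
  exact alg_hB.of_eq fun ω => (hB f (fun z hz => hR (subset_tsupport _ hz)) ω).symm

theorem hv_sub' {δ : ℝ} (hδ : 0 < δ) {f g : ℝ × ℝ → ℝ} (hf : HasCompactSupport f)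
    (hg : HasCompactSupport g) (ω : Om) : hv δ (fun z => f z - g z) ω = hv δ f ω - hv δ g ω := by
  obtain ⟨R, hR⟩ := hf.isCompact.isBounded.subset_ball (0 : ℝ × ℝ)
  obtain ⟨R', hR'⟩ := hg.isCompact.isBounded.subset_ball (0 : ℝ × ℝ)
  obtain ⟨B, hB⟩ := hv_eq_hB (R := max R R') hδ
  have h1 : ∀ z, f z ≠ 0 → z ∈ Metric.ball (0 : ℝ × ℝ) (max R R') := fun z hz =>
    Metric.ball_subset_ball (le_max_left _ _) (hR (subset_tsupport _ hz))
  have h2 : ∀ z, g z ≠ 0 → z ∈ Metric.ball (0 : ℝ × ℝ) (max R R') := fun z hz =>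
    Metric.ball_subset_ball (le_max_right _ _) (hR' (subset_tsupport _ hz))
  rw [hB f h1, hB g h2, hB (fun z => f z - g z) ?_, hB_sub]
  intro z hz
  by_cases h3 : f z = 0
  · refine h2 z fun h4 => hz ?_
    simp [h3, h4]
  · exact h1 z h3

theorem even_sub_le (x y : ℝ) (k : ℕ) :
    (x - y) ^ (2 * k) ≤ 4 ^ k * (x ^ (2 * k) + y ^ (2 * k)) := by
  have h1 : (x - y) ^ 2 ≤ 4 * max (x ^ 2) (y ^ 2) := by
    have a1 := le_max_left (x ^ 2) (y ^ 2)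
    have a2 := le_max_right (x ^ 2) (y ^ 2)
    nlinarith [sq_nonneg (x + y)]
  have h2 : 0 ≤ max (x ^ 2) (y ^ 2) := le_trans (sq_nonneg x) (le_max_left _ _)
  rw [pow_mul, pow_mul, pow_mul]
  calc ((x - y) ^ 2) ^ k ≤ (4 * max (x ^ 2) (y ^ 2)) ^ k := pow_le_pow_left₀ (sq_nonneg _) h1 k
    _ = 4 ^ k * max (x ^ 2) (y ^ 2) ^ k := mul_pow _ _ _
    _ ≤ 4 ^ k * ((x ^ 2) ^ k + (y ^ 2) ^ k) := by
        refine mul_le_mul_of_nonneg_left ?_ (by positivity)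
        rcases le_total (x ^ 2) (y ^ 2) with h | h
        · rw [max_eq_right h]
          have : 0 ≤ (x ^ 2) ^ k := by positivity
          linarith
        · rw [max_eq_left h]
          have : 0 ≤ (y ^ 2) ^ k := by positivity
          linarith

/-- The even moments of a test function of any sign. -/
theorem mom_signed {P : Measure (Pt → ℤ)} {δ : ℕ → ℝ} (hδ : ∀ n, 0 < δ n) {D : Set (ℝ × ℝ)}
    (hD : IsOpen D) (hb : Bornology.IsBounded D) {G : ℕ → Set Pt → ℝ} (hi : S_int P)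
    (hG : ∀ᶠ n in atTop, LocS univ (G n) ∧ G n ∅ = 0 ∧ ∀ B, 0 ≤ G n B)
    (hmom : ∀ f, TestOn D f → (∀ z, 0 ≤ f z) → ∀ k : ℕ, ∃ C : ℝ, ∀ᶠ n in atTop,
      II P (G n) (fun ω => hv (δ n) f ω ^ (2 * k)) ≤ C * II P (G n) (fun _ => 1))
    {f : ℝ × ℝ → ℝ} (hf : TestOn D f) (k : ℕ) : ∃ C : ℝ, ∀ᶠ n in atTop,
      II P (G n) (fun ω => hv (δ n) f ω ^ (2 * k)) ≤ C * II P (G n) (fun _ => 1) := by
  obtain ⟨F, hF, hFf, -⟩ := exists_dom hD hb hf one_pos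
  have hF0 : ∀ z, 0 ≤ F z := fun z => (abs_nonneg _).trans (hFf z)
  have hFs : TestOn D (fun z => F z - f z) := hF.sub hf
  obtain ⟨C1, h1⟩ := hmom F hF hF0 k
  obtain ⟨C2, h2⟩ := hmom (fun z => F z - f z) hFs
    (fun z => sub_nonneg.2 ((le_abs_self _).trans (hFf z))) k
  refine ⟨4 ^ k * (C1 + C2), ?_⟩
  filter_upwards [h1, h2, hG] with n g1 g2 hGn
  obtain ⟨l1, l2, l3⟩ := hGn
  have a1 : Alg (fun ω => hv (δ n) F ω ^ (2 * k)) := (alg_hv (hδ n) hF.cs).pow _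
  have a2 : Alg (fun ω => hv (δ n) (fun z => F z - f z) ω ^ (2 * k)) :=
    (alg_hv (hδ n) hFs.cs).pow _
  have a3 : Alg (fun ω => hv (δ n) f ω ^ (2 * k)) := (alg_hv (hδ n) hf.cs).pow _
  have i1 := hi (G n) _ l1 l2 a1
  have i2 := hi (G n) _ l1 l2 a2
  have i3 := hi (G n) _ l1 l2 a3
  have key : II P (G n) (fun ω => hv (δ n) f ω ^ (2 * k)) ≤
      4 ^ k * (II P (G n) (fun ω => hv (δ n) F ω ^ (2 * k)) +
        II P (G n) (fun ω => hv (δ n) (fun z => F z - f z) ω ^ (2 * k))) := by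
    unfold II
    rw [← integral_add i1 i2, ← integral_const_mul]
    refine integral_mono i3 ((i1.add i2).const_mul _) fun x => ?_
    have e : hv (δ n) f (vm x) = hv (δ n) F (vm x) -
        hv (δ n) (fun z => F z - f z) (vm x) := by
      rw [hv_sub' (hδ n) hF.cs hf.cs]; ring
    have h5 := even_sub_le (hv (δ n) F (vm x)) (hv (δ n) (fun z => F z - f z) (vm x)) k
    rw [← e] at h5
    have h6 := mul_le_mul_of_nonneg_left h5 (l3 (bl x))
    simp only [Pi.add_apply]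
    linarith
  refine key.trans ?_
  have h4 : (0 : ℝ) ≤ 4 ^ k := by positivity
  calc _ ≤ 4 ^ k * (C1 * II P (G n) (fun _ => 1) + C2 * II P (G n) (fun _ => 1)) :=
        mul_le_mul_of_nonneg_left (add_le_add g1 g2) h4
    _ = _ := by ring

/-! ### Product decomposition -/

theorem bl_congr {h h' : Hg} {w : Pt} (H : ∀ x y, Adj x y → w = x + y → h x = h' x) :
    w ∈ bl h ↔ w ∈ bl h' := by
  constructor
  · rintro ⟨x, y, h1, h2, h3, h4⟩
    refine ⟨x, y, h1, h2, ?_, ?_⟩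
    · rw [← H x y h1 h2]; exact h3
    · rw [← H y x (Up.adj_symm h1) (by rw [h2, add_comm])]; exact h4
  · rintro ⟨x, y, h1, h2, h3, h4⟩
    refine ⟨x, y, h1, h2, ?_, ?_⟩
    · rw [H x y h1 h2]; exact h3
    · rw [H y x (Up.adj_symm h1) (by rw [h2, add_comm])]; exact h4

/-- A local function of the blocked edges is a local function of the heights. -/
theorem loc_bl {A : Set Pt} {g : Set Pt → ℝ} (hg : LocS A g) {δ : ℝ} {K : Set (ℝ × ℝ)}
    (hA : FinT δ A K) : SD.Loc (lat δ K) (fun h : Hgt => g (bl h)) := by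
  classical
  obtain ⟨Λ, h1, h2⟩ := hg
  refine ⟨(Λ.biUnion Up.nb).filter fun x => ∃ y, Adj x y ∧ x + y ∈ Λ, fun q hq => ?_,
    fun h h' hh => h2 _ _ fun w hw => bl_congr fun x y hxy e => hh x ?_⟩
  · obtain ⟨-, y, h3, h4⟩ := Finset.mem_filter.1 hq
    have h5 := hA _ (h1 _ h4) q y h3 rfl
    rw [dp_pos] at h5
    exact h5
  · rw [e] at hw
    exact Finset.mem_filter.2 ⟨Finset.mem_biUnion.2 ⟨_, hw, Up.mem_nb hxy⟩, y, hxy, hw⟩

/-- The events of the circuits of `T`. -/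
def AllZ (T : Finset ((ℤ × ℤ) × ℤ)) (B : Set Pt) : Prop := ∀ s ∈ T, Zr s.1 s.2 B

theorem locS_allZ (hL : S_loc) {A : Set Pt} (T : Finset ((ℤ × ℤ) × ℤ))
    (hT : ∀ s ∈ T, 1 ≤ s.2 ∧ iE (bx s.1 (2 * s.2)) ⊆ A) : LocS A (ind (AllZ T)) := by
  classical
  have h1 : ∀ s ∈ T, ∃ Λ : Finset Pt, (∀ w ∈ Λ, w ∈ A) ∧
      ∀ B B' : Set Pt, (∀ w ∈ Λ, w ∈ B ↔ w ∈ B') → (Zr s.1 s.2 B ↔ Zr s.1 s.2 B') := by
    intro s hs
    obtain ⟨Λ, h2, h3⟩ := (hL s.1 s.2 (hT s hs).1).2.loc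
    refine ⟨Λ, fun w hw => (hT s hs).2 (h2 w hw).1, fun B B' hB => ?_⟩
    have h4 := h3 B B' hB
    unfold ind at h4
    by_cases p : Zr s.1 s.2 B <;> by_cases p' : Zr s.1 s.2 B' <;> simp_all
  choose! Λ h2 h3 using h1
  refine ⟨T.biUnion Λ, fun w hw => ?_, fun B B' hB => ?_⟩
  · obtain ⟨s, hs, hw⟩ := Finset.mem_biUnion.1 hw
    exact h2 s hs w hw
  · have h4 : AllZ T B ↔ AllZ T B' := by
      refine forall₂_congr fun s hs => h3 s hs B B' fun w hw => hB w ?_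
      exact Finset.mem_biUnion.2 ⟨s, hs, hw⟩
    unfold ind
    simp only [h4]

theorem sd_ind_nonneg (Q : Set Pt → Prop) (B : Set Pt) : 0 ≤ ind Q B := by
  unfold ind; split_ifs <;> norm_num

theorem sd_ind_le_one (Q : Set Pt → Prop) (B : Set Pt) : ind Q B ≤ 1 := by
  unfold ind; split_ifs <;> norm_num

theorem allZ_empty (hL : S_loc) {T : Finset ((ℤ × ℤ) × ℤ)} (hne : T.Nonempty)
    (hT : ∀ s ∈ T, 1 ≤ s.2) : ind (AllZ T) ∅ = 0 := by
  obtain ⟨s, hs⟩ := hne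
  have h1 := (hL s.1 s.2 (hT s hs)).2.pin
  unfold ind at h1 ⊢
  have h2 : ¬ Zr s.1 s.2 ∅ := by
    intro h3
    rw [if_pos h3] at h1
    norm_num at h1
  rw [if_neg fun h3 => h2 (h3 s hs)]

/-- **Product decomposition.** -/
theorem exists_prod (hL : S_loc) {a b c e δ R : ℝ} (T : Finset ((ℤ × ℤ) × ℤ))
    (hT : ∀ s ∈ T, 1 ≤ s.2 ∧ (∃ i, FinT δ (iE (bx s.1 (2 * s.2))) (Kq a b c e i)) ∧
      FinT δ (iE (bx s.1 (2 * s.2))) {z | |c1 z| ≤ R ∧ |c2 z| ≤ R}) :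
    ∃ X1 X2 X3 : Hgt → ℝ,
      (SD.Loc (lat δ (PW.K1 ⟨a, b, c, e, R⟩)) X1 ∧ SD.Loc (lat δ (PW.K2 ⟨a, b, c, e, R⟩)) X2 ∧
        SD.Loc (lat δ (PW.K3 ⟨a, b, c, e, R⟩)) X3) ∧
      ((∀ h, 0 ≤ X1 h ∧ X1 h ≤ 1) ∧ (∀ h, 0 ≤ X2 h ∧ X2 h ≤ 1) ∧ (∀ h, 0 ≤ X3 h ∧ X3 h ≤ 1)) ∧
      ∀ h, ind (AllZ T) (bl h) = X1 h * X2 h * X3 h := by
  classical
  have hi : ∀ s ∈ T, ∃ i, FinT δ (iE (bx s.1 (2 * s.2))) (Kq a b c e i) :=
    fun s hs => (hT s hs).2.1
  choose! i hi using hi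
  let Tj : Fin 3 → Finset ((ℤ × ℤ) × ℤ) := fun j => T.filter fun s => i s = j
  have hprod : ∀ B, ind (AllZ T) B = ind (AllZ (Tj 0)) B * ind (AllZ (Tj 1)) B *
      ind (AllZ (Tj 2)) B := by
    intro B
    have key : AllZ T B ↔ (AllZ (Tj 0) B ∧ AllZ (Tj 1) B ∧ AllZ (Tj 2) B) := by
      constructor
      · intro h
        exact ⟨fun s hs => h s (Finset.mem_filter.1 hs).1,
          fun s hs => h s (Finset.mem_filter.1 hs).1, fun s hs => h s (Finset.mem_filter.1 hs).1⟩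
      · rintro ⟨h0, h1, h2⟩ s hs
        have hj : ∀ j, i s = j → s ∈ Tj j := fun j hj => Finset.mem_filter.2 ⟨hs, hj⟩
        have hcase : i s = 0 ∨ i s = 1 ∨ i s = 2 := by
          generalize i s = k
          fin_cases k <;> simp
        rcases hcase with h | h | h
        · exact h0 s (hj _ h)
        · exact h1 s (hj _ h)
        · exact h2 s (hj _ h)
    unfold ind
    by_cases h0 : AllZ (Tj 0) B <;> by_cases h1 : AllZ (Tj 1) B <;>
      by_cases h2 : AllZ (Tj 2) B <;> simp [key, h0, h1, h2]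
  have hloc : ∀ j (K : Set (ℝ × ℝ)),
      (∀ z, z ∈ Kq a b c e j → |c1 z| ≤ R → |c2 z| ≤ R → z ∈ K) →
      SD.Loc (lat δ K) (fun h : Hgt => ind (AllZ (Tj j)) (bl h)) := by
    intro j K hK
    have hA : LocS {w | ∀ x y : Pt, Adj x y → w = x + y → dp δ x ∈ K} (ind (AllZ (Tj j))) := by
      refine locS_allZ hL _ fun s hs => ?_
      obtain ⟨hs1, hs2⟩ := Finset.mem_filter.1 hs
      refine ⟨(hT s hs1).1, fun w hw x y hxy hwe => ?_⟩
      have h1 := hi s hs1 w hw x y hxy hwe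
      rw [hs2] at h1
      have h2 := (hT s hs1).2.2 w hw x y hxy hwe
      exact hK _ h1 h2.1 h2.2
    exact loc_bl hA fun w hw => hw
  refine ⟨fun h => ind (AllZ (Tj 0)) (bl h), fun h => ind (AllZ (Tj 1)) (bl h),
    fun h => ind (AllZ (Tj 2)) (bl h), ⟨hloc 0 _ ?_, hloc 1 _ ?_, hloc 2 _ ?_⟩,
    ⟨fun h => ⟨sd_ind_nonneg _ _, sd_ind_le_one _ _⟩, fun h => ⟨sd_ind_nonneg _ _,
      sd_ind_le_one _ _⟩, fun h => ⟨sd_ind_nonneg _ _, sd_ind_le_one _ _⟩⟩, fun h => hprod _⟩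
  · intro z h1 h2 h3
    simp only [Kq, Set.mem_ofPred_eq] at h1
    rcases h1 with ⟨-, p⟩ | ⟨p, -⟩ | ⟨p, -⟩
    · exact ⟨p, h2, h3⟩
    all_goals exact absurd p (by decide)
  · intro z h1 h2 h3
    simp only [Kq, Set.mem_ofPred_eq] at h1
    rcases h1 with ⟨p, -⟩ | ⟨-, p, q⟩ | ⟨p, -⟩
    · exact absurd p (by decide)
    · exact ⟨q, p, h2, h3⟩
    all_goals exact absurd p (by decide)
  · intro z h1 h2 h3
    simp only [Kq, Set.mem_ofPred_eq] at h1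
    rcases h1 with ⟨p, -⟩ | ⟨p, -⟩ | ⟨-, p, q, r⟩
    · exact absurd p (by decide)
    · exact absurd p (by decide)
    · exact ⟨r, p, q, h2, h3⟩

end Vale.Agent.P153.F.X.Sdx
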