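import Vale.Agent.P153.F.X.Stmt

/-!
P153-F, block X: the interface between the frame and the Schwinger-Dyson half (mirror of `SdH` of
`P145.X.Frame`).
-/

namespace Vale.Agent.P153.F.X

open Filter Topology Set MeasureTheory
open Vale.Agent.P153
open Vale.Agent.P153.F.Top (Om hv c1 c2 cell ccell)
open Vale.Agent.P145.PT (TestOn lap)

/-- The outer regions of the pinwheel of the triangle `a ≤ q₁`, `b ≤ q₂`, `q₁ + q₂ ≤ c`, with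
corridors of width `e`. -/
def Pin (a b c e : ℝ) : Set (ℝ × ℝ) :=
  {z | c1 z ≤ a - e ∨ (a ≤ c1 z ∧ c + e ≤ c1 z + c2 z) ∨
    (a ≤ c1 z ∧ c1 z + c2 z ≤ c ∧ c2 z ≤ b - e)}

/-- The family of circuits. -/
def Fy (w : ℤ) (Y : Finset (ℤ × ℤ)) (p : ℤ × ℤ) (r : ℤ) (B : Set Pt) : Prop :=
  (∀ y ∈ Y, Zr (ce w y) w B) ∧ Zr p r B

/-- The family of circuits: the net `Y` at scale `w`, and a far circuit. -/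
def QQ (w : ℤ) (Y : Finset (ℤ × ℤ)) (y0 : ℤ × ℤ) (l : ℤ) : Set Pt → Prop :=
  Fy w Y (ce w y0) (4 * (l * w))

/-- The Schwinger-Dyson half. -/
def SdH (κ : ℝ) (P : Measure (Pt → ℤ)) (δ : ℕ → ℝ) : Prop :=
  ∀ D₁ : Set (ℝ × ℝ), IsOpen D₁ → Bornology.IsBounded D₁ → ∀ a b c : ℝ, a + b < c →
  ccell a b c ⊆ D₁ → ∀ e : ℝ, 0 < e → ∀ (ψ f0 g : ℝ × ℝ → ℝ) (k : ℕ),
  TestOn (cell a b c) ψ → TestOn (cell a b c) f0 → TestOn D₁ g →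
  (∀ z, g z ≠ 0 → z ∈ Pin a b c e) → ∀ ε : ℝ, 0 < ε → ∀ (j N : ℕ) (e₁ : ℝ), 0 < e₁ →
  ∀ (Y : ℕ → Finset (ℤ × ℤ)) (y0 : ℕ → ℤ × ℤ) (l : ℕ → ℤ),
  (∀ᶠ n in atTop, (∀ y ∈ Y n, |y.1| ≤ N ∧ |y.2| ≤ N ∧
      ∃ i, FinT (δ n) (iE (bx (ce (sc ε (δ n) (j + 1)) y) (2 * sc ε (δ n) (j + 1))))
        (Kq a b c e₁ i)) ∧
    1 ≤ l n ∧ |(y0 n).1| + 8 * l n ≤ N ∧ |(y0 n).2| + 8 * l n ≤ N ∧
    FinT (δ n) (iE (bx (ce (sc ε (δ n) (j + 1)) (y0 n)) (8 * (l n * sc ε (δ n) (j + 1)))))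
      {z | c1 z ≤ a - 1}) →
  ∀ c₀ : ℝ, 0 < c₀ →
  (∀ᶠ n in atTop, c₀ ≤ II P (ind (QQ (sc ε (δ n) (j + 1)) (Y n) (y0 n) (l n))) (fun _ => 1)) →
  (∀ f : ℝ × ℝ → ℝ, TestOn D₁ f → (∀ z, 0 ≤ f z) → ∀ k : ℕ, ∃ C : ℝ, ∀ᶠ n in atTop,
    II P (ind (QQ (sc ε (δ n) (j + 1)) (Y n) (y0 n) (l n))) (fun ω => hv (δ n) f ω ^ (2 * k)) ≤
      C * II P (ind (QQ (sc ε (δ n) (j + 1)) (Y n) (y0 n) (l n))) (fun _ => 1)) →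
  Tendsto (fun n =>
    (II P (ind (QQ (sc ε (δ n) (j + 1)) (Y n) (y0 n) (l n)))
        (fun ω => hv (δ n) (lap ψ) ω * hv (δ n) (fun z => f0 z + g z) ω ^ (k + 1)) +
      κ * (k + 1) * (∫ z, ψ z * (f0 z + g z)) *
        II P (ind (QQ (sc ε (δ n) (j + 1)) (Y n) (y0 n) (l n)))
          (fun ω => hv (δ n) (fun z => f0 z + g z) ω ^ k)) /
      II P (ind (QQ (sc ε (δ n) (j + 1)) (Y n) (y0 n) (l n))) (fun _ => 1)) atTop (𝓝 0)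

end Vale.Agent.P153.F.X
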