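import Vale.Agent.P145.X.Shell2

/-!
P153-F, block X: the shell lemma for the pinwheel of a triangle (lattice coordinates).
-/

namespace Vale.Agent.P153.F.X

open Relation Metric
open Vale.Agent.P145.X (CBox fpt cen shell_abs dist_fpt_le abs_infDist_sub_le exists_grid cen_near
  shell_bdd int_finite)

/-- The corridors: neighbourhoods of the line `z.1 = a₁` and of the half line `z.1 + z.2 = c₁`,
`a₁ ≤ z.1`. -/
def cor (a₁ c₁ W : ℝ) (i : Fin 2) : Set (ℝ × ℝ) :=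
  match i with
  | 0 => {z | |z.1 - a₁| ≤ W}
  | 1 => {z | |z.1 + z.2 - c₁| ≤ W ∧ a₁ - W ≤ z.1}

/-- The coordinate along the corridor. -/
def tc (i : Fin 2) : ℝ × ℝ → ℝ :=
  match i with
  | 0 => Prod.snd
  | 1 => Prod.fst

theorem abs_fst_le (z z' : ℝ × ℝ) : |z.1 - z'.1| ≤ dist z z' := by
  rw [Prod.dist_eq, Real.dist_eq, Real.dist_eq]
  exact le_max_left _ _

theorem abs_snd_le (z z' : ℝ × ℝ) : |z.2 - z'.2| ≤ dist z z' := by
  rw [Prod.dist_eq, Real.dist_eq, Real.dist_eq]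
  exact le_max_right _ _

theorem dist_le_of {z z' : ℝ × ℝ} {e : ℝ} (h1 : |z.1 - z'.1| ≤ e) (h2 : |z.2 - z'.2| ≤ e) :
    dist z z' ≤ e := by
  rw [Prod.dist_eq, Real.dist_eq, Real.dist_eq]
  exact max_le h1 h2

theorem tc_lip (i : Fin 2) (z z' : ℝ × ℝ) : |tc i z - tc i z'| ≤ dist z z' := by
  fin_cases i
  · exact abs_snd_le z z'
  · exact abs_fst_le z z'

theorem cor_dist {a₁ c₁ W : ℝ} (hW : 0 ≤ W) (i : Fin 2) {z z' : ℝ × ℝ} (hz : z ∈ cor a₁ c₁ W i)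
    (hz' : z' ∈ cor a₁ c₁ W i) : dist z z' ≤ |tc i z - tc i z'| + 2 * W := by
  fin_cases i
  · have h1 := abs_le.1 (show |z.1 - a₁| ≤ W from hz)
    have h2 := abs_le.1 (show |z'.1 - a₁| ≤ W from hz')
    show dist z z' ≤ |z.2 - z'.2| + 2 * W
    have h3 := abs_nonneg (z.2 - z'.2)
    exact dist_le_of (abs_le.2 (by constructor <;> linarith [h1.1, h1.2, h2.1, h2.2]))
      (by linarith)
  · have h1 := abs_le.1 (show |z.1 + z.2 - c₁| ≤ W from hz.1)
    have h2 := abs_le.1 (show |z'.1 + z'.2 - c₁| ≤ W from hz'.1)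
    show dist z z' ≤ |z.1 - z'.1| + 2 * W
    have h3 := neg_abs_le (z.1 - z'.1)
    have h4 := le_abs_self (z.1 - z'.1)
    exact dist_le_of (by linarith)
      (abs_le.2 (by constructor <;> linarith [h1.1, h1.2, h2.1, h2.2]))

theorem cor_of_dist {a₁ c₁ W W' : ℝ} {i : Fin 2} {z z' : ℝ × ℝ} (hz : z ∈ cor a₁ c₁ W i)
    (h : W + 2 * dist z z' ≤ W') : z' ∈ cor a₁ c₁ W' i := by
  have h1 := abs_le.1 (abs_fst_le z z')
  have h2 := abs_le.1 (abs_snd_le z z')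
  have h0 : 0 ≤ dist z z' := dist_nonneg
  fin_cases i
  · have h3 := abs_le.1 (show |z.1 - a₁| ≤ W from hz)
    show |z'.1 - a₁| ≤ W'
    exact abs_le.2 (by constructor <;> linarith [h1.1, h1.2, h3.1, h3.2])
  · have h3 := abs_le.1 (show |z.1 + z.2 - c₁| ≤ W from hz.1)
    have h4 : a₁ - W ≤ z.1 := hz.2
    exact ⟨abs_le.2 (by constructor <;> linarith [h1.1, h1.2, h2.1, h2.2, h3.1, h3.2]), by
      linarith [h1.1, h1.2]⟩

/-- **Shell lemma** for two corridors. -/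
theorem shell_geo {E : ℤ × ℤ → ℤ × ℤ → Prop} (hs : ∀ u v, E u v → E v u)
    (hE : ∀ u v, E u v → |u.1 - v.1| ≤ 1 ∧ |u.2 - v.2| ≤ 1) {D : Set (ℝ × ℝ)} {a₁ c₁ : ℝ}
    (hp₀ : (a₁, c₁ - a₁) ∈ D) {δ W l h a b : ℝ} (hδ : 0 ≤ δ) (hW : 0 ≤ W) (hl : 0 < l)
    (hh : 0 < h) (hWa : 2 * W + δ < a) (hab : a + 2 * δ + l + 2 * W ≤ b)
    (h1 : ∀ f : ℤ × ℤ, a ≤ infDist (fpt δ f) D → infDist (fpt δ f) D ≤ b →
      (∀ i, fpt δ f ∉ cor a₁ c₁ W i) → ∃ (x : ℤ × ℤ) (R : ℤ), |f.1 - x.1| ≤ R ∧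
        |f.2 - x.2| ≤ R ∧ CBox E x R (3 * R) ∧ 4 * δ * R < h)
    (h2 : ∀ (i : Fin 2) (f : ℤ × ℤ), fpt δ f ∈ cor a₁ c₁ W i →
      a ≤ infDist (fpt δ f) D → infDist (fpt δ f) D ≤ b →
      (∃ k : ℤ, |tc i (fpt δ f) - k * l| ≤ δ) →
      ∃ (x : ℤ × ℤ) (R : ℤ), |f.1 - x.1| ≤ R ∧ |f.2 - x.2| ≤ R ∧ CBox E x R (3 * R) ∧
        4 * δ * R < h)
    {u v : ℤ × ℤ} (hu : infDist (fpt δ u) D ≤ a - h) (hv : b ≤ infDist (fpt δ v) D) :
    ¬ ReflTransGen E u v := by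
  have hρ := abs_infDist_sub_le D
  have hstep : ∀ u v, E u v → dist (fpt δ u) (fpt δ v) ≤ δ := by
    intro u v huv
    have := dist_fpt_le hδ (R := 1) (hE u v huv).1 (hE u v huv).2
    simpa using this
  have hcl : ∀ f : ℤ × ℤ, (∃ (x : ℤ × ℤ) (R : ℤ), |f.1 - x.1| ≤ R ∧ |f.2 - x.2| ≤ R ∧
      CBox E x R (3 * R) ∧ 4 * δ * R < h) → ∀ w, ReflTransGen E f w →
      |infDist (fpt δ f) D - infDist (fpt δ w) D| < h := by
    rintro f ⟨x, R, hx1, hx2, hC, hR⟩ w hw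
    obtain ⟨h3, h4⟩ := hC f w hx1 hx2 hw
    have h5 : dist (fpt δ f) (fpt δ w) ≤ δ * (4 * R : ℤ) := by
      refine dist_fpt_le hδ ?_ ?_ <;> rw [abs_le] at * <;> constructor <;> linarith [hx1.1, hx1.2,
        hx2.1, hx2.2, h3.1, h3.2, h4.1, h4.2]
    push_cast at h5
    have := hρ (fpt δ f) (fpt δ w)
    nlinarith
  -- close to the corner
  have hc : ∀ z : ℝ × ℝ, |z.1 - a₁| ≤ W + δ → |z.1 + z.2 - c₁| ≤ W → infDist z D < a := by
    intro z h3 h4
    have h6 := infDist_le_dist_of_mem (x := z) hp₀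
    have h5 : dist z (a₁, c₁ - a₁) ≤ 2 * W + δ := by
      rw [abs_le] at h3 h4
      refine dist_le_of ?_ ?_ <;> simp only <;> rw [abs_le] <;> constructor <;>
        linarith [h3.1, h3.2, h4.1, h4.2]
    linarith
  refine shell_abs (V := ℤ × ℤ) (I := Fin 2) hs (ρ := fun f => infDist (fpt δ f) D)
    (K := fun i => {f | fpt δ f ∈ cor a₁ c₁ W i}) (t := fun i f => tc i (fpt δ f))
    (a := a) (b := b) (d := δ) (τ := δ) (l := l) (W := 2 * W) (h := h) hl hh hδ (by linarith) hab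
    (fun u v huv => (hρ _ _).trans (hstep u v huv))
    (fun i u v huv => (tc_lip i _ _).trans (hstep u v huv)) ?_
    (fun i u v hu hv => (hρ _ _).trans (cor_dist hW i hu hv))
    (fun f hfa hfb hf => hcl f (h1 f hfa hfb hf))
    (fun i f hf hfa hfb hk => hcl f (h2 i f hf hfa hfb hk)) hu hv
  intro i j u v huv hi hj hau hav
  have hd := abs_le.1 ((abs_fst_le (fpt δ u) (fpt δ v)).trans (hstep u v huv))
  fin_cases i <;> fin_cases j
  · rfl
  · have h3 := abs_le.1 (show |(fpt δ u).1 - a₁| ≤ W from hi)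
    exact absurd hav (not_le.2 (hc _ (abs_le.2 (by
      constructor <;> linarith [hd.1, hd.2, h3.1, h3.2])) hj.1))
  · have h3 := abs_le.1 (show |(fpt δ v).1 - a₁| ≤ W from hj)
    exact absurd hau (not_le.2 (hc _ (abs_le.2 (by
      constructor <;> linarith [hd.1, hd.2, h3.1, h3.2])) hi.1))
  · rfl

/-- The centres: points `w y` at distance between `a / 4` and `4 b` of `D` such that the ball
of radius `3 w` avoids the corridors of half width `W₀`. -/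
def Good (D : Set (ℝ × ℝ)) (a₁ c₁ W₀ w a b : ℝ) (y : ℤ × ℤ) : Prop :=
  a / 4 ≤ infDist (fpt w y) D ∧ infDist (fpt w y) D ≤ 4 * b ∧
    ∀ z, dist z (fpt w y) ≤ 3 * w → ∀ i, z ∉ cor a₁ c₁ W₀ i

theorem exists_good {D : Set (ℝ × ℝ)} {a₁ c₁ W₀ w a b : ℝ} (hw : 0 < w) {z : ℝ × ℝ}
    (ha : a / 4 + w / 2 ≤ infDist z D) (hb : infDist z D ≤ 4 * b - w / 2)
    (hz : ∀ i, z ∉ cor a₁ c₁ (W₀ + 7 * w) i) :
    ∃ y, Good D a₁ c₁ W₀ w a b y ∧ dist z (fpt w y) ≤ w / 2 := by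
  obtain ⟨y, hy⟩ := exists_grid hw z
  have h1 := abs_le.1 (abs_infDist_sub_le D z (fpt w y))
  refine ⟨y, ⟨by linarith [h1.1, h1.2], by linarith [h1.1, h1.2], fun z' hz' i hi => ?_⟩, hy⟩
  refine hz i (cor_of_dist hi ?_)
  have h2 := dist_triangle z' (fpt w y) z
  rw [dist_comm (fpt w y) z] at h2
  linarith

theorem good_finite {D : Set (ℝ × ℝ)} (hD : Bornology.IsBounded D)
    (hD0 : D.Nonempty) {a₁ c₁ W₀ w a b : ℝ} (hw : 0 < w) :
    {y : ℤ × ℤ | Good D a₁ c₁ W₀ w a b y}.Finite := by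
  obtain ⟨M, hM⟩ := shell_bdd hD hD0 (4 * b)
  refine ((int_finite (M := M) hw).prod (int_finite (M := M) hw)).subset ?_
  intro y hy
  exact hM _ hy.2.1

/-- The point `k` of the corridor `i`. -/
noncomputable def sp (a₁ c₁ l : ℝ) (i : Fin 2) (k : ℤ) : ℝ × ℝ :=
  match i with
  | 0 => (a₁, k * l)
  | 1 => (k * l, c₁ - k * l)

/-- The sparse points. -/
def Sp (D : Set (ℝ × ℝ)) (a₁ c₁ l a b : ℝ) (i : Fin 2) (k : ℤ) : Prop :=
  a / 2 ≤ infDist (sp a₁ c₁ l i k) D ∧ infDist (sp a₁ c₁ l i k) D ≤ 2 * b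

theorem sp_le {D : Set (ℝ × ℝ)} {M a₁ c₁ l a b : ℝ}
    (hM : ∀ z, infDist z D ≤ 2 * b → |z.1| ≤ M ∧ |z.2| ≤ M) {i : Fin 2} {k : ℤ}
    (h : Sp D a₁ c₁ l a b i k) : |l * (k : ℝ)| ≤ M := by
  have h1 := hM _ h.2
  rw [mul_comm]
  fin_cases i
  · exact h1.2
  · exact h1.1

/-- Every sparse point has a centre at distance at most `W₀ + 17 w / 2`. -/
theorem exists_xc {D : Set (ℝ × ℝ)} {a₁ c₁ : ℝ} (hp₀ : (a₁, c₁ - a₁) ∈ D) {W₀ w l a b : ℝ}
    (hw : 0 < w) (hW₀ : 0 ≤ W₀) (ha : 6 * W₀ + 46 * w < a) (hab : a ≤ b) {i : Fin 2} {k : ℤ}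
    (hk : Sp D a₁ c₁ l a b i k) : ∃ y, Good D a₁ c₁ W₀ w a b y ∧
      dist (sp a₁ c₁ l i k) (fpt w y) ≤ W₀ + 17 / 2 * w := by
  -- the shifted point
  have key : ∀ z, dist (sp a₁ c₁ l i k) z ≤ W₀ + 8 * w →
      (∀ j, z ∉ cor a₁ c₁ (W₀ + 7 * w) j) → ∃ y, Good D a₁ c₁ W₀ w a b y ∧
      dist (sp a₁ c₁ l i k) (fpt w y) ≤ W₀ + 17 / 2 * w := by
    intro z hz hcz
    have h1 := abs_le.1 (abs_infDist_sub_le D (sp a₁ c₁ l i k) z)
    obtain ⟨y, hy, hyz⟩ := exists_good (D := D) (W₀ := W₀) (a := a) (b := b) hw (z := z)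
      (by linarith [h1.1, h1.2, hk.1]) (by linarith [h1.1, h1.2, hk.2]) hcz
    refine ⟨y, hy, ?_⟩
    have := dist_triangle (sp a₁ c₁ l i k) z (fpt w y)
    linarith
  have hfar : ∀ z, dist (sp a₁ c₁ l i k) z ≤ W₀ + 8 * w → ∀ q ∈ D,
      2 * W₀ + 15 * w < dist z q := by
    intro z hz q hq
    have h1 := abs_le.1 (abs_infDist_sub_le D (sp a₁ c₁ l i k) z)
    have h2 := infDist_le_dist_of_mem (x := z) hq
    have h3 := hk.1
    linarith [h1.1, h1.2]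
  have h0 : 0 < W₀ + 8 * w := by linarith
  fin_cases i
  · -- corridor 0
    have hd : dist ((a₁, k * l) : ℝ × ℝ) (a₁ - (W₀ + 8 * w), k * l) ≤ W₀ + 8 * w := by
      refine dist_le_of ?_ ?_ <;> simp only <;> rw [abs_le] <;> constructor <;> linarith
    refine key (a₁ - (W₀ + 8 * w), k * l) hd fun j hj => ?_
    fin_cases j
    · have hj' := (abs_le.1 (show |a₁ - (W₀ + 8 * w) - a₁| ≤ W₀ + 7 * w from hj)).1
      linarith
    · have hj' : a₁ - (W₀ + 7 * w) ≤ a₁ - (W₀ + 8 * w) := hj.2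
      linarith
  · -- corridor 1
    have hd : dist ((k * l, c₁ - k * l) : ℝ × ℝ) (k * l, c₁ - k * l + (W₀ + 8 * w)) ≤
        W₀ + 8 * w := by
      refine dist_le_of ?_ ?_ <;> simp only <;> rw [abs_le] <;> constructor <;> linarith
    refine key (k * l, c₁ - k * l + (W₀ + 8 * w)) hd fun j hj => ?_
    fin_cases j
    · have hj' := abs_le.1 (show |k * l - a₁| ≤ W₀ + 7 * w from hj)
      have h4 := hfar _ hd _ hp₀
      have h5 : dist ((k * l, c₁ - k * l + (W₀ + 8 * w)) : ℝ × ℝ) (a₁, c₁ - a₁) ≤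
          2 * W₀ + 15 * w := by
        refine dist_le_of ?_ ?_ <;> simp only <;> rw [abs_le] <;> constructor <;>
          linarith [hj'.1, hj'.2]
      linarith
    · have hj' := (abs_le.1 (show |k * l + (c₁ - k * l + (W₀ + 8 * w)) - c₁| ≤ W₀ + 7 * w from
        hj.1)).2
      linarith

/-- **Shell lemma, for the circuits of a grid.** -/
theorem shell_grid {E : ℤ × ℤ → ℤ × ℤ → Prop} (hs : ∀ u v, E u v → E v u)
    (hE : ∀ u v, E u v → |u.1 - v.1| ≤ 1 ∧ |u.2 - v.2| ≤ 1) {D : Set (ℝ × ℝ)} {a₁ c₁ : ℝ}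
    (hp₀ : (a₁, c₁ - a₁) ∈ D) {δ W₀ w l h a b : ℝ} (hδ : 0 < δ) (hw : 0 < w) (hW₀ : 0 ≤ W₀)
    (hl : 0 < l) (hh : 0 < h) (hδw : 4 * δ ≤ w) (ha : 6 * W₀ + 46 * w < a)
    (hab : a + l + 2 * W₀ + 15 * w ≤ b) {r : ℤ} (hr : w / 2 + δ ≤ δ * r) (hrh : 4 * δ * r < h)
    (hX : ∀ y, Good D a₁ c₁ W₀ w a b y → CBox E (cen w δ y) r (3 * r))
    (hZ : ∀ i k, Sp D a₁ c₁ l a b i k → ∃ (y : ℤ × ℤ) (R : ℤ),
      dist (sp a₁ c₁ l i k) (fpt w y) ≤ W₀ + 17 / 2 * w ∧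
      2 * W₀ + 31 / 2 * w + 2 * δ ≤ δ * R ∧ 4 * δ * R < h ∧ CBox E (cen w δ y) R (3 * R))
    {u v : ℤ × ℤ} (hu : infDist (fpt δ u) D ≤ a - h) (hv : b ≤ infDist (fpt δ v) D) :
    ¬ ReflTransGen E u v := by
  refine shell_geo hs hE hp₀ (W := W₀ + 7 * w) (l := l) (h := h) hδ.le (by linarith) hl hh
    (by linarith) (by linarith) ?_ ?_ hu hv
  · intro f hfa hfb hf
    obtain ⟨y, hy, hyf⟩ := exists_good (D := D) (W₀ := W₀) (a := a) (b := b) hw (z := fpt δ f)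
      (by linarith) (by linarith) hf
    obtain ⟨h3, h4⟩ := cen_near hδ hyf hr
    exact ⟨cen w δ y, r, h3, h4, hX y hy, hrh⟩
  · rintro i f hf hfa hfb ⟨k, hk⟩
    -- the distance from `f` to the sparse point
    have hdist : dist (fpt δ f) (sp a₁ c₁ l i k) ≤ W₀ + 7 * w + δ := by
      fin_cases i
      · have h4 := abs_le.1 (show |(fpt δ f).1 - a₁| ≤ W₀ + 7 * w from hf)
        have h5 := abs_le.1 (show |(fpt δ f).2 - k * l| ≤ δ from hk)
        show dist (fpt δ f) (a₁, k * l) ≤ _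
        refine dist_le_of ?_ ?_ <;> simp only <;> rw [abs_le] <;> constructor <;>
          linarith [h4.1, h4.2, h5.1, h5.2]
      · have h4 := abs_le.1 (show |(fpt δ f).1 + (fpt δ f).2 - c₁| ≤ W₀ + 7 * w from hf.1)
        have h5 := abs_le.1 (show |(fpt δ f).1 - k * l| ≤ δ from hk)
        show dist (fpt δ f) (k * l, c₁ - k * l) ≤ _
        refine dist_le_of ?_ ?_ <;> simp only <;> rw [abs_le] <;> constructor <;>
          linarith [h4.1, h4.2, h5.1, h5.2]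
    have hinf := abs_le.1 (abs_infDist_sub_le D (fpt δ f) (sp a₁ c₁ l i k))
    have hSp : Sp D a₁ c₁ l a b i k := ⟨by linarith [hinf.1, hinf.2], by linarith [hinf.1, hinf.2]⟩
    obtain ⟨y, R, hy, hR, hRh, hC⟩ := hZ i k hSp
    have h8 := dist_triangle (fpt δ f) (sp a₁ c₁ l i k) (fpt w y)
    obtain ⟨h3, h4⟩ := cen_near (ρ := 2 * W₀ + 31 / 2 * w + δ) (R := R) hδ
      (show dist (fpt δ f) (fpt w y) ≤ 2 * W₀ + 31 / 2 * w + δ by linarith) (by linarith)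
    exact ⟨cen w δ y, R, h3, h4, hC, hRh⟩

/-! ### The regions -/

theorem dich {S : Set (ℝ × ℝ)} (hS : IsPreconnected S) {f : ℝ × ℝ → ℝ} (hf : Continuous f)
    {α β : ℝ} (hαβ : α ≤ β) (h : ∀ z ∈ S, f z < α ∨ β < f z) :
    (∀ z ∈ S, f z < α) ∨ (∀ z ∈ S, β < f z) := by
  by_contra hcon
  push Not at hcon
  obtain ⟨⟨x, hx, hxa⟩, y, hy, hyb⟩ := hcon
  have hx' : β < f x := by
    rcases h x hx with h1 | h1
    · linarith
    · exact h1
  have hy' : f y < α := by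
    rcases h y hy with h1 | h1
    · exact h1
    · linarith
  obtain ⟨z, hz, hzf⟩ := hS.intermediate_value hy hx hf.continuousOn
    (show α ∈ Set.Icc (f y) (f x) from ⟨hy'.le, by linarith⟩)
  rcases h z hz with h1 | h1
  · rw [hzf] at h1
    exact lt_irrefl _ h1
  · rw [hzf] at h1
    linarith

/-- A ball which avoids the corridors and `D` is in one of the three regions. -/
theorem arms {a b c e ρ : ℝ} {p : ℝ × ℝ} {D : Set (ℝ × ℝ)} (habc : a + b < c) (he : 0 < e)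
    (hD : {z : ℝ × ℝ | a ≤ z.1 ∧ b ≤ z.2 ∧ z.1 + z.2 ≤ c} ⊆ D) (hinf : ρ + e ≤ infDist p D)
    (hball : ∀ z, dist z p ≤ ρ → ∀ i, z ∉ cor (a - e / 2) (c + e / 2) (e / 2) i) :
    (∀ z : ℝ × ℝ, dist z p ≤ ρ → z.1 ≤ a - e) ∨
    (∀ z : ℝ × ℝ, dist z p ≤ ρ → a ≤ z.1 ∧ c + e ≤ z.1 + z.2) ∨
    (∀ z : ℝ × ℝ, dist z p ≤ ρ → a ≤ z.1 ∧ z.1 + z.2 ≤ c ∧ z.2 ≤ b - e) := by
  have hS : IsPreconnected (closedBall p ρ) := (convex_closedBall p ρ).isPreconnected
  have h1 : ∀ z ∈ closedBall p ρ, z.1 < a - e ∨ a < z.1 := by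
    intro z hz
    by_contra hc
    push Not at hc
    refine hball z hz 0 ?_
    show |z.1 - (a - e / 2)| ≤ e / 2
    rw [abs_le]
    constructor <;> linarith [hc.1, hc.2]
  rcases dich hS continuous_fst (by linarith) h1 with h1 | h1
  · exact Or.inl fun z hz => (h1 z hz).le
  · right
    have h2 : ∀ z ∈ closedBall p ρ, z.1 + z.2 < c ∨ c + e < z.1 + z.2 := by
      intro z hz
      by_contra hc
      push Not at hc
      refine hball z hz 1 ⟨?_, by linarith [h1 z hz]⟩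
      show |z.1 + z.2 - (c + e / 2)| ≤ e / 2
      rw [abs_le]
      constructor <;> linarith [hc.1, hc.2]
    rcases dich hS (continuous_fst.add continuous_snd) (by linarith) h2 with h2 | h2
    · right
      intro z hz
      refine ⟨(h1 z hz).le, (h2 z hz).le, ?_⟩
      by_contra hc
      push Not at hc
      have h3 := h1 z hz
      have h4 : z.1 + z.2 < c := h2 z hz
      have hmem : (min z.1 (c - max b z.2), max b z.2) ∈ D := by
        refine hD ⟨?_, le_max_left _ _, ?_⟩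
        · refine le_min h3.le ?_
          rcases max_cases b z.2 with h | h <;> rw [h.1] <;> linarith
        · have := min_le_right z.1 (c - max b z.2)
          simp only
          linarith
      have h5 := infDist_le_dist_of_mem (x := z) hmem
      have h6 : dist z (min z.1 (c - max b z.2), max b z.2) < e := by
        rw [Prod.dist_eq, Real.dist_eq, Real.dist_eq]
        refine max_lt ?_ ?_
        · simp only
          rw [abs_lt]
          rcases min_cases z.1 (c - max b z.2) with h | h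
          · rw [h.1]
            constructor <;> linarith
          · rw [h.1]
            rcases max_cases b z.2 with h' | h' <;> rw [h'.1] at h ⊢ <;> constructor <;> linarith
        · simp only
          rw [abs_lt]
          rcases max_cases b z.2 with h | h <;> rw [h.1] <;> constructor <;> linarith
      have h7 := abs_le.1 (abs_infDist_sub_le D z p)
      have h8 : dist z p ≤ ρ := hz
      linarith [h7.1, h7.2]
    · left
      intro z hz
      exact ⟨(h1 z hz).le, (h2 z hz).le⟩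

end Vale.Agent.P153.F.X
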